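import Vale.Agent.P352Y.T3D
import Vale.Agent.P352L.Spec2

/-!
# P352L, row T3P: the time ordered three point functions of the members of the family
-/

set_option linter.all false

noncomputable section

open Filter Topology Set Metric MeasureTheory
open scoped SchwartzMap ComplexConjugate

namespace Vale.Agent.P352L

open Vale.Agent.P352 Vale.Agent.P352.GF Vale.Agent.P352.BW Vale.Agent.P352X Api4
open UniformSpace (Completion)

namespace T3p

open Vale.Agent.P352Y (M3 e12 e23 s1 s2 sim3 sim3_apply p1 p2 q1 Cv Ag Rg Rr Kk Good braid cj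
  cj_smul tsupport_cj bd_two ker3_box open_Rg open_Rr Le le_box w3 sw_tens Rg_23 Rr_sim Rr_red
  Rr_diag Rr_cover Ur supp_red supp_fib fib_red fib_sim t_fib R3 sum_R3 lift fix f0 f0_zero
  f0_away act_apply tsupport_comp)
open Ap (Cc)
open Vale.Agent.P352X.ST (tens)
open RS.Fib (lor_one)

/-- covariance under one similitude, between two multiplets -/
def Cw {s : ℝ} {L : Ix → V} (hs : 0 < s) (hL : IsLor L) (a : V) (t' t : M3) (F : S3) : Prop :=
  ∀ I J K, t' I J K F =
    ∑ I', ∑ J', ∑ K', L2 L I' I * L2 L J' J * L2 L K' K * t I' J' K' (sim3 hs hL a F)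

section cw

variable {s : ℝ} {L : Ix → V} {hs : 0 < s} {hL : IsLor L} {a : V} {t t' : M3} {F : S3}
  {k k' : Bool → M3}

lemma Cw.p1 (h : Cw hs hL a t' t (s1 F)) : Cw hs hL a (p1 t') (p1 t) F := fun I J K => by
  refine (h J I K).trans (Finset.sum_comm.trans (Finset.sum_congr rfl fun I' _ =>
    Finset.sum_congr rfl fun J' _ => Finset.sum_congr rfl fun K' _ => ?_))
  rw [mul_comm (L2 L J' J), show sim3 hs hL a (s1 F) = s1 (sim3 hs hL a F) from
    SchwartzMap.ext fun z => (sim3_apply _ _ _ _ _).trans (sim3_apply hs hL a F (e12 z)).symm]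
  rfl

lemma Cw.p2 (h : Cw hs hL a t' t (s2 F)) : Cw hs hL a (p2 t') (p2 t) F := fun I J K => by
  refine (h I K J).trans (Finset.sum_congr rfl fun I' _ => Finset.sum_comm.trans
    (Finset.sum_congr rfl fun J' _ => Finset.sum_congr rfl fun K' _ => ?_))
  rw [mul_right_comm (L2 L I' I), show sim3 hs hL a (s2 F) = s2 (sim3 hs hL a F) from
    SchwartzMap.ext fun z => (sim3_apply _ _ _ _ _).trans (sim3_apply hs hL a F (e23 z)).symm]
  rfl

lemma cw_Kk (h : ∀ e F, Cw hs hL a (k' e) (k e) F) (e : Bool) (i : Fin 3) (F : S3) :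
    Cw hs hL a (Kk k' e i) (Kk k e i) F := by
  fin_cases i
  exacts [h e F, (h e _).p1, (h e _).p1.p2]

/-- covariance off the diagonal -/
lemma cw_off (hc : ∀ e F, Cw hs hL a (k' e) (k e) F) (h' : ∀ e i, Ag (Rr e i) t' (Kk k' e i))
    (h : ∀ e i, Ag (Rr e i) t (Kk k e i)) (hF : ∀ x, (x, x, x) ∉ tsupport F) :
    Cw hs hL a t' t F := fun I J K => by
  have := ST.vanish_local (t' I J K - ∑ I', ∑ J', ∑ K', (L2 L I' I * L2 L J' J * L2 L K' K) •
    (t I' J' K' ∘L sim3 hs hL a)) F fun q hq => ?_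
  · simpa only [ContinuousLinearMap.sub_apply, ContinuousLinearMap.sum_apply, sub_eq_zero,
      ContinuousLinearMap.smul_apply, ContinuousLinearMap.comp_apply, smul_eq_mul] using this
  obtain ⟨x, y, z⟩ := q
  obtain ⟨e, i, hi⟩ := Rr_cover (x := x) (y := y) (z := z) (by rintro ⟨rfl, rfl⟩; exact hF _ hq)
  obtain ⟨δ, hδ, hb⟩ := Metric.isOpen_iff.1 (open_Rr e i) _ hi
  refine ⟨δ, hδ, fun f hf => ?_⟩
  have h2 : tsupport (sim3 hs hL a f) ⊆ Rr e i := fun z hz => (Rr_sim hs hL a z).1 (hb (hf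
    (tsupport_comp (by unfold sim; fun_prop) (fun z b => (sim3_apply hs hL a f z).trans b) hz)))
  simp only [ContinuousLinearMap.sub_apply, ContinuousLinearMap.sum_apply, sub_eq_zero,
    ContinuousLinearMap.smul_apply, ContinuousLinearMap.comp_apply, smul_eq_mul,
    h' e i _ _ _ _ (hf.trans hb), h e i _ _ _ _ h2]
  exact cw_Kk hc e i f I J K

variable (hcv : ∀ L (hL : IsLor L) a e F, Cw one_pos hL a (k e) (k e) F)
include hcv

lemma ag_lift {ρ : Sch} (h1 : ∫ y, ρ y = 1) {τ : I2 × I2 × I2 → S2 →L[ℂ] ℂ}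
    (h : ∀ e i b (f : S2), tsupport f ⊆ Ur e i → τ b f = Kk k e i b.1 b.2.1 b.2.2 (red3 ρ f))
    (e : Bool) (i : Fin 3) : Ag (Rr e i) (lift τ) (Kk k e i) := fun I J K F hF =>
  sub_eq_zero.1 (ST.vanish_of_compact (lift τ I J K - Kk k e i I J K) F fun u hc hu =>
    sub_eq_zero.2 ((h e i (I, J, K) _ (supp_fib hc (hu.trans hF))).trans
      (t_fib (fun a F => cw_Kk (hcv _ lor_one a) e i F) h1 I J K u).symm))

/-- **Poincare covariant extension to the diagonal** -/
theorem exists_good (hcm : ∀ e e' i j, Ag (Rr e i ∩ Rr e' j) (Kk k e i) (Kk k e' j)) :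
    ∃ t, Good k t := by
  obtain ⟨r, hr, -, -, r1⟩ := Ap.ex_rho (volume : Measure V) (x := 0) univ_mem
  have h1 : ∫ y, sch (cx r) y = 1 := by
    simp only [sch_apply (dc_cx hr), cx, integral_complex_ofReal, r1, Complex.ofReal_one]
  set ρ := sch (cx r)
  have hg : ∀ b : I2 × I2 × I2, ∃ w : S2 →L[ℂ] ℂ, ∀ e i (f : S2), tsupport f ⊆ Ur e i →
      w f = Kk k e i b.1 b.2.1 b.2.2 (red3 ρ f) := fun b => by
    refine (f0.glue (fun p : Bool × Fin 3 => f0.sig ⁻¹' Ur p.1 p.2)
      (fun p => Kk k p.1 p.2 b.1 b.2.1 b.2.2 ∘L red3 ρ) (fun p => ?_) (fun p u s hs h => ?_)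
      (fun p => Rr_diag 0) (fun u hu => ?_) fun p q F _ hF => ?_).imp fun w hw e i => hw (e, i)
    · exact ((open_Rr _ _).preimage (f := fun y : V × V => (y.1, 0, y.2))
        (by fun_prop)).preimage f0.sig.continuous
    · have e : ∀ x, sim s GF.one 0 x = s • x := fun x => funext fun n => by simp [sim, GF.one, bas]
      refine (Rr_sim hs lor_one 0 _).1 ?_
      simp only [e, smul_zero]
      exact h
    · obtain ⟨e, i, h⟩ := Rr_cover (x := (f0.sig u).1) (y := 0) (z := (f0.sig u).2) fun a =>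
        hu ((f0.inv u).symm.trans (f0_zero.2 (Prod.ext a.1 a.2)))
      exact ⟨(e, i), h⟩
    · exact hcm _ _ _ _ _ _ _ _ fun z hz =>
        ⟨(Rr_red z).1 (hF (supp_red ρ F hz)).1, (Rr_red z).1 (hF (supp_red ρ F hz)).2⟩
  choose τ hτ using hg
  have a0 := ag_lift hcv h1 fun e i b => hτ b e i
  obtain ⟨σ, h0, hσ⟩ := fix R3 τ fun L hL ⟨I, J, K⟩ f hf => by
    have := cw_off (hcv L hL 0) a0 a0 (F := red3 ρ f)
      (fun x a => f0_away.1 hf (by simpa [Prod.mk_zero_zero] using supp_red ρ f a)) I J K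
    simp only [lift, ContinuousLinearMap.comp_apply, fib_sim, fib_red h1] at this
    rw [Pi.sub_apply, ContinuousLinearMap.sub_apply, act_apply, sum_R3, this, sub_self]
  refine ⟨lift (τ + σ), ag_lift hcv h1 fun e i b f hf => ?_, fun L hL a F I J K => ?_⟩
  · rw [Pi.add_apply, ContinuousLinearMap.add_apply, hτ b e i f hf,
      h0 b f (f0_away.2 fun a => Rr_diag 0 (hf a)), add_zero]
  · simp only [lift, ContinuousLinearMap.comp_apply, fib_sim]
    rw [← sum_R3 L I J K fun b => (τ + σ) b _, ← act_apply, hσ]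

end cw

variable {D : Type*} [NormedAddCommGroup D] [InnerProductSpace ℂ D] {Q : Theory D}
  {T : Ix → Ix → Fld D} {wp wm : I2 → I2 → S2 →L[ℂ] Completion D} {k : Bool → M3}

lemma T_fld (hT : Stress0 Q T) (m n : Ix) : Q.fld (T m n) := Q.bose_fld _ (hT.bose m n)

/-- one component applied to the vacuum -/
def tO (hT : Stress0 Q T) (I : I2) : Sch →L[ℂ] Completion D :=
  Completion.toComplL ∘L Grp.fC (T_fld hT I.1 I.2) Q.vac

lemma tO_apply (hT : Stress0 Q T) (I : I2) (f : Sch) :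
    tO hT I f = (T I.1 I.2 (ev f) Q.vac : D) := rfl

lemma tO_swap (hT : Stress0 Q T) (I : I2) : tO hT I.swap = tO hT I :=
  ContinuousLinearMap.ext fun f => congrArg ((↑) : D → Completion D) (hT.symm _ _ _ _ ⟨f, rfl⟩)

/-- the kernels -/
structure KP (hT : Stress0 Q T) (wp wm : I2 → I2 → S2 →L[ℂ] Completion D) (k : Bool → M3) :
    Prop where
  tt : ∀ I J K f G, k true I J K (tens f G) = inner ℂ (tO hT I (cj f)) (wp J K G)
  ff : ∀ I J K f G, k false I J K (tens f G) = inner ℂ (wm J K (cj G)) (tO hT I f)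

theorem exists_kp (hT : Stress0 Q T) (wp wm : I2 → I2 → S2 →L[ℂ] Completion D) :
    ∃ k, KP hT wp wm k := by
  have h1 : ∀ I J K, ∃ u : S3 →L[ℂ] ℂ, ∀ f G,
      u (tens f G) = inner ℂ (tO hT I (cj f)) (wp J K G) := fun I J K => by
    obtain ⟨m, C, h⟩ := bd_two ((tO hT I).restrictScalars ℝ ∘L cj) ((wp J K).restrictScalars ℝ)
    exact Wk.kernel (LinearMap.mk₂ ℂ (fun f G => inner ℂ (tO hT I (cj f)) (wp J K G))
      (fun _ _ _ => by simp only [map_add, inner_add_left])
      (fun _ _ _ => by rw [cj_smul, map_smul, inner_smul_left, Complex.conj_conj, smul_eq_mul])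
      (fun _ _ _ => by simp only [map_add, inner_add_right])
      fun _ _ _ => by rw [map_smul, inner_smul_right, smul_eq_mul])
      fun f G => (norm_inner_le_norm _ _).trans (h f G)
  have h2 : ∀ I J K, ∃ u : S3 →L[ℂ] ℂ, ∀ f G,
      u (tens f G) = inner ℂ (wm J K (cj G)) (tO hT I f) := fun I J K => by
    obtain ⟨m, C, h⟩ := bd_two ((tO hT I).restrictScalars ℝ) ((wm J K).restrictScalars ℝ ∘L cj)
    exact Wk.kernel (LinearMap.mk₂ ℂ (fun f G => inner ℂ (wm J K (cj G)) (tO hT I f))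
      (fun _ _ _ => by simp only [map_add, inner_add_right])
      (fun _ _ _ => by rw [map_smul, inner_smul_right, smul_eq_mul])
      (fun _ _ _ => by simp only [map_add, inner_add_left])
      fun _ _ _ => by rw [cj_smul, map_smul, inner_smul_left, Complex.conj_conj, smul_eq_mul])
      fun f G => (norm_inner_le_norm _ _).trans ((mul_comm _ _).trans_le (h f G))
  choose u hu using h1
  choose v hv using h2
  exact ⟨fun e => cond e u v, hu, hv⟩

variable {hT : Stress0 Q T} {I J K : I2} {f g h : Sch}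

include hT in
lemma w3_12 (a : Late (tsupport f) (tsupport g)) (b : Late (tsupport g) (tsupport f)) :
    w3 Q T I f J g K h = w3 Q T J g I f K h := congrArg _
  (Q.loc _ _ _ _ _ (hT.bose _ _) (T_fld hT _ _) ⟨f, rfl⟩ ⟨g, rfl⟩ (Ap.sep_iff.2 ⟨a, b⟩))

include hT in
lemma w3_23 (a : Late (tsupport g) (tsupport h)) (b : Late (tsupport h) (tsupport g)) :
    w3 Q T I f J g K h = w3 Q T I f K h J g := congrArg (fun v => inner ℂ Q.vac (T _ _ _ v))
  (Q.loc _ _ _ _ _ (hT.bose _ _) (T_fld hT _ _) ⟨g, rfl⟩ ⟨h, rfl⟩ (Ap.sep_iff.2 ⟨a, b⟩))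

include hT in
lemma herm_cj (I : I2) (f : Sch) (v w : D) :
    inner ℂ (T I.1 I.2 (ev (cj f)) v) w = inner ℂ v (T I.1 I.2 (ev f) w) := by
  rw [hT.herm _ _ _ _ _ ⟨_, rfl⟩, show bar (ev (cj f)) = ev f from
    funext fun x => Complex.conj_conj _]

/-- the products of one member -/
structure TQ (Q : Theory D) (T : Ix → Ix → Fld D) (e : Bool)
    (w : I2 → I2 → S2 →L[ℂ] Completion D) : Prop where
  fac : ∀ I J (f g : Sch) (F : S2), (∀ x y, F (x, y) = f x * g y) →
    Late (tsupport f) (tsupport g) → w I J F =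
      ((if e then T I.1 I.2 (ev f) (T J.1 J.2 (ev g) Q.vac)
        else T J.1 J.2 (ev g) (T I.1 I.2 (ev f) Q.vac) : D) : Completion D)
  swap : ∀ I J (F G : S2), (∀ x y, G (x, y) = F (y, x)) → w I J F = w J I G
  ind : ∀ I J, w I J = w I.swap J

namespace KP

variable (kp : KP hT wp wm k) (tp : TQ Q T true wp) (tm : TQ Q T false wm)
include kp tp tm

lemma p2 (e : Bool) : p2 (k e) = k e := by
  funext I J K
  refine ST.ext2 fun f G _ _ => ?_
  rw [P352Y.p2, ContinuousLinearMap.comp_apply, show s2 (tens f G) = tens f (Str.sw G) from rfl]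
  cases e
  · rw [kp.ff, kp.ff, tm.swap J K (cj G) (cj (Str.sw G)) fun _ _ => rfl]
  · rw [kp.tt, kp.tt, tp.swap J K G (Str.sw G) fun _ _ => rfl]

omit tp tm in
lemma ind1 (e : Bool) (I J K : I2) : k e I.swap J K = k e I J K :=
  ST.ext2 fun f G _ _ => by cases e <;> simp only [kp.ff, kp.tt, tO_swap]

lemma ind2 (e : Bool) (I J K : I2) : k e I J.swap K = k e I J K :=
  ST.ext2 fun f G _ _ => by cases e <;> simp only [kp.ff, kp.tt, ← tp.ind, ← tm.ind]

lemma sym (e : Bool) : k e I J K (tens f (tens g h)) = k e I K J (tens f (tens h g)) := by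
  conv_lhs => rw [← kp.p2 tp tm e]
  rw [← sw_tens g h]
  rfl

omit tm in
lemma vt (a : Late (tsupport g) (tsupport h)) :
    k true I J K (tens f (tens g h)) = w3 Q T I f J g K h := by
  rw [kp.tt, tp.fac J K g h _ (fun _ _ => rfl) a, if_pos rfl, tO_apply, Completion.inner_coe,
    herm_cj (hT := hT), w3]

omit tp in
lemma vf (a : Late (tsupport g) (tsupport h)) :
    k false I J K (tens f (tens g h)) = w3 Q T J g K h I f := by
  rw [kp.ff, tm.fac J K (cj g) (cj h) (cj (tens g h)) (fun _ _ => map_mul conj _ _)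
    (Ap.late_mono a (tsupport_cj g) (tsupport_cj h)), if_neg (by simp), tO_apply,
    Completion.inner_coe, herm_cj (hT := hT), herm_cj (hT := hT), w3]

lemma alpha {e e' : Bool} (a : Le e f g ∧ Le e f h) (b : Le e' g f ∧ Le e' g h) :
    k e I J K (tens f (tens g h)) = k e' J I K (tens g (tens f h)) := by
  cases e <;> cases e'
  · rw [kp.sym tp tm, kp.vf tm b.2, kp.sym tp tm, kp.vf tm a.2, w3_23 (hT := hT) a.1 b.1]
  · rw [kp.vf tm b.2, kp.sym tp tm, kp.vt tp a.2]
  · rw [kp.sym tp tm, kp.vt tp b.2, kp.vf tm a.2]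
  · rw [kp.vt tp b.2, kp.vt tp a.2, w3_12 (hT := hT) a.1 b.1]

lemma gamma (hc : P352Y.Cmp Q T wp wm) : Ag (Rg true ∩ Rg false) (k true) (k false) :=
    fun I J K F hF => by
  refine sub_eq_zero.1 (ST.vanish_local (k true I J K - k false I J K) F fun q hq => ?_)
  by_cases e : q.2.1 = q.2.2
  · obtain ⟨δ, hδ, h⟩ := hc q.1 q.2.1 ((Ap.sp_iff (A := {q.1}) (B := {q.2.1})).2
      ⟨fun _ a _ b => a ▸ b ▸ (hF hq).1.1, fun _ a _ b => a ▸ b ▸ (hF hq).2.1⟩ _ rfl _ rfl)
    refine ⟨δ, hδ, fun u hu => ST.ker2_local _ u fun r hr => ?_⟩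
    obtain ⟨ε, hε, hb⟩ := Metric.isOpen_iff.1 isOpen_ball r (hu hr)
    rw [← ball_prod_same r.1 r.2, ← ball_prod_same q.1 q.2, Set.prod_subset_prod_iff'
      ((nonempty_ball.2 hε).prod (nonempty_ball.2 hε))] at hb
    refine ⟨ε, hε, fun f G cf cG sf sG => ?_⟩
    rw [ContinuousLinearMap.sub_apply, kp.tt, kp.ff, sub_eq_zero]
    exact h I J K f G _ cf cG (sf.trans hb.1)
      ((sG.trans hb.2).trans (by rw [show q.2 = (q.2.1, q.2.1) from Prod.ext rfl e.symm]))
      fun _ => rfl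
  · obtain ⟨δ, hδ, hd⟩ := Str.late_near e
    obtain ⟨ε, hε, hb⟩ := Metric.isOpen_iff.1 ((open_Rg true).inter (open_Rg false)) q (hF hq)
    refine ⟨min δ ε, lt_min hδ hε, fun u hu => ker3_box _ isOpen_ball
      (fun A B C nA nB nC hs f g h sf sg sh => sub_eq_zero.2 ?_) hu⟩
    have h1 := fun x a y b z c => hb (ball_subset_ball (min_le_right _ _)
      (hs (mk_mem_prod (a := x) a (mk_mem_prod (a := y) (b := z) b c))))
    have a := le_box nB nC (fun x a y b z c => (h1 x a y b z c).1) sf sg sh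
    have b := le_box nB nC (fun x a y b z c => (h1 x a y b z c).2) sf sg sh
    replace hs := hs.trans (ball_subset_ball (min_le_left _ _))
    rw [← ball_prod_same, ← ball_prod_same, Set.prod_subset_prod_iff' (nA.prod (nB.prod nC)),
      Set.prod_subset_prod_iff' (nB.prod nC)] at hs
    show k true I J K (tens f (tens g h)) = k false I J K (tens f (tens g h))
    rcases hd with d | d
    · have d := Ap.late_mono d (sg.trans hs.2.1) (sh.trans hs.2.2)
      rw [kp.vt tp d, kp.vf tm d, w3_12 (hT := hT) a.1 b.1, w3_23 (hT := hT) a.2 b.2]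
    · have d := Ap.late_mono d (sh.trans hs.2.2) (sg.trans hs.2.1)
      rw [kp.sym tp tm, kp.sym tp tm false, kp.vt tp d, kp.vf tm d, w3_12 (hT := hT) a.2 b.2,
        w3_23 (hT := hT) a.1 b.1]

lemma same (hc : P352Y.Cmp Q T wp wm) (e e' : Bool) : Ag (Rg e ∩ Rg e') (k e) (k e') := by
  cases e <;> cases e'
  · exact fun _ _ _ _ _ => rfl
  · exact fun I J K F hF => (kp.gamma tp tm hc I J K F (inter_comm _ _ ▸ hF)).symm
  · exact kp.gamma tp tm hc
  · exact fun _ _ _ _ _ => rfl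

/-- **compatibility of the pieces** -/
theorem compat (hc : P352Y.Cmp Q T wp wm) (e e' : Bool) (i j : Fin 3) :
    Ag (Rr e i ∩ Rr e' j) (Kk k e i) (Kk k e' j) := by
  have key : ∀ e e', Ag (Rr e 0 ∩ Rr e' 1) (Kk k e 0) (Kk k e' 1) := fun e e' I J K F hF => by
    refine sub_eq_zero.1 (ker3_box (Kk k e 0 I J K - Kk k e' 1 I J K)
      ((open_Rr e 0).inter (open_Rr e' 1))
      (fun A B C nA nB nC hs f g h sf sg sh => sub_eq_zero.2 ?_) hF)
    have h1 := fun x a y b z c => hs (mk_mem_prod (a := x) a (mk_mem_prod (a := y) (b := z) b c))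
    refine (kp.alpha tp tm (le_box nB nC (fun x a y b z c => (h1 x a y b z c).1) sf sg sh)
      (le_box nA nC (fun y b x a z c => (h1 x a y b z c).2) sg sf sh)).trans ?_
    exact congrArg _ (SchwartzMap.ext fun z => mul_left_comm _ _ _)
  have k2 : ∀ e e', Ag (Rr e 0 ∩ Rr e' 2) (Kk k e 0) (Kk k e' 2) := fun e e' => by
    have := (key e e').p2
    rwa [preimage_inter, show P352Y.p2 (Kk k e 0) = Kk k e 0 from kp.p2 tp tm e,
      show e23 ⁻¹' Rr e 0 = Rr e 0 from Rg_23 e] at this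
  have k3 : ∀ e e', Ag (Rr e 1 ∩ Rr e' 2) (Kk k e 1) (Kk k e' 2) := fun e e' => by
    have := (k2 e e').p1
    rwa [preimage_inter, show P352Y.p1 (Kk k e' 2) = Kk k e' 2 from
      (braid _).trans (by rw [kp.p2 tp tm]; rfl),
      show e12 ⁻¹' Rr e' 2 = Rr e' 2 from Set.ext fun _ => and_comm] at this
  have sy : ∀ {U U' t t'}, Ag (U ∩ U') t t' → Ag (U' ∩ U) t' t := fun h I J K F hF =>
    (h I J K F (inter_comm _ _ ▸ hF)).symm
  fin_cases i <;> fin_cases j
  exacts [kp.same tp tm hc e e', key e e', k2 e e', sy (key e' e), (kp.same tp tm hc e e').p1,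
    k3 e e', sy (k2 e' e), sy (k3 e' e), (kp.same tp tm hc e e').p1.p2]

end KP

variable {TT : ℝ → Ix → Ix → Fld D} {n0 : ℕ}
  {Wp Wm : ℝ → ℝ → I2 → I2 → S2 →L[ℂ] Completion D}

lemma tq {e : Bool} (h : TP2 Q TT e Wp) (α : ℝ) : TQ Q (TT α) e (Wp α α) :=
  ⟨h.fac α α, h.swap α α, h.ind α α⟩

lemma tO_cov (hF : Fam Q TT n0) (α : ℝ) {s : ℝ} {L : Ix → V} (hs : 0 < s) (hL : IsLor L) (a : V)
    (I : I2) (f : Sch) : tO (hF.st (α + Real.log s)) I f =
      ∑ K, L2 L K I • ueC Q hs hL a (tO (hF.st α) K (Grp.simS hs hL a f)) := by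
  rw [tO_apply, ← Q.U_vac s L a hs hL, hF.cov α _ _ s L a _ _ hs hL ⟨f, rfl⟩, Str.coe_sum,
    Fintype.sum_prod_type]
  refine Finset.sum_congr rfl fun m _ => ?_
  rw [Str.coe_sum]
  refine Finset.sum_congr rfl fun n _ => ?_
  rw [Completion.coe_smul, tO_apply, ueC_apply, ue_coe hs hL, L2, Complex.ofReal_mul,
    show ev (Grp.simS hs hL a f) = _ from funext (Grp.simS_apply hs hL a f)]
  rfl

lemma kp_cw (hF : Fam Q TT n0) (hp : ∀ α I f, inner ℂ (om Q) (tO (hF.st α) I f) = 0)
    (tp : TP2 Q TT true Wp) (tm : TP2 Q TT false Wm) {α : ℝ} {s : ℝ} {L : Ix → V} (hs : 0 < s)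
    (hL : IsLor L) (a : V) {k k' : Bool → M3} (kp : KP (hF.st α) (Wp α α) (Wm α α) k)
    (kp' : KP (hF.st (α + Real.log s)) (Wp (α + Real.log s) (α + Real.log s))
      (Wm (α + Real.log s) (α + Real.log s)) k') (e : Bool) (F : S3) :
    Cw hs hL a (k' e) (k e) F := fun I J K => by
  have key : k' e I J K = ∑ I', ∑ J', ∑ K', (L2 L I' I * L2 L J' J * L2 L K' K) •
      (k e I' J' K' ∘L sim3 hs hL a) := ST.ext2 fun f G _ _ => by
    have e1 : sim3 hs hL a (tens f G) = tens (Grp.simS hs hL a f) (Str.sim2 hs hL a G) :=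
      SchwartzMap.ext fun z => by
        rw [sim3_apply, ST.tens_apply, ST.tens_apply, Grp.simS_apply,
          Str.sim2_apply hs hL a G z.2.1 z.2.2]
    have r : ∀ K I, conj (L2 L K I) = L2 L K I := fun _ _ => Complex.conj_ofReal _
    simp only [ContinuousLinearMap.sum_apply, ContinuousLinearMap.smul_apply,
      ContinuousLinearMap.comp_apply, e1, smul_eq_mul]
    cases e
    · obtain ⟨κ, hκ⟩ := tm.cov α α s L a J K (cj G) (cj (Str.sim2 hs hL a G)) hs hL fun x y =>
        congrArg conj (Str.sim2_apply hs hL a G x y)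
      simp only [kp.ff, kp'.ff]
      rw [hκ, inner_add_left, inner_smul_left, hp, mul_zero, add_zero, tO_cov hF α hs hL a I f]
      simp only [inner_sum, sum_inner, inner_smul_left, inner_smul_right, map_mul, r,
        ← ueC_apply hs hL, LinearIsometry.inner_map_map, Finset.mul_sum, mul_assoc]
    · obtain ⟨κ, hκ⟩ := tp.cov α α s L a J K G _ hs hL (Str.sim2_apply hs hL a G)
      simp only [kp.tt, kp'.tt]
      rw [hκ, inner_add_right, inner_smul_right, ← inner_conj_symm _ (om Q), hp, map_zero,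
        mul_zero, add_zero, tO_cov hF α hs hL a I (cj f),
        show Grp.simS hs hL a (cj f) = cj (Grp.simS hs hL a f) from rfl]
      simp only [sum_inner, inner_smul_left, r]
      simp only [inner_sum, inner_smul_right, ← ueC_apply hs hL, LinearIsometry.inner_map_map,
        Finset.mul_sum, mul_assoc]
  rw [key]
  simp only [ContinuousLinearMap.sum_apply, ContinuousLinearMap.smul_apply,
    ContinuousLinearMap.comp_apply, smul_eq_mul]

/-- **The time ordered three point functions exist.** -/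
theorem exists_t (hF : Fam Q TT n0) (hp : ∀ α I f, inner ℂ (om Q) (tO (hF.st α) I f) = 0)
    (tp : TP2 Q TT true Wp) (tm : TP2 Q TT false Wm)
    (hc : ∀ α, P352Y.Cmp Q (TT α) (Wp α α) (Wm α α)) : ∃ t, TP Q TT Wp Wm t := by
  choose k kp using fun α => exists_kp (hF.st α) (Wp α α) (Wm α α)
  have hcv := fun α s L hs hL a => kp_cw hF hp tp tm (α := α) (s := s) (L := L) hs hL a (kp α) (kp _)
  have hc1 : ∀ α L (hL : IsLor L) a e F, Cw one_pos hL a (k α e) (k α e) F := fun α L hL a e F => by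
    simpa only [Real.log_one, add_zero] using hcv α 1 L one_pos hL a e F
  choose u hu u1 u2 u3 using fun α => (exists_good (hc1 α)
    ((kp α).compat (tq tp α) (tq tm α) (hc α))).elim fun t ht =>
      ht.symm ((kp α).p2 (tq tp α) (tq tm α)) (kp α).ind1 ((kp α).ind2 (tq tp α) (tq tm α))
  refine ⟨fun α _ _ => u α, tp, tm, fun α I J K f G F e h => ?_, fun α I J K G G' f F e e' h => ?_,
    fun α I J K F G e => ?_, fun α I J K F G e => ?_, u3, fun α s L a I J K F G hs hL e h => ?_⟩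
  · obtain rfl : F = ST.tens f G := SchwartzMap.ext fun z => e z.1 z.2.1 z.2.2
    refine ((hu α).ag true 0 I J K _ fun z hz => ?_).trans ((kp α).tt I J K f G)
    have := ST.tsupport_tens f G hz
    exact ⟨h _ this.1 _ (.inl ⟨_, this.2, rfl⟩), h _ this.1 _ (.inr ⟨_, this.2, rfl⟩)⟩
  · obtain rfl : G' = cj G := SchwartzMap.ext e'
    have e2 : s1 (s2 F) = ST.tens f G := SchwartzMap.ext fun z =>
      (e z.2.1 z.2.2 z.1).trans (mul_comm _ _)
    refine ((hu α).ag false 2 I J K F fun z hz => ?_).trans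
      ((congrArg (k α false K I J) e2).trans ((kp α).ff K I J f G))
    have := ST.tsupport_tens f G (tsupport_comp (e := fun z : V × V × V => (z.2.2, z.1, z.2.1))
      (by fun_prop) (fun z a => (e z.1 z.2.1 z.2.2).trans ((mul_comm _ _).trans a)) hz)
    exact ⟨h _ (.inl ⟨_, this.2, rfl⟩) _ this.1, h _ (.inr ⟨_, this.2, rfl⟩) _ this.1⟩
  · obtain rfl : G = s1 F := SchwartzMap.ext fun z => e z.1 z.2.1 z.2.2
    exact (congrArg (fun v : M3 => v I J K F) (u1 α)).symm
  · obtain rfl : G = s2 F := SchwartzMap.ext fun z => e z.1 z.2.1 z.2.2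
    exact (congrArg (fun v : M3 => v I J K F) (u2 α)).symm
  · obtain rfl : G = sim3 hs hL a F := SchwartzMap.ext fun z =>
      (e z.1 z.2.1 z.2.2).trans (sim3_apply hs hL a F z).symm
    rcases h with rfl | h
    · simpa only [Real.log_one, add_zero] using (hu α).cv L hL a F I J K
    · exact cw_off (hcv α s L hs hL a) (hu _).ag (hu α).ag h I J K

end T3p

variable {D : Type*} [NormedAddCommGroup D] [InnerProductSpace ℂ D]

/-- every member has vanishing vacuum expectation value -/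
theorem T3.perp {c : Ctx D} (t : T3 c) (α : ℝ) (m n : Ix) {f : Fn} (hf : IsTest f) :
    inner ℂ c.Q.vac (c.TT α m n f c.Q.vac) = 0 := by
  have := (t.all (α - c.tau)).grp.perp m n f hf
  simpa only [Ctx.T, add_sub_cancel] using this

/-- row T3P -/
theorem t3p_row (c : Ctx D) : T3 c → T3P c := fun t wp wm tp tm hc =>
  T3p.exists_t c.hF (fun α I f => (Completion.inner_coe _ _).trans (t.perp α _ _ ⟨f, rfl⟩)) tp tm
    fun α x y h => (hc α x y h).imp fun _ a => ⟨a.1, fun I J K f G G' _ _ => a.2 I J K f G G'⟩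

end Vale.Agent.P352L
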