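import Vale.Agent.P352X.R.Br
import Vale.Agent.P352L.Spec

/-!
# P352L: the bridge between the context and the Borel calculus
-/

noncomputable section

open MeasureTheory Filter Topology Complex Set

namespace Vale.Agent.P352L

open Vale.Agent.P352X

open Vale.Agent.P352 Vale.Agent.P352.GF Vale.Agent.P352.BW
open Vale.Agent.P352.H496 Vale.Agent.P352.H755 Vale.Agent.P352.H15
open SN (BC Calc Bd IsPair URep)
open UniformSpace (Completion)

section hilbert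

variable {H : Type*} [NormedAddCommGroup H] [InnerProductSpace ℂ H] [CompleteSpace H]
  {W : ℝ → H →L[ℂ] H} {ψ k : H}

namespace Br

export Vale.Agent.P352X.Br (Ga_apply Ut_apply d2_dot fr gn_iff isPair_pr3)

variable {X : Type*} [MeasurableSpace X] (C : Calc X H) {r : X → ℝ}

end Br

end hilbert

namespace Br

export Vale.Agent.P352X.Br (Ga_apply Ut_apply d2_dot fr gn_iff isPair_pr3)

/-! ### coordinates -/

variable {D : Type*} [NormedAddCommGroup D] [InnerProductSpace ℂ D]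

end Br

open Vale.Agent.P352X.Br

namespace Base

variable {D : Type*} [NormedAddCommGroup D] [InnerProductSpace ℂ D] (c : Base D)

lemma bR : Rep c.Q c.A := c.hN.toRep

lemma bV : Kin.UVac c.Q := c.hU

/-- the calculus of the translations -/
def ct : Kin.TC c.Q :=
  ⟨c.bt.toCalc, fun y v => (c.bt.Phi_ch y v).trans (Ut_apply c.Q y v)⟩

lemma ct_calc : c.ct.toCalc = c.bt.toCalc := rfl

lemma ut_Phi (y : V) (t : ℝ) (z : Completion D) :
    Ut c.Q (t • y) z = c.bt.Phi (fun p => cexp (I * (t * GF.mdot y p : ℝ))) z := by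
  simpa only [md_comm _ y] using c.bt.U_smul SN.isPair_mdot t y z

lemma cgn_ut (y : V) {ψ k : Completion D} : Gn (fun t => Ut c.Q (t • y)) ψ k ↔
    c.bt.Dom (fun p => (GF.mdot y p : ℂ)) ψ ∧ c.bt.Psi (fun p => (GF.mdot y p : ℂ)) ψ = k :=
  gn_iff c.bt.toCalc (Kin.meas_md y) fun t => c.ut_Phi y t ψ

lemma cgn_Pa {ψ k : Completion D} : Gn (Pa c.Q) ψ k ↔
    c.bt.Dom (fun p => (be p : ℂ)) ψ ∧ c.bt.Psi (fun p => (be p : ℂ)) ψ = k := c.cgn_ut va

lemma cgn_Pb {ψ k : Completion D} : Gn (Pb c.Q) ψ k ↔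
    c.bt.Dom (fun p => (al p : ℂ)) ψ ∧ c.bt.Psi (fun p => (al p : ℂ)) ψ = k := c.cgn_ut vb

/-- a joint calculus of `K`, `M`, `P` -/
def kc : Kin.KC c.Q c.S va ex := (Kin.exists_KC c.bR c.hS fr).some

lemma kpos (z w : Completion D) (h : HasDerivAt (fun t : ℝ => c.S va t z) (I • w) 0) :
    0 ≤ (inner ℂ z w).re := c.pos va z w fr.ha h

/-- the functions of `P` and `M` in the two calculi -/
theorem common_a3 :
    (∀ f : P3 → ℂ, Bd f → ∀ v, c.kc.Phi (fun q => f (q.2.2, q.2.1)) v = c.a3.Phi f v) ∧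
    (∀ v, (c.kc.nu v).map (fun q => ((q.2.2, q.2.1) : P3)) = c.a3.nu v) ∧
    ∀ f : P3 → ℂ, Measurable f → ∀ v,
      (c.kc.Dom (fun q => f (q.2.2, q.2.1)) v ↔ c.a3.Dom f v) ∧
      c.kc.Psi (fun q => f (q.2.2, q.2.1)) v = c.a3.Psi f v := by
  have h := SN.common isPair_pr3 c.kc.toCalc c.a3.toCalc (k₁ := fun q => ((q.2.2, q.2.1) : P3))
    (k₂ := id) (by fun_prop) measurable_id fun y v => by
      have h1 := c.kc.Phi_ch (0, y.2, y.1) v
      have h2 := c.a3.Phi_ch y v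
      simp only [Kin.Wk, c.hS.zero va fr.ha, one_apply_eq_self, Kin.G_a c.bR fr] at h1
      rw [← Ut_apply, ← Ga_apply, ← h2] at h1
      refine Eq.trans ?_ h1
      congr 2
      funext q
      simp [SN.ch, Kin.pk, pr3, d2_dot, add_comm]
  simpa only [Measure.map_id, id] using h

lemma S0_Phi (t : ℝ) (z : Completion D) :
    c.S0 t z = c.kc.Phi (fun q => cexp (I * (t * Kin.k0 q : ℝ))) z := by
  rw [S0, ← c.common_a3.1 _ (Bd.expI (by unfold d2; fun_prop))]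
  simp only [Kin.k0, d2_dot]

lemma SK_Phi (t : ℝ) (z : Completion D) :
    c.SK t z = c.kc.Phi (fun q => cexp (I * (t * q.1 : ℝ))) z := (Kin.Phi_S c.kc t z).symm

lemma Sk_Phi (t : ℝ) (z : Completion D) :
    c.Sk t z = c.kc.Phi (fun q => cexp (I * (t * Kin.kt q : ℝ))) z := by
  have h1 : Bd fun q : Kin.KX => cexp (I * (t * q.1 : ℝ)) :=
    Bd.expI (measurable_const.mul measurable_fst)
  have h2 : Bd fun q : Kin.KX => cexp (I * (-t * Kin.k0 q : ℝ)) :=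
    Bd.expI (measurable_const.mul Kin.k0_meas)
  rw [Sk, mul_apply_eq_comp, S0_Phi, ← Kin.Phi_S c.kc, ← c.kc.mul_apply h1 h2]
  congr 2
  funext q
  rw [← Complex.exp_add, Kin.kt]
  push_cast
  ring_nf

lemma Ga_Phi (w : R2) (z : Completion D) :
    Ga c.Q w z = c.kc.Phi (fun q => cexp (I * (d2 w q.2.1 : ℝ))) z := by
  rw [Ga_apply, ← Kin.Phi_G c.kc c.hS.toGrp0 fr.ha]
  simp only [d2_dot]

lemma Mi_Phi (i : Fin 2) (t : ℝ) (z : Completion D) :
    Mi c.Q i t z = c.kc.Phi (fun q => cexp (I * (t * q.2.1 i : ℝ))) z := by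
  rw [Mi, Ga_Phi]
  fin_cases i <;> simp [d2, e2]

lemma Pa_Phi (t : ℝ) (z : Completion D) :
    Pa c.Q t z = c.kc.Phi (fun q => cexp (I * (t * q.2.2 : ℝ))) z := by
  rw [Pa, Ut_apply, ← Kin.Phi_a c.kc c.hS.toGrp0 fr.ha]

variable {ψ k : Completion D}

lemma cgn_SK : Gn c.SK ψ k ↔
    c.kc.Dom (fun q => (q.1 : ℂ)) ψ ∧ c.kc.Psi (fun q => (q.1 : ℂ)) ψ = k :=
  gn_iff c.kc.toCalc measurable_fst fun t => c.SK_Phi t ψ

lemma cgn_Sk : Gn c.Sk ψ k ↔
    c.kc.Dom (fun q => (Kin.kt q : ℂ)) ψ ∧ c.kc.Psi (fun q => (Kin.kt q : ℂ)) ψ = k :=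
  gn_iff c.kc.toCalc Kin.kt_meas fun t => c.Sk_Phi t ψ

lemma cgn_S0 : Gn c.S0 ψ k ↔
    c.kc.Dom (fun q => (Kin.k0 q : ℂ)) ψ ∧ c.kc.Psi (fun q => (Kin.k0 q : ℂ)) ψ = k :=
  gn_iff c.kc.toCalc Kin.k0_meas fun t => c.S0_Phi t ψ

lemma cgn_Mi (i : Fin 2) : Gn (Mi c.Q i) ψ k ↔
    c.kc.Dom (fun q => (q.2.1 i : ℂ)) ψ ∧ c.kc.Psi (fun q => (q.2.1 i : ℂ)) ψ = k :=
  gn_iff c.kc.toCalc (r := fun q => q.2.1 i) (by fun_prop) fun t => c.Mi_Phi i t ψ

lemma cgn_Pa' : Gn (Pa c.Q) ψ k ↔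
    c.kc.Dom (fun q => (q.2.2 : ℂ)) ψ ∧ c.kc.Psi (fun q => (q.2.2 : ℂ)) ψ = k :=
  gn_iff c.kc.toCalc (r := fun q => q.2.2) (by fun_prop) fun t => c.Pa_Phi t ψ

end Base

end Vale.Agent.P352L

end
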