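import Vale.Agent.P352X.R.GEN
import Vale.Agent.P352L.R.GEN.A

/-!
# P352L: the row GEN
-/

set_option linter.all false

noncomputable section

open Filter Topology
open scoped SchwartzMap ContDiff

namespace Vale.Agent.P352L

open Vale.Agent.P352X

open Vale.Agent.P352 Vale.Agent.P352.GF Vale.Agent.P352.BW Vale.Agent.P352.H246
open Vale.Agent.P352.H496 Vale.Agent.P352.H755 Vale.Agent.P352.H15
open H746 (Crv vf)
open H148 (snS)
open UniformSpace (Completion)
open Complex (I)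
open Vale.Agent.P352X.Br

namespace Gen

export Vale.Agent.P352X.Gen (al0 be0 d2_e2 der_pt prod1 prod3 sq1 tx0 vf_bo vf_gb vf_mi vf_ut)

variable {D : Type*} [NormedAddCommGroup D] [InnerProductSpace ℂ D] {c : Ctx D}

theorem fl_ut (c : Ctx D) (y : V) : Fl c (fun t => Ut c.Q (t • y)) fun _ => y :=
  ⟨fun _ => GF.one, fun t => t • y, 0, y, ⟨rfl, rfl, zero_smul _ _, fun _ => one_pos,
    fun _ => H496.isLor_one, hasDerivAt_const _ _, fun _ _ => hasDerivAt_const _ _, fun n => by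
      simpa using (hasDerivAt_id (0 : ℝ)).mul_const (y n)⟩, fun _ => rfl, fun z n => by simp⟩

theorem fl_bo (g : GRP c) : Fl c (Bo c.Q) fun z => al z • va - be z • vb := by
  refine fl_lin (σ := fun t => scp (Real.exp t) (Real.exp (-t)))
    (fun t => by rw [Bo, Usc, sq1]) (fun t => ?_) (fun z => by simp [scp, pt_self]) fun z => ?_
  · have := g.lsc _ _ (Real.exp_pos t) (Real.exp_pos (-t))
    rwa [sq1] at this
  · simp only [scp, sq1]
    convert der_pt ((Real.hasDerivAt_exp 0).mul_const _) ((hasDerivAt_neg (0 : ℝ)).exp.mul_const _)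
      (hasDerivAt_const _ _) using 1
    simp [← tvL_apply, sub_eq_add_neg]

theorem fl_ga (g : GRP c) (w : R2) :
    Fl c (fun t => Ga c.Q (t • w)) fun z => d2 w (tx z) • va + be z • tv w := by
  refine fl_lin (σ := fun t => gap (t • w)) (fun t => rfl) (fun t => g.lga _)
    (fun z => by simp [gap, d2, pt_self]) fun z => ?_
  have h := hasDerivAt_id' (0 : ℝ)
  have k := fun j => h.mul_const (w j)
  simp only [gap, d2, Pi.smul_apply, smul_eq_mul]
  convert der_pt (((((k 0).mul_const _).fun_add ((k 1).mul_const _)).const_add _).fun_add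
    (((((k 0).fun_mul (k 0)).fun_add ((k 1).fun_mul (k 1))).mul_const _).div_const 2))
    (hasDerivAt_const _ _) (((h.smul_const w).fun_const_smul (be z)).const_add _) using 1
  simp [tv_smul']

theorem fl_mi (g : GRP c) (i : Fin 2) : Fl c (Mi c.Q i) fun z => tx z i • va + be z • ex i := by
  have := fl_ga g (e2 i)
  simp only [d2_e2] at this
  exact this

theorem fl_gb (g : GRP c) : Fl c (Gb c.Q) fun z => tx z 0 • vb + al z • ex 0 := by
  refine fl_lin (σ := gbp) (fun t => rfl) g.lgb (fun z => by simp [gbp, pt_self]) fun z => ?_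
  have h := hasDerivAt_id' (0 : ℝ)
  simp only [gbp]
  convert der_pt (hasDerivAt_const _ _) (((h.mul_const _).const_add _).fun_add
    (((h.fun_pow 2).mul_const _).div_const 2)) (((h.mul_const _).smul_const _).const_add _) using 1
  simp [tv_smul', ex]

/-- the group law of the group generated by `B`, `P_b`, `M^b` -/
theorem gq_mul (g : GRP c) (q r : ℝ × ℝ × ℝ) : c.gq q * c.gq r =
    c.gq (q.1 + r.1, Real.exp r.1 * q.2.1 + r.2.1, Real.exp r.1 * q.2.2 + r.2.2) := by
  obtain ⟨t, u, s⟩ := q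
  obtain ⟨τ, υ, σ⟩ := r
  have p := Real.exp_pos τ
  have p' := Real.exp_pos (-τ)
  have x : ∀ y, Real.exp (-τ) * (Real.exp τ * y) = y := fun y => by
    rw [← mul_assoc, ← Real.exp_add, neg_add_cancel, Real.exp_zero, one_mul]
  have b : ∀ y : ℝ, y • vb = pt 0 y 0 := fun y => by simp [pt_eq, ← tvL_apply]
  have e1 : Pb c.Q u * Bo c.Q τ = Bo c.Q τ * Pb c.Q (Real.exp τ * u) := by
    rw [Bo, Pb, Pb, g.sc_ut _ _ _ p p', b, b, scp, al_pt', be_pt', tx_pt', x, mul_zero, smul_zero]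
  have e2 : Gb c.Q s * Bo c.Q τ = Bo c.Q τ * Gb c.Q (Real.exp τ * s) := by
    rw [Bo, g.sc_gb _ _ _ p p', ← Real.exp_sub, show -τ - τ = -τ + -τ by ring, Real.exp_add,
      Real.sqrt_mul_self p'.le, x]
  have e3 : ∀ y, Gb c.Q y * Pb c.Q υ = Pb c.Q υ * Gb c.Q y := fun y => by
    rw [Pb, g.gb_ut, b, gbp, al_pt', be_pt', tx_pt']
    simp
  have e4 : Bo c.Q (t + τ) = Bo c.Q t * Bo c.Q τ := by
    rw [Bo, Bo, Bo, ← g.sc _ _ _ _ (Real.exp_pos _) (Real.exp_pos _) p p', neg_add, Real.exp_add,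
      Real.exp_add]
  simp only [Base.gq, e4, g.gb, Pb, add_smul, g.ut]
  simp only [Pb] at e1 e3
  calc _ = Bo c.Q t * (Ut c.Q (u • vb) * (Gb c.Q s * Bo c.Q τ)) * (Ut c.Q (υ • vb) * Gb c.Q σ) := by
        simp only [mul_assoc]
    _ = Bo c.Q t * Bo c.Q τ * Ut c.Q ((Real.exp τ * u) • vb) *
        (Gb c.Q (Real.exp τ * s) * Ut c.Q (υ • vb)) * Gb c.Q σ := by
        rw [e2, ← mul_assoc (Ut c.Q _), e1]
        simp only [mul_assoc]
    _ = _ := by
        rw [e3]
        simp only [mul_assoc]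

theorem gq_der (g : GRP c) (v : D) : ∃ (w : Fin 3 → D) (A : ℝ × ℝ × ℝ →L[ℝ] Completion D),
    HasFDerivAt (fun q => c.gq q v) A 0 ∧
      ∀ y, A y = y.1 • (w 0 : Completion D) + y.2.1 • (w 1 : Completion D) + y.2.2 • (w 2 : D) :=
  have B := fl_bo g
  have P := fl_ut c vb
  have G := fl_gb g
  ⟨![_, _, _], prod3 (B.norm g) (P.norm g) (B.cont g) (P.cont g) (B.zero g) (P.zero g) (G.zero g)
    (B.dom g v) (P.dom g v) (G.dom g v)⟩

theorem sm (g : GRP c) (v : D) : ContDiff ℝ ∞ fun q => c.gq q (v : Completion D) := by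
  set ψ := fun q r : ℝ × ℝ × ℝ => (r.1 - q.1, r.2.1 - Real.exp (r.1 - q.1) * q.2.1,
    r.2.2 - Real.exp (r.1 - q.1) * q.2.2)
  have s : ContDiff ℝ ∞ ψ.uncurry := by
    unfold Function.uncurry ψ
    fun_prop
  have s' : ∀ y, ContDiff ℝ ∞ fun q => fderiv ℝ (ψ q) q y := fun y =>
    (s.fderiv contDiff_id le_rfl).clm_apply contDiff_const
  have key : ∀ v : D, ∃ w : Fin 3 → D, ∀ q, ∃ A, HasFDerivAt (fun q => c.gq q v) A q ∧ ∀ y,
      A y = (fderiv ℝ (ψ q) q y).1 • c.gq q (w 0) + (fderiv ℝ (ψ q) q y).2.1 • c.gq q (w 1) +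
        (fderiv ℝ (ψ q) q y).2.2 • c.gq q (w 2) := fun v => by
    obtain ⟨w, A, h, e⟩ := gq_der g v
    refine ⟨w, fun q => ⟨_, ((((c.gq q).restrictScalars ℝ).hasFDerivAt.comp q
      (HasFDerivAt.comp q (g := fun q => c.gq q v) (f := ψ q) ((show ψ q q = 0 by simp [ψ]) ▸ h)
        (((s.comp (contDiff_const.prodMk contDiff_id)).differentiable (by simp))
          q).hasFDerivAt)).congr_of_eventuallyEq (.of_forall fun r => ?_)), fun y => ?_⟩⟩
    · have := congrArg (· (v : Completion D)) (gq_mul g q (ψ q r))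
      simpa [ψ] using this.symm
    · simp [e, Function.comp_def]
  rw [contDiff_infty]
  intro n
  induction n generalizing v with
  | zero =>
    obtain ⟨w, h⟩ := key v
    exact contDiff_zero.2 (continuous_iff_continuousAt.2 fun q => (h q).choose_spec.1.continuousAt)
  | succ n ih =>
    obtain ⟨w, h⟩ := key v
    choose A h e using h
    rw [Nat.cast_succ, contDiff_succ_iff_fderiv_apply]
    refine ⟨fun q => (h q).differentiableAt, by simp, fun y => ?_⟩
    have t : ContDiff ℝ n fun q => fderiv ℝ (ψ q) q y := (s' y).of_le (by exact_mod_cast le_top)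
    simp only [fun q => (h q).fderiv, e]
    exact ((t.fst.smul (ih _)).add (t.snd.fst.smul (ih _))).add (t.snd.snd.smul (ih _))

theorem bd (c : Ctx D) (v : D) : ∃ (m : ℕ) (C : ℝ), 0 ≤ C ∧ ∀ h k (f : Sch),
    ‖c.Tf (hk h k (ev f)) v‖ ≤ C * ‖h‖ * ‖k‖ * sn m f := by
  set L := ContinuousLinearMap.pi fun i : I2 => (tl c v i.1 i.2).comp ofSch
  obtain ⟨m, C, C0, hC⟩ := Lie.clm ((normSeminorm ℂ _).comp L.toLinearMap) L.continuous.norm
  refine ⟨m, 16 * C, by positivity, fun h k f => ?_⟩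
  have e : ∀ i, |eta i| = 1 := fun i => by unfold eta; split_ifs <;> simp
  rw [← Completion.norm_coe, show ev f = fl (ofSch f) from rfl, ← th_apply, th]
  simp only [ContinuousLinearMap.sum_apply, ContinuousLinearMap.smul_apply]
  refine (norm_sum_le_of_le _ fun i _ => norm_sum_le_of_le (n := fun _ =>
    ‖h‖ * ‖k‖ * (C * sn m f)) _ fun j _ => ?_).trans_eq (by simp; ring)
  rw [norm_smul, Complex.norm_real, Real.norm_eq_abs, abs_mul, abs_mul, abs_mul, e, e, one_mul,
    one_mul]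
  gcongr
  exacts [norm_le_pi_norm h i, norm_le_pi_norm k j, (norm_le_pi_norm (L f) (i, j)).trans (hC f)]

theorem bd2 (c : Ctx D) (v : D) : ∃ (m : ℕ) (C : ℝ), ∀ i j k l (f g : Sch),
    ‖c.T i j (ev f) (c.T k l (ev g) v)‖ ≤ C * sn m f * sn m g := by
  choose K n K0 h using fun i : I2 × I2 => (od c i.1.1 i.1.2).joint (od c i.2.1 i.2.2) v
  obtain ⟨m, C, C0, hC⟩ := Lie.clm ((snS (Finset.univ.sup n)).comp ofSch.toLinearMap)
    ((H148.cont_snS _).comp ofSch.continuous)
  refine ⟨m, (∑ i, K i) * C * C, fun i j k l f g => (h ((i, j), k, l) (ofSch f) (ofSch g)).trans ?_⟩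
  have e := fun f => (H148.snS_mono (Finset.le_sup (f := n) (Finset.mem_univ ((i, j), k, l)))
    (ofSch f)).trans (hC f)
  have := Finset.single_le_sum (fun i _ => K0 i) (Finset.mem_univ ((i, j), k, l))
  have := Finset.sum_nonneg fun i (_ : i ∈ Finset.univ) => K0 i
  have := Lie.sn_nonneg m f
  calc _ ≤ (∑ i, K i) * (C * sn m f) * (C * sn m g) := by
        gcongr
        exacts [e f, e g]
    _ = _ := by ring

theorem ky (g : GRP c) (y : R2) {ψ} (h : Dm c.SK ψ) (hm : ∀ i, Dm (Mi c.Q i) ψ)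
    (hp : Dm (Pa c.Q) ψ) : Gn (c.Ky (tv y)) ψ (gen c.SK ψ -
      ∑ i, ((2 * y i : ℝ) : ℂ) • gen (Mi c.Q i) ψ + (d2 y y : ℝ) • gen (Pa c.Q) ψ) := by
  have p : ∀ {W X φ φ' k} (r : ℝ), Fl c W X → HasDerivAt φ φ' 0 → φ 0 = ψ → Gn W ψ k →
      HasDerivAt (fun t => W (t * r) (φ t)) (r • I • k + φ') 0 ∧ W (0 * r) (φ 0) = ψ :=
    fun {W X φ φ' k} r K d e q => ⟨prod1 (W := fun t => W (t * r)) (fun t => K.norm g _)
      (fun z => (K.cont g z).comp_of_eq (by fun_prop) (zero_mul r))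
      (by rw [zero_mul, K.zero g]) d
      (e ▸ HasDerivAt.scomp_of_eq (0 : ℝ) q (hasDerivAt_mul_const r) (zero_mul r).symm),
      by rw [zero_mul, K.zero g, e]; rfl⟩
  have a := p (-(2 * y 1)) (fl_mi g 1) h.gn' (by rw [Base.SK, c.hS.zero _ g.na]; rfl) (hm 1).gn'
  have b := p (-(2 * y 0)) (fl_mi g 0) a.1 a.2 (hm 0).gn'
  have d := (p (d2 y y) (fl_ut c va) b.1 b.2 hp.gn').1
  refine (d.congr_of_eventuallyEq (.of_forall fun t => ?_)).congr_deriv ?_
  · have e := g.S_ut t (-y)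
    rw [← tvL_apply, map_neg, tvL_apply] at e
    simp only [Base.Ky]
    rw [mul_assoc, e, ← mul_assoc, ← mul_assoc, ← g.ut, add_neg_cancel_left,
      show (2 * t) • -y = (t * -(2 * y 0)) • e2 0 + (t * -(2 * y 1)) • e2 1 by
        funext i
        fin_cases i <;> simp [e2] <;> ring, g.ga, show d2 (-y) (-y) = d2 y y by simp [d2]]
    rfl
  · simp only [Fin.sum_univ_two, ← Complex.coe_smul]
    module

end Gen

open Vale.Agent.P352X.Gen hiding Fl bd bd2 der_hk fl_bo fl_ga fl_gb fl_lin fl_mi fl_ut gq_der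
  gq_mul ky l_add ll od sm th th_apply tl tl_apply tt tt_apply ug_norm
open Vale.Agent.P352L.Gen

theorem gen_row {D : Type*} [NormedAddCommGroup D] [InnerProductSpace ℂ D] (c : Ctx D)
    (t : T0 c) : GEN c where
  ut y h k f hf := by
    have z : ∀ h k, h = 0 ∨ k = 0 → c.Tv (hk h k f) = 0 := fun h k e => by
      obtain ⟨F, rfl⟩ := exists_fl hf
      rcases e with rfl | rfl <;> simp [Ctx.Tv, ← th_apply, th]
    simpa only [vf_ut, sub_self, z _ _ (.inl rfl), z _ _ (.inr rfl), sub_zero] using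
      (fl_ut c y).tv t.grp h k hf
  bo h k f hf := by
    simpa only [vf_bo, al0, be0, zero_smul, sub_zero] using (fl_bo t.grp).tv t.grp h k hf
  mi i h k f hf := by
    simpa only [vf_mi, tx0, be0, Pi.zero_apply, zero_smul, add_zero, sub_zero] using
      (fl_mi t.grp i).tv t.grp h k hf
  gb h k f hf := by
    simpa only [vf_gb, tx0, al0, Pi.zero_apply, zero_smul, add_zero, sub_zero] using
      (fl_gb t.grp).tv t.grp h k hf
  uth y f hf := (fl_ut c y).tr t.grp hf
  both f hf := vf_bo f ▸ (fl_bo t.grp).tr t.grp hf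
  mith i f hf := vf_mi i f ▸ (fl_mi t.grp i).tr t.grp hf
  gbth f hf := vf_gb f ▸ (fl_gb t.grp).tr t.grp hf
  utl y f hf := (fl_ut c y).pot t.grp hf
  bol f hf := vf_bo f ▸ (fl_bo t.grp).pot t.grp hf
  mil i f hf := vf_mi i f ▸ (fl_mi t.grp i).pot t.grp hf
  sm := sm t.grp
  bd := let ⟨m, C, _, h⟩ := bd c c.Q.vac
    ⟨m, C, fun a k f => (Completion.norm_coe _).trans_le (h a k f)⟩
  bd2 := bd2 c
  ky y _ := ky t.grp y

end Vale.Agent.P352L
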