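import Vale.Agent.P352X.R.STRUCT
import Vale.Agent.P352L.Spec2

/-!
# P352L, row STRUCT: the contact terms of the divergence, for families
-/

set_option linter.all false

noncomputable section

open Filter Topology Set Metric
open scoped SchwartzMap ContDiff LineDeriv

namespace Vale.Agent.P352L

open Vale.Agent.P352X

namespace StrL

open Vale.Agent.P352 Vale.Agent.P352.GF Vale.Agent.P352.BW Api4 Grp Str
open UniformSpace (Completion)

variable {D : Type*} [NormedAddCommGroup D] [InnerProductSpace ℂ D] {Q : Theory D}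
  {T : ℝ → Ix → Ix → Fld D} {e : Bool} {w : ℝ → ℝ → I2 → I2 → S2 →L[ℂ] Completion D}

/-- subtraction of the vacuum component -/
def pp (Q : Theory D) : Completion D →L[ℂ] Completion D :=
  1 - (innerSL ℂ (om Q)).smulRight (om Q)

lemma pp_apply (z : Completion D) : pp Q z = z - inner ℂ (om Q) z • om Q := rfl

lemma ind2 (h : TP2 Q T e w) (α β : ℝ) (K J : I2) : w α β K J.swap = w α β K J := by
  ext F
  rw [h.swap α β K J F (sw F) fun _ _ => rfl, h.swap α β K J.swap F (sw F) fun _ _ => rfl,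
    ← h.ind]

/-- polynomial along the diagonal -/
theorem pol_diag (h : TP2 Q T e w) : ∃ n, ∀ a b I J F,
    IsPol n fun τ => pp Q (w (τ + a) (τ + b) I J F) := by
  obtain ⟨n, hn⟩ := h.pol
  refine ⟨n + n, fun a b I J F => ?_⟩
  have h2 : ∀ α, IsPol n fun β => pp Q (w α β I J F) := fun α =>
    (hn α J I (sw F)).congr fun β => by rw [h.swap α β I J F (sw F) fun _ _ => rfl, pp_apply]
  choose c hc using fun i : ℕ => (h2 i).shift b
  refine IsPol.of_poly (Finset.range (n + 1) ×ˢ Finset.range (n + 1))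
    (fun q => (lagP n q.1).comp (Polynomial.X + Polynomial.C a) * Polynomial.X ^ q.2)
    (fun q => c q.1 q.2) (fun q hq => Polynomial.natDegree_mul_le.trans (Nat.add_le_add ?_ ?_))
    fun τ => ?_
  · rw [Polynomial.natDegree_comp, Polynomial.natDegree_X_add_C, mul_one]
    exact lagP_deg (Finset.mem_product.1 hq).1
  · rw [Polynomial.natDegree_X_pow]
    exact Nat.lt_succ_iff.1 (Finset.mem_range.1 (Finset.mem_product.1 hq).2)
  · rw [show pp Q (w (τ + a) (τ + b) I J F) = _ from (hn (τ + b) I J F).lag_eq (τ + a),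
      Finset.sum_product]
    refine Finset.sum_congr rfl fun i _ => ?_
    rw [← pp_apply, show pp Q (w i (τ + b) I J F) = _ from hc i τ, Finset.smul_sum]
    refine Finset.sum_congr rfl fun j _ => ?_
    simp [lag, smul_smul]

/-- the divergence vanishes off the diagonal -/
theorem off (hT : ∀ τ, Stress0 Q (T τ)) (h : TP2 Q T e w) (α β : ℝ) (n : Ix) (J : I2) :
    Off (dvL (w α β) n J) := by
  refine fun G hG => ST.ker2_local _ G fun q hq => ?_
  obtain ⟨δ, d0, d⟩ := late_near (x := q.1) (y := q.2) fun a => hG q.1 (by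
    rwa [show (q.1, q.1) = q from Prod.ext rfl a])
  refine ⟨δ, d0, fun f g _ _ s1 s2 => ?_⟩
  have tf := Q.bose_fld _ ((hT β).bose J.1 J.2)
  have s3 := fun m : Ix => (SchwartzMap.tsupport_lineDerivOp_subset (bas m 1 : V) f).trans s1
  have c1 : ∀ v : D, ∑ m, T α m n (ev (∂_{(bas m 1 : V)} f)) v = 0 := fun v => by
    simpa only [pd_ev] using (hT α).conserved n (ev f) v ⟨f, rfl⟩
  have a1 : ∑ m, ((T α m n (ev (∂_{(bas m 1 : V)} f)) (T β J.1 J.2 (ev g) Q.vac) : D) :
      Completion D) = 0 := by rw [← coe_sum, c1, Completion.coe_zero]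
  have a2 : ∑ m, ((T β J.1 J.2 (ev g) (T α m n (ev (∂_{(bas m 1 : V)} f)) Q.vac) : D) :
      Completion D) = 0 := by
    rw [← coe_sum, ← fld_lin tf ⟨g, rfl⟩, c1, ← Finset.sum_empty (f := fun _ : Ix => 0),
      fld_lin tf ⟨g, rfl⟩, Finset.sum_empty, Completion.coe_zero]
  rw [dvL_apply, dv1]
  rcases d with d | d
  · rw [Finset.sum_congr rfl fun m _ => h.fac α β (m, n) J _ g _ (d_tens m f g)
      fun a ha b hb => d a (s3 m ha) b (s2 hb)]
    cases e
    exacts [a2, a1]
  · rw [Finset.sum_congr rfl fun m _ => (h.swap α β (m, n) J _ (ST.tens g (∂_{(bas m 1 : V)} f))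
      fun x y => (mul_comm _ _).trans (d_tens m f g y x).symm).trans
        (h.fac β α J (m, n) g _ _ (fun _ _ => rfl) fun a ha b hb => d a (s2 ha) b (s3 m hb))]
    cases e
    exacts [a1, a2]

variable {s : ℝ} {L : Ix → V}

/-- covariance of the divergence -/
theorem dv_cov (h : TP2 Q T e w) (hs : 0 < s) (hL : IsLor L) (α β : ℝ) (a : V) (n : Ix) (J : I2)
    (F : S2) : ∃ κ : ℂ, dvL (w (α + Real.log s) (β + Real.log s)) n J F =
      ∑ k, ∑ M, (((s⁻¹ * L k n : ℝ) : ℂ) * L2 L M J) •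
        Ug Q s L a (dvL (w α β) k M (sim2 hs hL a F)) + κ • om Q := by
  choose κ hκ using fun m => h.cov α β s L a (m, n) J (∂_{((bas m 1, 0) : V × V)} F) _ hs hL
    (sim2_apply hs hL a _)
  refine ⟨∑ m, κ m, ?_⟩
  simp only [dvL_apply, dv1, hκ, Finset.sum_add_distrib, Finset.sum_smul, d_sim2, map_sum, map_smul,
    Finset.smul_sum, smul_smul, ← Ug_apply Q hs hL, Fintype.sum_prod_type (α₁ := Ix) (f := fun K =>
      ∑ M, (L2 L K _ * L2 L M J) • _), add_left_inj]
  refine (Finset.sum_congr rfl fun m _ => Finset.sum_comm).trans (Finset.sum_comm.trans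
    (Finset.sum_congr rfl fun k _ => ((Finset.sum_congr rfl fun m _ => Finset.sum_comm).trans
      Finset.sum_comm).trans (Finset.sum_congr rfl fun M _ => Finset.sum_comm.trans
        (Finset.sum_congr rfl fun j _ => Finset.sum_congr rfl fun m _ => ?_))))
  congr 1
  have : (s : ℂ) ≠ 0 := by exact_mod_cast hs.ne'
  simp only [L2]
  push_cast
  field_simp

theorem ct_cov (hT : ∀ τ, Stress0 Q (T τ)) (h : TP2 Q T e w) {χ : V → ℂ} (hχ : Dc χ)
    (h1 : ∀ᶠ u in 𝓝 (0 : V), χ u = 1) (α β : ℝ) (k : ℕ) (μ : Fin (k + 3) → Ix) (a : V)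
    (f g : Sch) (hs : 0 < s) (hL : IsLor L) (hg : ∀ x, g x = f (sim s L a x)) : ∃ κ : ℂ,
    ct (w (α + Real.log s) (β + Real.log s)) χ k μ f =
      ∑ ν : Fin (k + 3) → Ix, ((s ^ (4 - (5 - k : ℝ)) * ∏ i, L (ν i) (μ i) : ℝ) : ℂ) •
        Ue Q s L a (ct (w α β) χ k ν g) + κ • om Q := by
  obtain ⟨n, J, γ, rfl⟩ : ∃ n J γ, μ = ix3 n J γ :=
    ⟨μ 0, (μ 1, μ 2), fun i => μ i.succ.succ.succ, funext fun i =>
      Fin.cases rfl (Fin.cases rfl (Fin.cases rfl fun _ => rfl)) i⟩
  have dc := fun γ : Fin k → Ix => dc_mul_left (smooth_mon γ) hχ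
  refine (dv_cov h hs hL α β a n J (ten2 (sch fun u => mon γ u * χ u) f)).imp fun κ hκ =>
    hκ.trans ?_
  have key : ∀ j M, dvL (w α β) j M (sim2 hs hL a (ten2 (sch fun u => mon γ u * χ u) f)) =
      ∑ ν, ((s ^ k * ∏ i, L (ν i) (γ i) : ℝ) : ℂ) • ct (w α β) χ k (ix3 j M ν) g := fun j M => by
    simp only [ct_ix3, ContinuousLinearMap.comp_apply, ← map_smul, ← map_sum]
    refine (off hT h α β j M).congr fun x => ?_
    filter_upwards [near h1 continuous_id rfl x, near h1 (sl hs hL).continuous (map_zero _) x]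
      with ⟨y, z⟩ a1 a2
    have : sim s L a y - sim s L a z = sim s L 0 (y - z) := by
      rw [← sl_apply hs hL, map_sub, sl_apply, sl_apply, HM.sim_at s L a, HM.sim_at s L a z]
      abel
    rw [sl_apply] at a2
    simp only [map_smul, sim2_apply, SchwartzMap.sum_apply, SchwartzMap.smul_apply, ten2_apply,
      sch_apply (dc _), this, a2, show χ (y - z) = 1 from a1, hg, mon_sim, mul_one,
      Finset.sum_mul, smul_eq_mul, mul_assoc]
  simp only [key, map_sum, map_smul, Finset.smul_sum, smul_smul, ← Ug_apply Q hs hL, add_left_inj]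
  rw [sum_cons]
  refine Finset.sum_congr rfl fun j _ => ?_
  rw [Fintype.sum_prod_type, sum_cons]
  refine Finset.sum_congr rfl fun m1 _ => ?_
  rw [sum_cons]
  refine Finset.sum_congr rfl fun m2 _ => Finset.sum_congr rfl fun ν _ => ?_
  congr 1
  rw [show (4 - (5 - k) : ℝ) = k - 1 by ring, Real.rpow_sub_one hs.ne', Real.rpow_natCast]
  simp only [L2, ix3, Fin.prod_univ_succ, Matrix.cons_val_zero, Matrix.cons_val_succ]
  push_cast
  ring

/-- polynomial families of distributions have a common order -/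
theorem unif {n : ℕ} {Λ : ℝ → S2 →L[ℂ] Completion D} (h : ∀ F, IsPol n fun τ => Λ τ F) :
    ∃ m, ∀ τ, ∃ C, 0 ≤ C ∧ ∀ F, ‖Λ τ F‖ ≤ C * ST.sn (V × V) ℂ m F := by
  choose C N hC hb using fun i : ℕ => ST.clm_sn_c (Λ i)
  refine ⟨(Finset.range (n + 1)).sup N, fun τ => ⟨∑ i ∈ Finset.range (n + 1), |lag n i τ| * C i,
    Finset.sum_nonneg fun i _ => mul_nonneg (abs_nonneg _) (hC i), fun F => ?_⟩⟩
  rw [(h F).lag_eq τ, Finset.sum_mul]
  refine (norm_sum_le _ _).trans (Finset.sum_le_sum fun i hi => ?_)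
  rw [norm_smul, Real.norm_eq_abs, mul_assoc]
  exact mul_le_mul_of_nonneg_left ((hb i F).trans (mul_le_mul_of_nonneg_left
    (ST.sn_mono (Finset.le_sup hi) F) (hC i))) (abs_nonneg _)

end StrL

open StrL Str Api4 in
/-- **row STRUCT** -/
theorem struct_thm {D : Type*} [NormedAddCommGroup D] [InnerProductSpace ℂ D] (c : Ctx D) :
    STRUCT c := fun e w h a b => by
  let β : ContDiffBump (0 : P352.GF.V) := ⟨1, 2, one_pos, one_lt_two⟩
  have hχ : Dc (cx β) := dc_cx ⟨β.contDiff, β.hasCompactSupport⟩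
  have h1 : ∀ᶠ u in 𝓝 0, cx β u = 1 := β.eventuallyEq_one.mono fun u hu => by
    rw [cx, hu]
    rfl
  obtain ⟨n1, hn⟩ := pol_diag h
  have hp : ∀ n J F, IsPol n1 fun τ => (pp c.Q ∘L dvL (w (τ + a) (τ + b)) n J) F := fun n J F =>
    (IsPol.sum Finset.univ fun m _ => hn a b (m, n) J _).congr fun τ => by
      rw [ContinuousLinearMap.comp_apply, dvL_apply, dv1, map_sum]
  choose N hN using fun p : P352.GF.Ix × I2 => unif (hp p.1 p.2)
  refine ⟨Finset.univ.sup N, n1, fun k τ => ct (w (τ + a) (τ + b)) (cx β) k, fun k =>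
    ⟨fun τ μ s L y f g hs hL hg => ?_, fun μ f => hp _ _ _⟩, fun k τ n J γ σ => ⟨?_, ?_⟩,
    fun τ n J G hG => ?_⟩
  · simpa only [add_right_comm τ _ (Real.log s)] using
      StrL.ct_cov c.hF.st h hχ h1 (τ + a) (τ + b) k μ y f g hs hL hg
  · beta_reduce
    rw [ct_ix3, ct_ix3, show mon (γ ∘ σ) = mon γ from funext fun u =>
      Equiv.prod_comp σ fun i => (u (γ i) : ℂ)]
  · simp only [ct_ix3, dvL, StrL.ind2 h]
  · obtain ⟨C, hC, hb⟩ := hN (n, J) τ
    have o : Off (pp c.Q ∘L dvL (w (τ + a) (τ + b)) n J) := fun F hF => by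
      rw [ContinuousLinearMap.comp_apply, StrL.off c.hF.st h _ _ n J F hF, map_zero]
    have := o.expand hC (fun f => (hb f).trans (mul_le_mul_of_nonneg_left
      (ST.sn_mono (Finset.le_sup (Finset.mem_univ (n, J))) f) hC)) hχ h1 hG
    simp only [ContinuousLinearMap.comp_apply, ← map_smul, ← map_sum] at this
    rw [← sub_eq_zero, ← map_sub, pp_apply, sub_eq_zero, sub_eq_iff_eq_add', dvL_apply] at this
    refine ⟨_, this.trans (congrArg₂ _ ?_ rfl)⟩
    simp only [map_sum, map_smul, ct_ix3, ContinuousLinearMap.comp_apply]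

theorem struct_row {D : Type*} [NormedAddCommGroup D] [InnerProductSpace ℂ D] (c : Ctx D) :
    All TA c → STRUCT c := fun _ => struct_thm c

end Vale.Agent.P352L
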