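import Vale.Agent.P352L.Z.D1
import Vale.Agent.P352L.Z.Lt
import Vale.Agent.P352L.Spec2
import Vale.Agent.P352L.Api1C
import Vale.Agent.P352L.Ray

/-!
# P352L, row D1 (helper55)
-/

set_option linter.all false

open MeasureTheory Filter Topology Set
open scoped SchwartzMap ComplexConjugate ENNReal ContDiff

namespace Vale.Agent.P352L

open Vale.Agent.P352X
open Vale.Agent.P352 Vale.Agent.P352.GF Vale.Agent.P352.BW Vale.Agent.P352.H246
open Vale.Agent.P352.H496 Vale.Agent.P352.H755 Vale.Agent.P352.H15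
open UniformSpace (Completion)
open Complex (I)
open Z (daa Thv)

noncomputable section

variable {D : Type*} [NormedAddCommGroup D] [InnerProductSpace ℂ D] {c : Ctx D}
  {ell : (V → ℂ) → Completion D} {c0 : ℝ} {f f' F : Fn} {O : Set V}

/-- the kinematics of the context -/
def TA.kn (t : TA c) : Z.Kn D where
  Q := c.Q
  SK := c.SK
  S0 := c.S0
  Sk := c.Sk
  bt := c.bt
  uni := t.grp.uni
  scc := fun s v h0 hs => t.grp.sc_cont (fun x => ⟨one_pos, h0 x⟩) continuous_const hs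
    continuous_const
  ugK := c.ugK
  ugk := t.kt.ugk
  ugT := t.grp.ugT
  ugM := t.grp.ugM
  comm := fun s => (t.kt.comm 0 s).2
  ut := t.kt.ut
  ga := t.kt.ga
  sc := t.kt.sc
  lip := t.kt.lip
  dom := t.kt.dom
  split := t.kt.split
  k0 := t.kt.k0

namespace D1w

lemma wv_eq (hF : IsTest F) :
    c.Wv F = c.Th (daa F) + (3 : ℂ) • c.Tv (hk va va (box F)) := by
  have h1 := Ap.test_dv va (Ap.test_dv va hF)
  have h2 := Ap.test_box hF
  have b := fun m n => c.Q.bose_fld _ (c.hT.bose m n)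
  have e : ∀ m n, c.T m n (hW F m n) c.Q.vac = (gm (m, n) : ℂ) • c.T m n (daa F) c.Q.vac +
      (3 : ℂ) • c.T m n (hk va va (box F) m n) c.Q.vac := fun m n => by
    rw [← Grp.fld_smul (b m n) _ h1, ← c.Q.lin _ _ _ 3 _ (b m n) (Ap.sw_cmul _ h1)
      (Ap.test_hk _ _ h2 m n)]
    congr 1
    funext x
    simp only [hW, hk, la]
    push_cast
    ring
  simp only [Ctx.Wv, Ctx.Wf, Ctx.Th, Ctx.Thf, Ctx.Tv, Ctx.Tf, GF.tr, e, Finset.sum_add_distrib,
    ← Finset.smul_sum, ← Completion.coe_smul, ← Completion.coe_add]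
  congr 2
  refine Finset.sum_congr rfl fun m _ => ?_
  rw [Finset.sum_eq_single m (fun n _ hn => by simp [gm, bas, hn]) (by simp)]
  simp [gm, bas]

lemma daa_box (hF : IsTest F) : box (daa F) = daa (box F) := by
  obtain ⟨g, rfl⟩ := hF
  have e : ∀ (v : V) (g : Sch), bD i0 (dD v g) = dD v (bD i0 g) := fun v g => by
    have : Commute (dD v) (bD i0) := Commute.sum_right _ _ _ fun m _ =>
      (Commute.mul_right (dD_comm _ _) (dD_comm _ _)).smul_right _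
    exact (congrArg (fun A : Sch →L[ℂ] Sch => A g) this.eq).symm
  simp only [daa, ← ev_dD, ← ev_bD, e]

/-- `W F = -3 ell (μ ft (∂_a² F))` -/
lemma wv_thv (t : TA c) (h : c.Elt ell c0) (hF : IsTest F) : c.Wv F = Thv ell (daa F) := by
  have h1 := Ap.test_dv va (Ap.test_dv va hF)
  have e := h.taa 0 _ (Ap.test_box hF)
  rw [c.sh_zero] at e
  rw [wv_eq hF, Z.thv_eq (c := t.kn) h.el h1, daa_box hF, e, smul_add, ← daa_box hF,
    c.hl.trace _ h1, add_comm]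
  rfl

lemma Th_eq (g : GRP c) (hf : IsTest f) : c.Th f =
    (2 : ℂ) • c.Tv (hk va vb f) - ∑ i, c.Tv (hk (ex i) (ex i) f) := by
  simp only [Ctx.Th, Ctx.Tv, g.trace f _ hf, Completion.coe_sub, Completion.coe_smul,
    Fin.sum_univ_two, Completion.coe_add]

lemma fd_qb (t : TA c) {w : Completion D} {N : ℝ} (hw : c.qb w ≤ ENNReal.ofReal N) :
    Z.Fd t.kn w := by
  have : ∫⁻ p, ENNReal.ofReal (1 + |al p|) ∂c.nu w = ∫⁻ p, 1 + ENNReal.ofReal (al p) ∂c.nu w := by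
    refine lintegral_congr_ae ((t.bas.cone w).mono fun p hp => ?_)
    have := ((cone_iff p).1 hp).1
    simp only
    rw [abs_of_nonneg this, ENNReal.ofReal_add zero_le_one this, ENNReal.ofReal_one]
  refine (this.trans_lt ?_).ne
  rw [lintegral_add_left measurable_const, lintegral_one]
  exact ENNReal.add_lt_top.2 ⟨measure_lt_top _ _, hw.trans_lt ENNReal.ofReal_lt_top⟩

lemma sn_clm (A : Sch →L[ℂ] Sch) (m : ℕ) :
    ∃ (n : ℕ) (C : ℝ), 0 ≤ C ∧ ∀ F, sn m (A F) ≤ C * sn n F := by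
  have h : Continuous fun F => ST.sn V ℂ m (A F) :=
    (ST.continuous_sn (E := V) (F := ℂ) m).comp A.continuous
  simp only [← Api4.sn_eq] at h
  let q : Seminorm ℂ Sch := (Finset.Iic (m, m)).sup fun k => SchwartzMap.seminorm ℂ k.1 k.2
  exact lie_row.clm V (q.comp A.toLinearMap) h

/-- the generator of `K` on `W F` -/
lemma gn_w (t : TA c) {G : Sch} (h1 : ∀ h k, Dm c.SK (c.Tv (hk h k (ev (dD va (dD va G))))))
    (h2 : Dm c.SK (c.Tv (hk va va (ev (bD i0 G))))) : Gn c.SK (c.Wv (ev G))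
      ((2 : ℂ) • gen c.SK (c.Tv (hk va vb (ev (dD va (dD va G))))) -
        (gen c.SK (c.Tv (hk (ex 0) (ex 0) (ev (dD va (dD va G))))) +
          gen c.SK (c.Tv (hk (ex 1) (ex 1) (ev (dD va (dD va G)))))) +
        (3 : ℂ) • gen c.SK (c.Tv (hk va va (ev (bD i0 G))))) := by
  rw [wv_eq ⟨G, rfl⟩, daa, ← ev_dD, ← ev_dD, ← ev_bD, Th_eq t.grp ⟨_, rfl⟩, Fin.sum_univ_two]
  exact (((h1 _ _).gn.smul 2).sub ((h1 _ _).gn.add (h1 _ _).gn)).add (h2.gn.smul 3)

lemma supp1 (G : Sch) : tsupport (dD va (dD va G)) ⊆ tsupport G := by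
  have := (Ap.tsupport_dv va _).trans (Ap.tsupport_dv va (ev G))
  rwa [← ev_dD, ← ev_dD] at this

lemma supp2 (G : Sch) : tsupport (bD i0 G) ⊆ tsupport G := by
  have := Ap.tsupport_box (ev G)
  rwa [← ev_bD] at this

/-- the legs `W F` on slabs -/
theorem slab (t : TA c) : Z.Slab t.kn c.Wv where
  dm := fun b1 b2 hb => by
    obtain ⟨m, C, hC⟩ := t.kd.slab b1 b2 hb
    obtain ⟨n1, C1, p1, k1⟩ := sn_clm (dD va ∘L dD va) m
    obtain ⟨n2, C2, p2, k2⟩ := sn_clm (bD i0) m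
    refine ⟨max n1 n2, |C| * ((2 * (‖va‖ * ‖vb‖) + (‖ex 0‖ * ‖ex 0‖ + ‖ex 1‖ * ‖ex 1‖)) * C1 +
      3 * (‖va‖ * ‖va‖) * C2), fun G hG => ?_⟩
    have s1 := (supp1 G).trans hG
    have s2 := (supp2 G).trans hG
    have g := gn_w t (fun h k => (hC h k _ s1).1) (hC _ _ _ s2).1
    refine ⟨g.dm, ?_⟩
    have a : ∀ h k (f : Sch) (n : ℕ) (K : ℝ), tsupport f ⊆ _ → 0 ≤ K → n ≤ max n1 n2 →
        sn m f ≤ K * sn n G → ‖gen c.SK (c.Tv (hk h k (ev f)))‖ ≤
          |C| * (‖h‖ * ‖k‖) * (K * sn (max n1 n2) G) := fun h k f n K hf K0 hn hK =>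
      (hC h k f hf).2.2.1.trans (by
        rw [mul_assoc C]
        exact mul_le_mul (mul_le_mul_of_nonneg_right (le_abs_self C) (by positivity))
          (hK.trans (mul_le_mul_of_nonneg_left (Lie.sn_mono hn G) K0)) (Lie.sn_nonneg _ _)
          (by positivity))
    have a1 := fun h k => a h k _ _ _ s1 p1 (le_max_left _ _) (k1 G)
    have a2 := a va va _ _ _ s2 p2 (le_max_right _ _) (k2 G)
    show ‖gen c.SK (c.Wv (ev G))‖ ≤ _
    rw [g.gen_eq]
    refine ((norm_add_le _ _).trans (add_le_add_left ((norm_sub_le _ _).trans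
      (add_le_add_right (norm_add_le _ _) _)) _)).trans ?_
    rw [norm_smul, norm_smul, Complex.norm_ofNat, Complex.norm_ofNat]
    linarith [a1 va vb, a1 (ex 0) (ex 0), a1 (ex 1) (ex 1)]
  fd := fun b1 b2 G hb hG => by
    obtain ⟨m, C, hC⟩ := t.kd.slab b1 b2 (.inl hb)
    obtain ⟨m', C', hC'⟩ := t.a2.slab b1 b2 hb
    have s1 := (supp1 G).trans hG
    have s2 := (supp2 G).trans hG
    have a := fun h k f hf => fd_qb t (hC' h k f hf)
    show Z.Fd _ (gen c.SK (c.Wv (ev G)))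
    rw [(gn_w t (fun h k => (hC h k _ s1).1) (hC _ _ _ s2).1).gen_eq]
    exact (((a _ _ _ s1).smul 2).sub ((a _ _ _ s1).add (a _ _ _ s1))).add ((a _ _ _ s2).smul 3)

theorem slw (t : TA c) (h : c.Elt ell c0) : Z.SlW t.kn ell :=
  ⟨fun b1 b2 hb => by simpa only [fun G : Sch => wv_thv t h ⟨G, rfl⟩] using (slab t).dm b1 b2 hb,
    fun b1 b2 G hb hG => by simpa only [wv_thv t h ⟨G, rfl⟩] using (slab t).fd b1 b2 G hb hG⟩

/-- integration along `a` -/
theorem ray_a (t : TA c) (hO : ∀ s : ℝ, 0 ≤ s → ∀ z ∈ O, z + s • va ∈ O) {x x' y y' : Completion D}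
    (h : Gn (Pa c.Q) x (I • y)) (h' : Gn (Pa c.Q) x' (I • y')) (e : inner ℂ c.Om x = 0)
    (e' : inner ℂ c.Om x' = 0) (p : Pr (c.N O) c.Om y y') : Pr (c.N O) c.Om x x' :=
  ray t.grp.ugPa (fun s => t.grp.vac _ _ _) (fun s hs X hX => by
    simpa only [Pa, neg_smul] using t.grp.mem_ut hX _ (hO s hs)) h h' p
    (erg_of_bc c.bt (a := va) (fun _ _ => rfl) (by simpa only [md_va'] using (t.bas.ker x e).1))
    (erg_of_bc c.bt (a := va) (fun _ _ => rfl) (by simpa only [md_va'] using (t.bas.ker x' e').1))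

theorem lt_ray (t : TA c) (h : c.Elt ell c0) (hO : ∀ s : ℝ, 0 ≤ s → ∀ z ∈ O, z + s • va ∈ O)
    (hf : IsTest f) (hf' : IsTest f')
    (p : Pr (c.N O) c.Om (ell (ft (dv va f))) (ell (ft (dv va f')))) :
    Pr (c.N O) c.Om (ell (ft f)) (ell (ft f')) :=
  ray_a t hO (Z.utl (c := t.kn) h.el va hf) (Z.utl (c := t.kn) h.el va hf')
    (Z.lt_perp (c := t.kn) h.el hf) (Z.lt_perp (c := t.kn) h.el hf') p

lemma daa_bar (hf : IsTest f) : daa (bar f) = bar (daa f) := by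
  have e : ∀ {f : Fn}, IsTest f → dv va (bar f) = bar (dv va f) := fun hf =>
    funext fun x => Ap.dv_bar (Ap.sw_diff hf x) va
  rw [daa, e hf, e (Ap.test_dv va hf)]

lemma pr_wdg (jc : JC c) (hf : In (Wdg va vb 0) f) :
    Pr (c.N (Wdg va vb 0)) c.Om (c.l f) (c.l (bar f)) := by
  refine jc.core va vb 0 _ _ null_va null_vb (by rw [md_ab]; exact one_pos) fun X X' hX =>
    c.wl GF.one 0 f X X' H496.isLor_one ?_ ?_
  · rwa [Set.ext fun z => (P352X.D1.wed z).1]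
  · rwa [Set.ext fun z => (P352X.D1.wed z).2]

/-- `ell ∘ ft` is local in the wedge -/
theorem wl_t (t : TA c) (h : c.Elt ell c0) (hf : In (Wdg va vb 0) f) :
    Pr (c.N (Wdg va vb 0)) c.Om (ell (ft f)) (ell (ft (bar f))) := by
  have hO : ∀ s : ℝ, 0 ≤ s → ∀ z ∈ Wdg va vb 0, z + s • va ∈ Wdg va vb 0 := fun s hs z hz => by
    simp only [Wdg, mem_setOf_eq, sub_zero, md_va, md_vb] at hz ⊢
    simp
    exact ⟨hz.1, by linarith [hz.2]⟩
  have hb := Ap.test_bar hf.1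
  refine lt_ray t h hO hf.1 hb (lt_ray t h hO (Ap.test_dv _ hf.1) (Ap.test_dv _ hb) ?_)
  have e1 := h.taa 0 _ hf.1
  have e2 := h.taa 0 _ hb
  rw [c.sh_zero] at e1 e2
  rw [e1, e2, daa_bar hf.1]
  refine Pr.add ?_ (pr_wdg t.jc (Ap.in_dv _ (Ap.in_dv _ hf)))
  simpa only [Ap.bar_hk] using t.grp.pr_Tv (Ap.in_hk va va hf)

lemma pfw_eq (t : TA c) (h : c.Elt ell c0) (hf : IsTest f) (hf' : IsTest f') :
    Z.PW t.kn ell f f' = c.PFW f f' := by
  simp only [Z.PFg, wv_thv t h hf', wv_thv t h (Ap.test_bar hf),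
    fun i => wv_thv t h (Ap.test_tx i hf'), fun i => wv_thv t h (Ap.test_bar (Ap.test_tx i hf))]
  rfl

lemma fz_w (t : TA c) (h : c.Elt ell c0) (hz : FZ c) : Z.FZ (Z.PW t.kn ell) := fun θ hθ => by
  obtain ⟨ρ1, κ3, h1, h3, a, b, d⟩ := hz θ hθ
  refine ⟨ρ1, κ3, h1, h3, a, b, fun η hη => ?_⟩
  filter_upwards [d η hη, self_mem_nhdsWithin] with ε d1 hε
  filter_upwards [d1, self_mem_nhdsWithin] with δ d2 hδ
  have k := Ap.tst_dil hθ.1 (ne_of_gt hε)
  have p1 := Ap.tst_dil (Ap.tst_chp hθ) (ne_of_gt hε)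
  have p2 := Ap.tst_dil (Ap.tst_chm hθ) (ne_of_gt hε)
  have p3 := Ap.tst_abv k hθ hδ
  have p4 := Ap.tst_blw k hθ hδ
  have q := fun {u v φ ψ} (hu : Tst u) (hv : Tst v) (i j : ℕ) (hφ : Tst φ) (hψ : Tst ψ) =>
    pfw_eq t h (Ap.test_pr (Ap.tst_ap i hu) hφ) (Ap.test_pr (Ap.tst_ap j hv) hψ)
  simpa only [Z.Faces6, fun i j => q h1 h3 i j p1 p4, fun i j => q h3 h1 i j p3 p2,
    fun i j => q h1 h3 i j p3 p2, fun i j => q h3 h1 i j p1 p4] using d2

end D1w

open D1w in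
/-- row D1 -/
theorem d1_row (c : Ctx D) : T3 c → FZ c → D1 c := fun t hz ell c0 h =>
  Z.d1_of (c := t.toTA.kn) h.el (slw t.toTA h) (fz_w t.toTA h hz)
    (fun r ψ ψ' hr p => by
      have := t.kd.b 0 r ψ ψ' le_rfl hr p
      rwa [sub_zero] at this) fun f hf => by
      rw [show Rc 0 0 = Wdg va vb 0 from Set.ext fun z => by simp [Rc, HM.Rg, Wdg]]
      exact wl_t t.toTA h hf

end

end Vale.Agent.P352L
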