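import Vale.Agent.P352X.R.PW
import Vale.Agent.P352.H246.Cov
import Vale.Agent.P352L.R.GEN
import Vale.Agent.P352L.R.F2.B

/-!
# P352L, rows PW and PWG: Ward identities on the null plane
-/

set_option linter.all false

open MeasureTheory Filter Topology Set
open scoped SchwartzMap ComplexConjugate ENNReal ContDiff

namespace Vale.Agent.P352L

open Vale.Agent.P352X
export Vale.Agent.P352X (al_scp be_scp gn_of_fix pl_1 pl_2 sim_smul tx_scp)

open Vale.Agent.P352 Vale.Agent.P352.GF Vale.Agent.P352.BW Vale.Agent.P352.H246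
open Vale.Agent.P352.H496 Vale.Agent.P352.H755 Vale.Agent.P352.H15
open UniformSpace (Completion)
open Complex (I)

noncomputable section

/-- growth of polynomial families -/
theorem IsPol.grow {E : Type*} [NormedAddCommGroup E] [NormedSpace ℝ E] {J : ℕ} {F : ℝ → E}
    (h : IsPol J F) : ∃ C, 0 ≤ C ∧ ∀ τ, ‖F τ‖ ≤ C * (1 + |τ|) ^ J := by
  obtain ⟨C, C0, hC⟩ := IsPol.bd (E := E) J
  have p : 0 ≤ ∑ i ∈ Finset.range (J + 1), ‖F i‖ := Finset.sum_nonneg fun _ _ => norm_nonneg _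
  exact ⟨C * ∑ i ∈ Finset.range (J + 1), ‖F i‖, by positivity, fun τ => (hC F _ h (fun i hi =>
    Finset.single_le_sum (f := fun i : ℕ => ‖F i‖) (fun _ _ => norm_nonneg _) hi) τ).trans_eq
      (by ring)⟩

variable {D : Type*} [NormedAddCommGroup D] [InnerProductSpace ℂ D]

/-- the smeared stress tensor is a polynomial in the fields -/
theorem Ctx.al_Tf (c : Ctx D) {O : Set V} {F : Ix → Ix → Fn} (hF : ∀ m n, In O (F m n)) :
    Al c.Q O (c.Tf F) (c.Tf fun m n => bar (F m n)) :=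
  Al.finsum Finset.univ fun m _ => Al.finsum Finset.univ fun n _ =>
    Al.fld _ _ _ _ _ (Fp.fT c m n) (Fp.fT c m n) (c.hT.herm m n) (hF m n) Al.one

theorem Ctx.al_Thf (c : Ctx D) {O : Set V} {f : Fn} (hf : In O f) :
    Al c.Q O (c.Thf f) (c.Thf (bar f)) := by
  have h := Al.finsum Finset.univ fun m _ => Al.smul (eta m : ℂ) _ _
    (Al.fld _ _ _ _ _ (Fp.fT c m m) (Fp.fT c m m) (c.hT.herm m m) hf Al.one)
  simp only [Complex.star_def, Complex.conj_ofReal] at h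
  exact h

namespace Pw

export Vale.Agent.P352X.Pw (TT Stp ex_stp Xi dr_Xi chg sep scp_a scp_b scp_e XM tst_x tst_t hX_M
  hX_M' TT_hk sim_const sim_M)

variable (c : Ctx D)

lemma Tv_lin {F G : Ix → Ix → Fn} (hF : TT F) (hG : TT G) (a : ℂ) :
    c.Tv (fun m n x => F m n x + a * G m n x) = c.Tv F + a • c.Tv G := by
  rw [Ctx.Tv, Fp.Tf_lin hF hG, Completion.coe_add, Completion.coe_smul]
  rfl

/-- the matrix elements of the row -/
def Ph (w v : D) (F : Ix → Ix → Fn) : ℂ :=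
  inner ℂ (w : Completion D) ((c.Tf F v : D) : Completion D)

lemma Ph_eq (w v : D) (F : Ix → Ix → Fn) : Ph c w v F = inner ℂ w (c.Tf F v) :=
  Completion.inner_coe _ _

lemma Ph_lin (w v : D) {F G : Ix → Ix → Fn} (hF : TT F) (hG : TT G) (a : ℂ) :
    Ph c w v (fun m n x => F m n x + a * G m n x) = Ph c w v F + a * Ph c w v G := by
  simp only [Ph_eq, Fp.Tf_lin hF hG, inner_add_right, inner_smul_right]

/-- real tensor functions that are spacelike to the first leg -/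
lemma Ph_sep {K : Set V} {X X' : D → D} (hX : Al c.Q K X X') (v : D) {F : Ix → Ix → Fn} (hF : TT F)
    (hr : ∀ m n, bar (F m n) = F m n) (h : ∀ f, In K f → ∀ m n, Sep (F m n) f) :
    Ph c (X' c.Q.vac) v F = inner ℂ (c.Tv F) ((X v : D) : Completion D) := by
  have a := Fp.Tf_sy (c := c) hF hr
  rw [Ph_eq, ← a, Fp.al_comm a (fun B f v hB hf => Fp.Tf_loc hF hB hf.1 (h f hf) v) hX.star,
    hX.adj', Ctx.Tv, Completion.inner_coe]

variable {c}

lemma gn_dom {W X} (K : Gen.Fl c W X) (g : GRP c) (v : D) :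
    Gn W (v : Completion D) (c.A X v : D) := by
  have := K.dom g v
  rwa [Completion.coe_smul] at this

lemma A_vac {W X} (K : Gen.Fl c W X) (g : GRP c) : c.A X c.Q.vac = 0 := by
  have h := gn_dom K g c.Q.vac
  obtain ⟨L, a, w, b, -, hW, -⟩ := K
  have h0 : Gn W (c.Q.vac : Completion D) 0 := gn_of_fix fun t => by
    rw [hW]
    exact g.vac _ _ _
  exact Completion.coe_injective D ((h.unique h0).trans (Completion.coe_zero).symm)

lemma A_sy {W X} (K : Gen.Fl c W X) (g : GRP c) : Fp.Sy (c.A X) := fun v w => by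
  have h := Fp.gn_sym (W := W) (fun e v w => by
    obtain ⟨L, a, w', b, -, hW, -⟩ := K
    rw [hW, g.ug_inner]) (K.zero g) (gn_dom K g v) (gn_dom K g w)
  simpa only [Completion.inner_coe] using h.symm

/-- the Ward identity -/
theorem ward (hc : CH c) (g : GRP c) {W X} (K : Gen.Fl c W X) (hX : IsSim 0 X) {χ Ξ : V → ℝ}
    {K3 : Set V} {Y Y' : D → D} (h3 : IsCompact K3) (hY : Al c.Q K3 Y Y') (h : Chg K3 χ Ξ) (w : D) :
    Ph c w (Y c.Q.vac) (dens χ Ξ X) = inner ℂ ((Y' w : D) : Completion D) (c.Tv (dens χ Ξ X)) +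
      inner ℂ (w : Completion D) (gen W ((Y c.Q.vac : D) : Completion D)) := by
  have hF := Fp.test_dens h.1 h.2.1 hX
  have p := Fp.al_comm ((Fp.Tf_sy (c := c) hF fun m n => Ap.bar_cx _).sub (A_sy K g))
    (fun B f v hB hf => by
      have q := ext_inner_left ℂ fun w => hc K3 χ Ξ X B f v w h3 h hX hB hf.1 hf.2.2
      rw [Fp.fld_sub hB hf.1]
      linear_combination (norm := abel) q) hY c.Q.vac
  simp only [A_vac K g, sub_zero, sub_eq_iff_eq_add] at p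
  rw [(gn_dom K g _).gen_eq, Ph_eq, p, Ctx.Tv, Completion.inner_coe, Completion.inner_coe,
    inner_add_right, hY.adj']

/-! ### decay under the scaling -/

lemma Tv_hk_smul (a b : ℝ) (h k : V) {f : Fn} (hf : GF.IsTest f) :
    c.Tv (hk (a • h) (b • k) f) = ((a * b : ℝ) : ℂ) • c.Tv (hk h k f) := by
  rw [Ctx.Tv, Ctx.Tv, ← Completion.coe_smul, Ctx.Tf, Ctx.Tf, Grp.T_hk c.hT _ _ hf,
    Grp.T_hk c.hT _ _ hf, Finset.smul_sum]
  refine congrArg _ (Finset.sum_congr rfl fun m _ => ?_)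
  rw [Finset.smul_sum]
  refine Finset.sum_congr rfl fun n _ => ?_
  rw [smul_smul, ← Complex.ofReal_mul]
  congr 2
  simp only [Pi.smul_apply, smul_eq_mul]
  ring

theorem nrm_kL (hg : GRP c) {g : P3 → ℝ} {ρ : ℝ → ℝ} (h1 : Tst g) (h2 : Tst ρ) {L a b : ℝ}
    (hL : 0 < L) {h k : V} (ha : scp L 1 h = a • h) (hb : scp L 1 k = b • k) :
    |a * b| * ‖(c.sh (Real.log (Real.sqrt (L * 1)))).Tv (hk h k (pr (kL g L) ρ))‖ =
      L * ‖c.Tv (hk h k (pr g ρ))‖ := by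
  obtain ⟨hΛ, hs⟩ := hg.lsc L 1 hL one_pos
  have hq : 0 < Real.sqrt (L * 1) := Real.sqrt_pos.2 (by positivity)
  have hq' : 0 < Real.sqrt L := Real.sqrt_pos.2 hL
  have ht := Ap.test_pr (Ap.tst_kL h1 hL) h2
  set Λ := bst va vb (Real.sqrt (L / 1) - 1) (Real.sqrt (1 / L) - 1)
  have e1 : (fun x => pr (kL g L) ρ (sim (Real.sqrt (L * 1)) Λ 0 x)) = pr g ρ := by
    funext x
    rw [hs]
    simp only [pr, kL, pl_1, pl_2, al_scp, be_scp, tx_scp, mul_one, one_mul, smul_smul]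
    rw [inv_mul_cancel₀ hq'.ne', one_smul, mul_div_cancel_left₀ _ hL.ne']
    rfl
  have e2 : ∀ {h : V} {a : ℝ}, scp L 1 h = a • h → sim 1 Λ 0 h = ((Real.sqrt L)⁻¹ * a) • h := by
    intro h a e
    rw [← hs, sim_smul, mul_one] at e
    rw [mul_smul, ← e, smul_smul, inv_mul_cancel₀ hq'.ne', one_smul]
  have := hg.ten _ Λ 0 h k _ c.Q.vac hq hΛ ht
  rw [e1, e2 ha, e2 hb, c.Q.U_vac _ _ _ hq hΛ] at this
  have e3 := hg.ug_norm (Real.sqrt (L * 1)) Λ 0 (c.Tv (hk h k (pr g ρ)))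
  rw [Ctx.Tv, hg.coe _ _ _ _ hq hΛ, this] at e3
  change ‖(c.sh _).Tv _‖ = ‖c.Tv _‖ at e3
  rw [← e3, Tv_hk_smul _ _ _ _ ht, norm_smul, Complex.norm_real, Real.norm_eq_abs, ← mul_assoc]
  congr 1
  have e4 : (Real.sqrt L)⁻¹ * a * ((Real.sqrt L)⁻¹ * b) = L⁻¹ * (a * b) := by
    rw [mul_mul_mul_comm, ← mul_inv, Real.mul_self_sqrt hL.le]
  rw [e4, abs_mul L⁻¹, abs_of_pos (inv_pos.2 hL), mul_inv_cancel_left₀ hL.ne']

/-- members that run at most like a logarithm -/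
def Lg (τ : ℝ → ℝ) : Prop := ∃ C, ∀ L, 1 ≤ L → |τ L| ≤ C * (1 + Real.log L)

theorem nrm_bd (hg : All GRP c) {τ : ℝ → ℝ} (hτ : Lg τ) {g : P3 → ℝ} {ρ : ℝ → ℝ} (h1 : Tst g)
    (h2 : Tst ρ) (h k : V) : ∃ C, 0 ≤ C ∧ ∀ L a b, 1 ≤ L → scp L 1 h = a • h → scp L 1 k = b • k →
      |a * b| * ‖(c.sh (τ L)).Tv (hk h k (pr (kL g L) ρ))‖ ≤ L * (C * (1 + Real.log L) ^ c.n0) := by
  obtain ⟨C, C0, hC⟩ := (hg.zero.polv _ (TT_hk h k h1 h2)).grow
  obtain ⟨C1, hC1⟩ := hτ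
  refine ⟨C * (2 + |C1|) ^ c.n0, by positivity, fun L a b hL ha hb => ?_⟩
  have p := one_pos.trans_le hL
  have := nrm_kL (hg (τ L - Real.log (Real.sqrt (L * 1)))) h1 h2 p ha hb
  rw [c.sh_sh, sub_add_cancel] at this
  rw [this, mul_assoc, ← mul_pow]
  refine mul_le_mul_of_nonneg_left ((hC _).trans (mul_le_mul_of_nonneg_left
    (pow_le_pow_left₀ (by positivity) ?_ _) C0)) p.le
  have l0 := Real.log_nonneg hL
  rw [mul_one, Real.log_sqrt p.le]
  have := abs_sub (τ L) (Real.log L / 2)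
  rw [abs_of_nonneg (show 0 ≤ Real.log L / 2 by positivity)] at this
  nlinarith [hC1 L hL, le_abs_self C1, abs_nonneg C1]

/-- bounds by `C (1 + log L) ^ n / sqrt L` -/
def Sm (n : ℕ) (u : ℝ → ℝ) : Prop := ∃ C, ∀ L, 1 ≤ L → Real.sqrt L * u L ≤ C * (1 + Real.log L) ^ n

lemma Sm.lim {n : ℕ} {u : ℝ → ℝ} (h : Sm n u) (h0 : ∀ L, 0 < L → 0 ≤ u L) :
    Tendsto u atTop (𝓝 0) := by
  obtain ⟨C, hC⟩ := h
  obtain ⟨C1, -, h1⟩ := log_le_rpow_top n 1 0 (show (0 : ℝ) < 1 / 4 by norm_num)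
  have := (tendsto_rpow_neg_atTop (show (0 : ℝ) < 1 / 4 by norm_num)).const_mul (|C| * C1)
  rw [mul_zero] at this
  refine squeeze_zero' ((eventually_gt_atTop 0).mono h0) ((eventually_ge_atTop 1).mono
    fun L hL => ?_) this
  have p := one_pos.trans_le hL
  have l0 := Real.log_nonneg hL
  have h2 := h1 L hL
  rw [zero_add, one_mul, abs_of_nonneg l0] at h2
  refine le_of_mul_le_mul_left ((hC L hL).trans ?_) (Real.sqrt_pos.2 p)
  rw [Real.sqrt_eq_rpow, mul_left_comm, ← Real.rpow_add p, mul_assoc,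
    show (1 / 2 + -(1 / 4) : ℝ) = 1 / 4 by norm_num]
  exact mul_le_mul (le_abs_self C) h2 (by positivity) (abs_nonneg C)

lemma Sm.add {n : ℕ} {u v w : ℝ → ℝ} (h : Sm n u) (h' : Sm n v)
    (e : ∀ L, 1 ≤ L → w L ≤ u L + v L) : Sm n w := by
  obtain ⟨C, hC⟩ := h
  obtain ⟨C', hC'⟩ := h'
  refine ⟨C + C', fun L hL => (mul_le_mul_of_nonneg_left (e L hL) (Real.sqrt_nonneg L)).trans ?_⟩
  linarith [hC L hL, hC' L hL]

lemma Sm.of_sqrt {n : ℕ} {u : ℝ → ℝ} {r : ℝ → ℝ} (h : Sm n fun L => r L * (Real.sqrt L * u L))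
    (h0 : ∀ L, 1 ≤ L → 0 ≤ r L * u L) : Sm n fun L => r L * u L := by
  obtain ⟨C, hC⟩ := h
  refine ⟨C, fun L hL => le_trans (mul_le_mul_of_nonneg_left ?_ (Real.sqrt_nonneg L)) (hC L hL)⟩
  exact (le_mul_of_one_le_left (h0 L hL) (Real.one_le_sqrt.2 hL)).trans_eq (mul_left_comm _ _ _)

section dec

variable (hg : All GRP c) {τ : ℝ → ℝ} (hτ : Lg τ) {g : P3 → ℝ} {ρ : ℝ → ℝ} (h1 : Tst g)
  (h2 : Tst ρ) (i : Fin 2)
include hg hτ h1 h2

lemma sm_aa : Sm c.n0 fun L => Real.sqrt L * ‖(c.sh (τ L)).Tv (hk va va (pr (kL g L) ρ))‖ :=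
  let ⟨C, _, h⟩ := nrm_bd hg hτ h1 h2 va va
  ⟨C, fun L hL => by
    have p := one_pos.trans_le hL
    have := h L _ _ hL (scp_a L) (scp_a L)
    rw [abs_of_pos (mul_pos p p), mul_assoc] at this
    rw [← mul_assoc, Real.mul_self_sqrt p.le]
    exact le_of_mul_le_mul_left this p⟩

lemma sm_ae : Sm c.n0 fun L => ‖(c.sh (τ L)).Tv (hk va (ex i) (pr (kL g L) ρ))‖ :=
  let ⟨C, _, h⟩ := nrm_bd hg hτ h1 h2 va (ex i)
  ⟨C, fun L hL => by
    have p := one_pos.trans_le hL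
    have := h L _ _ hL (scp_a L) (scp_e L i)
    rw [abs_of_pos (mul_pos p (Real.sqrt_pos.2 p)), mul_assoc] at this
    exact le_of_mul_le_mul_left this p⟩

lemma sm_ba : Sm c.n0 fun L =>
    L⁻¹ * (Real.sqrt L * ‖(c.sh (τ L)).Tv (hk vb va (pr (kL g L) ρ))‖) :=
  let ⟨C, C0, h⟩ := nrm_bd hg hτ h1 h2 vb va
  ⟨C, fun L hL => by
    have p := one_pos.trans_le hL
    have := h L _ _ hL (scp_b L) (scp_a L)
    rw [one_mul, abs_of_pos p] at this
    rw [mul_left_comm, ← mul_assoc (Real.sqrt L), Real.mul_self_sqrt p.le,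
      inv_mul_cancel_left₀ p.ne']
    exact le_of_mul_le_mul_left this p⟩

lemma sm_be : Sm c.n0 fun L => L⁻¹ * ‖(c.sh (τ L)).Tv (hk vb (ex i) (pr (kL g L) ρ))‖ :=
  let ⟨C, _, h⟩ := nrm_bd hg hτ h1 h2 vb (ex i)
  ⟨C, fun L hL => by
    have p := one_pos.trans_le hL
    have := h L _ _ hL (scp_b L) (scp_e L i)
    rw [one_mul, abs_of_pos (Real.sqrt_pos.2 p)] at this
    rw [mul_left_comm]
    exact (inv_mul_le_iff₀ p).2 this⟩

end dec

/-- decay of the plane and face densities of the vector field `X` -/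
def Dec (c : Ctx D) (τ : ℝ → ℝ) (X : V → V) : Prop := ∀ g ρ, Tst g → Tst ρ →
  (Sm c.n0 fun L => ‖(c.sh (τ L)).Tv (hX va X (pr (kL g L) ρ))‖) ∧
    Sm c.n0 fun L => L⁻¹ * ‖(c.sh (τ L)).Tv (hX vb X (pr (kL g L) ρ))‖

variable {τ : ℝ → ℝ}

theorem dec_a (hg : All GRP c) (hτ : Lg τ) : Dec c τ fun _ => va := fun g ρ h1 h2 =>
  ⟨by simpa only [one_mul] using Sm.of_sqrt (r := fun _ => 1) (by
      simpa only [one_mul] using! sm_aa hg hτ h1 h2) fun L _ => by positivity,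
    (sm_ba hg hτ h1 h2).of_sqrt fun L hL => by positivity⟩

theorem dec_e (hg : All GRP c) (hτ : Lg τ) (i : Fin 2) : Dec c τ fun _ => ex i := fun g ρ h1 h2 =>
  ⟨sm_ae hg hτ h1 h2 i, sm_be hg hτ h1 h2 i⟩

lemma nrm_M (h : V) (i : Fin 2) {g : P3 → ℝ} {ρ : ℝ → ℝ} (h1 : Tst g) (h2 : Tst ρ) {L : ℝ}
    (hL : 0 < L) : ‖c.Tv (hX h (XM i) (pr (kL g L) ρ))‖ ≤
      ‖c.Tv (hk h (ex i) (pr (kL g L) fun t => t * ρ t))‖ +
        Real.sqrt L * ‖c.Tv (hk h va (pr (kL (fun y => y.2 i * g y) L) ρ))‖ := by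
  rw [hX_M' h i g ρ hL, Tv_lin c (TT_hk _ _ (Ap.tst_kL h1 hL) (tst_t h2))
    (TT_hk _ _ (Ap.tst_kL (tst_x h1 i) hL) h2)]
  refine (norm_add_le _ _).trans_eq ?_
  rw [norm_smul, Complex.norm_real, Real.norm_of_nonneg (Real.sqrt_nonneg L)]

theorem dec_M (hg : All GRP c) (hτ : Lg τ) (i : Fin 2) : Dec c τ (XM i) := fun g ρ h1 h2 =>
  ⟨(sm_ae hg hτ h1 (tst_t h2) i).add (sm_aa hg hτ (tst_x h1 i) h2) fun L hL =>
      nrm_M _ i h1 h2 (one_pos.trans_le hL),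
    (sm_be hg hτ h1 (tst_t h2) i).add (sm_ba hg hτ (tst_x h1 i) h2) fun L hL => by
      rw [← mul_add]
      exact mul_le_mul_of_nonneg_left (nrm_M _ i h1 h2 (one_pos.trans_le hL)) (by positivity)⟩

lemma lim0 {n : ℕ} {u : ℝ → Completion D} {r : ℝ → ℝ} (h : Sm n fun L => r L * ‖u L‖)
    (h0 : ∀ L, 0 < L → 0 ≤ r L) : Tendsto (fun L => (r L : ℂ) • u L) atTop (𝓝 0) := by
  refine tendsto_zero_iff_norm_tendsto_zero.2 ((h.lim fun L hL =>
    mul_nonneg (h0 L hL) (norm_nonneg _)).congr' ?_)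
  filter_upwards [eventually_gt_atTop 0] with L hL
  rw [norm_smul, Complex.norm_real, Real.norm_of_nonneg (h0 L hL)]

/-- the plane charge, for profiles of integral one -/
theorem core (hc : All CH c) (g : All GRP c) {W X} (K : Gen.Fl c W X) (hX' : IsSim 0 X)
    (hs : ContDiff ℝ ∞ X) (hd : Dec c τ X) {u0 : ℝ} {Z Z' Y Y' : D → D} {κ : P3 → ℝ} {ρ : ℝ → ℝ}
    (hu : 0 < u0) (h1 : Al c.Q {z | u0 < be z} Z Z') (h3 : Al c.Q {z | be z < -u0} Y Y')
    (hκ : Cut κ) (hρ : Tst ρ) (hρ' : tsupport ρ ⊆ Ioo (-u0) u0) (hi : ∫ t, ρ t = 1) :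
    Tendsto (fun L => Ph (c.sh (τ L)) (Z' c.Q.vac) (Y c.Q.vac) (hX va X (pr (kL κ L) ρ))) atTop
      (𝓝 (inner ℂ ((Z' c.Q.vac : D) : Completion D)
        (gen W ((Y c.Q.vac : D) : Completion D)))) := by
  obtain ⟨K1, hK1, s1', h1'⟩ := Fp.al_cpt h1
  obtain ⟨K3, hK3, s3', h3'⟩ := Fp.al_cpt h3
  obtain ⟨R, hR, hb⟩ := (hK1.union hK3).isBounded.subset_closedBall_lt 0 0
  obtain ⟨ε, ε0, hε⟩ := Metric.eventually_nhds_iff.1 hκ.2
  obtain ⟨P, hP⟩ := ex_stp hρ hρ' hi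
  have hM : 0 < u0 + 2 * R := by positivity
  obtain ⟨t1, t0, e1, e2⟩ : ∃ t1, 0 < t1 ∧ 2 * t1 < ε ∧ 16 * t1 * (u0 + 2 * R) < ε ^ 2 := by
    refine ⟨min (ε / 4) (ε ^ 2 / (32 * (u0 + 2 * R))), by positivity,
      by linarith [min_le_left (ε / 4) (ε ^ 2 / (32 * (u0 + 2 * R)))], ?_⟩
    have := min_le_right (ε / 4) (ε ^ 2 / (32 * (u0 + 2 * R)))
    rw [le_div_iff₀ (by positivity)] at this
    nlinarith [pow_pos ε0 2]
  obtain ⟨s, s1, s2, s3, -⟩ := Ap.ex_step (show t1 < 2 * t1 by linarith)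
  obtain ⟨θ, hθ, -, θ1, -⟩ := Ap.ex_chi (isCompact_Icc (a := -(u0 + 2 * R)) (b := u0 + 2 * R))
    isOpen_univ (subset_univ _)
  set k : ℝ → ℝ := fun t => 1 - s t
  have hk' : ContDiff ℝ ∞ k := contDiff_const.sub s1
  have k1 : ∀ t, t ≤ t1 → k t = 1 := fun t ht => by simp [k, s2 t ht]
  have k0 : ∀ t, 2 * t1 ≤ t → k t = 0 := fun t ht => by simp [k, s3 t ht]
  set φ : ℝ → ℝ := fun t => (1 - P t) * θ t
  have hφ : Tst φ := Ap.cs_mul_l (contDiff_const.sub hP.sm) hθ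
  have sφ : tsupport φ ⊆ Iic u0 := Ap.tsupp_sub isClosed_Iic fun t ht => by_contra fun h =>
    ht (by simp [φ, hP.hi t (not_le.1 h).le])
  have g1 : Tst fun y : P3 => κ y * k y.1 := Ap.cs_mul_r hκ.1 (hk'.comp contDiff_fst)
  have g2 : Tst fun y : P3 => κ y * deriv k y.1 :=
    Ap.cs_mul_r hκ.1 ((contDiff_infty_iff_deriv.1 hk').2.comp contDiff_fst)
  have g3 : Tst fun y : P3 => κ y * s y.1 := Ap.cs_mul_r hκ.1 (s1.comp contDiff_fst)
  have cl : IsClosed {y : P3 | t1 ≤ y.1} := isClosed_le continuous_const continuous_fst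
  have u2 : tsupport (fun y : P3 => κ y * deriv k y.1) ⊆ {y | t1 ≤ y.1} :=
    Ap.tsupp_sub cl fun y hy => by_contra fun h => right_ne_zero_of_mul hy (by
      rw [EventuallyEq.deriv_eq (f := fun _ => 1) (mem_of_superset (Iio_mem_nhds (not_le.1 h))
        fun t ht => k1 t (le_of_lt ht)), deriv_const])
  have u3 : tsupport (fun y : P3 => κ y * s y.1) ⊆ {y | t1 ≤ y.1} :=
    Ap.tsupp_sub cl fun y hy => by_contra fun h =>
      right_ne_zero_of_mul hy (s2 _ (not_le.1 h).le)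
  have tt : ∀ h {g : P3 → ℝ} {ρ : ℝ → ℝ} {L}, Tst g → Tst ρ → 0 < L →
      TT (hX h X (pr (kL g L) ρ)) := fun h g ρ L a b hL m n =>
    (Ap.in_hX h hs (Ap.in_univ (Ap.dc_pr (Ap.tst_kL a hL) b)) m n).1
  have re : ∀ h (g : P3 → ℝ) (ρ : ℝ → ℝ) m n, bar (hX h X (pr g ρ) m n) = hX h X (pr g ρ) m n :=
    fun h g ρ m n => by rw [Ap.bar_hX, Ap.bar_pr]
  have l1 := lim0 (r := fun _ => 1) (by simpa only [one_mul] using (hd _ _ g1 hρ).1)
    fun _ _ => zero_le_one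
  have l2 := lim0 (hd _ _ g2 hφ).2 fun L hL => (inv_pos.2 hL).le
  have l3 := lim0 (r := fun _ => 1) (by simpa only [one_mul] using (hd _ _ g3 hρ).1)
    fun _ _ => zero_le_one
  have l := (((tendsto_const_nhds (x := ((Y' (Z' c.Q.vac) : D) :
    Completion D))).inner (𝕜 := ℂ) (l1.sub l2)).add_const
      (inner ℂ ((Z' c.Q.vac : D) : Completion D) (gen W ((Y c.Q.vac : D) : Completion D)))).add
        ((l2.add l3).inner (𝕜 := ℂ)
          (tendsto_const_nhds (x := ((Z (Y c.Q.vac) : D) : Completion D))))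
  simp only [sub_zero, add_zero, inner_zero_left, inner_zero_right, zero_add] at l
  refine l.congr' ?_
  filter_upwards [eventually_gt_atTop 0, eventually_gt_atTop (R / t1)] with L hL0 hL
  rw [div_lt_iff₀' t0] at hL
  have sp : ∀ {g : P3 → ℝ} {φ : ℝ → ℝ}, tsupport g ⊆ {y | t1 ≤ y.1} → tsupport φ ⊆ Iic u0 →
      ∀ h, ∀ f, In K1 f → ∀ m n, Sep (hX h X (pr (kL g L) φ) m n) f := fun a b h f hf m n =>
    Ap.bar_bar f ▸ sep (f := bar f) hL0 hL (fun y hy => by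
      rw [Ap.tsupport_bar] at hy
      exact ⟨mem_closedBall_zero_iff.1 (hb (.inl (hf.2.2 hy))), s1' (hf.2.2 hy)⟩) a b h X m n
  have ch := chg hu hR (fun y hy => ⟨mem_closedBall_zero_iff.1 (hb (.inr hy)), s3' hy⟩) hκ.1
    (fun y hy => hε (by rwa [dist_zero_right])) hP hk' k1 k0 hθ θ1 hL0 hL e1 e2
  have θρ : ∀ t, θ t * ρ t = ρ t := fun t => by
    by_cases h : t ∈ tsupport ρ
    · rw [(θ1 t ⟨by linarith [(hρ' h).1], by linarith [(hρ' h).2]⟩).self_of_nhds, one_mul]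
    · rw [image_eq_zero_of_notMem_tsupport h, mul_zero]
  have q1 : dens (fun z => kL κ L (pl z) * θ (be z)) (Xi P k L) X = fun m n x =>
      hX va X (pr (kL (fun y => κ y * k y.1) L) ρ) m n x +
        (-(L⁻¹ : ℝ) : ℂ) * hX vb X (pr (kL (fun y => κ y * deriv k y.1) L) φ) m n x := by
    funext m n x
    simp only [dens, hX, pr, kL, dr_Xi hP.der (hk'.differentiable (by simp)), pl_1, φ]
    rw [← θρ (be x)]
    simp only [← Complex.ofReal_mul, ← Complex.ofReal_neg, ← Complex.ofReal_add]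
    congr 1
    linear_combination (κ (al x / L, (Real.sqrt L)⁻¹ • (pl x).2) * k (al x / L) * (eta m * va m) *
      (eta n * X x n)) * θ (be x) * θρ (be x)
  have q2 : hX va X (pr (kL κ L) ρ) = fun m n x => hX va X (pr (kL (fun y => κ y * k y.1) L) ρ)
      m n x + 1 * hX va X (pr (kL (fun y => κ y * s y.1) L) ρ) m n x := by
    funext m n x
    simp only [hX, pr, kL, k]
    push_cast
    ring
  have w := ward (hc (τ L)) (g (τ L)) K hX' hK3 h3' ch (Z' c.Q.vac)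
  rw [q1, Ph_lin _ _ _ (tt va g1 hρ hL0) (tt vb g2 hφ hL0),
    Tv_lin _ (tt va g1 hρ hL0) (tt vb g2 hφ hL0),
    Ph_sep (c.sh (τ L)) h1' _ (tt vb g2 hφ hL0) (re _ _ _) (sp u2 sφ _)] at w
  rw [q2, Ph_lin _ _ _ (tt va g1 hρ hL0) (tt va g3 hρ hL0), Ph_sep (c.sh (τ L)) h1' _
    (tt va g3 hρ hL0) (re _ _ _) (sp u3 (hρ'.trans fun t ht => ht.2.le) _)]
  simp only [Complex.ofReal_one, one_smul, inner_add_left, inner_smul_left, Complex.conj_ofReal,
    neg_smul, ← sub_eq_add_neg] at w ⊢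
  linear_combination -w

/-- the plane charge -/
theorem core' (hc : All CH c) (g : All GRP c) {W X} (K : Gen.Fl c W X) (hX' : IsSim 0 X)
    (hs : ContDiff ℝ ∞ X) (hd : Dec c τ X) {u0 : ℝ} {Z Z' Y Y' : D → D} {κ : P3 → ℝ} {ρ : ℝ → ℝ}
    (h1 : Al c.Q {z | u0 < be z} Z Z') (h3 : Al c.Q {z | be z < -u0} Y Y') (hκ : Cut κ)
    (hρ : Tst ρ) (hρ' : tsupport ρ ⊆ Ioo (-u0) u0) :
    Tendsto (fun L => Ph (c.sh (τ L)) (Z' c.Q.vac) (Y c.Q.vac) (hX va X (pr (kL κ L) ρ))) atTop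
      (𝓝 ((∫ t, ρ t : ℝ) * inner ℂ ((Z' c.Q.vac : D) : Completion D)
        (gen W ((Y c.Q.vac : D) : Completion D)))) := by
  have tt : ∀ {ρ : ℝ → ℝ} {L}, Tst ρ → 0 < L → TT (hX va X (pr (kL κ L) ρ)) :=
    fun b hL m n => (Ap.in_hX va hs (Ap.in_univ (Ap.dc_pr (Ap.tst_kL hκ.1 hL) b)) m n).1
  rcases le_or_gt u0 0 with hu | hu
  · have e : ρ = fun _ => 0 := funext fun t => image_eq_zero_of_notMem_tsupport fun h => by
      linarith [(hρ' h).1, (hρ' h).2]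
    subst e
    simp only [integral_zero, Complex.ofReal_zero, zero_mul]
    refine tendsto_const_nhds.congr' ?_
    filter_upwards [eventually_gt_atTop 0] with L hL
    have := Ph_lin (c.sh (τ L)) (Z' c.Q.vac) (Y c.Q.vac) (tt hρ hL) (tt hρ hL) 1
    rw [show (fun m n x => hX va X (pr (kL κ L) fun _ => 0) m n x + 1 * hX va X
      (pr (kL κ L) fun _ => 0) m n x) = hX va X (pr (kL κ L) fun _ => 0) from
        funext fun m => funext fun n => funext fun x => by simp [hX, pr]] at this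
    linear_combination this
  obtain ⟨ρ0, a1, a2, -, a3⟩ := Ap.ex_rho volume (Ioo_mem_nhds (neg_lt_zero.2 hu) hu)
  set m := ∫ t, ρ t
  have b1 : Tst fun t => ρ t + (1 - m) * ρ0 t := Ap.cs_add hρ (Ap.cs_cmul _ a1)
  have l1 := core hc g K hX' hs hd hu h1 h3 hκ b1 ((tsupport_add _ _).trans (union_subset hρ'
    (tsupport_mul_subset_right.trans a2))) (by
      rw [integral_add (Ap.cs_int hρ) (Ap.cs_int (Ap.cs_cmul _ a1)), integral_const_mul, a3]
      ring)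
  have l := l1.add ((core hc g K hX' hs hd hu h1 h3 hκ a1 a2 a3).const_mul ((m : ℂ) - 1))
  rw [← one_add_mul, add_sub_cancel] at l
  refine l.congr' ?_
  filter_upwards [eventually_gt_atTop 0] with L hL
  rw [← Ph_lin _ _ _ (tt b1 hL) (tt a1 hL)]
  congr 1
  funext m n x
  simp only [hX, pr]
  push_cast
  ring

theorem pwg (hc : All CH c) (g : All GRP c) : PWG c :=
    fun u0 X X' Y Y' κ ρ τ C h1 h3 hκ hρ hρ' hτ => by
  have hτ : Lg τ := ⟨C, hτ⟩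
  refine ⟨core' hc g (Gen.fl_ut c va) (sim_const _) contDiff_const (dec_a g hτ) h1 h3 hκ hρ hρ',
    fun i => ?_⟩
  have l := (core' hc g (Gen.fl_mi g.zero i) (sim_M i) (by fun_prop) (dec_M g hτ i) h1 h3 hκ hρ
    hρ').sub (core' hc g (Gen.fl_ut c (ex i)) (sim_const _) contDiff_const (dec_e g hτ i) h1 h3 hκ
      (tst_t hρ) (tsupport_mul_subset_right.trans hρ'))
  refine l.congr' ?_
  filter_upwards [eventually_gt_atTop 0] with L hL
  have t := Ap.tst_kL hκ.1 hL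
  rw [hX_M, Ph_lin _ _ _ (TT_hk _ _ t (tst_t hρ)) (TT_hk _ _ (tst_x t i) hρ), one_mul]
  exact add_sub_cancel_left _ _

end Pw

theorem pwg_row (c : Ctx D) (t : All T1 c) : PWG c := Pw.pwg (fun x => (t x).ch) fun x => (t x).grp

theorem PWG.pw {c : Ctx D} (h : PWG c) : PW c := fun u0 f1 f3 κ ρ h1 h3 hκ hρ hρ' => by
  have := h u0 _ _ _ _ κ ρ (fun _ => 0) 0 (c.al_Thf h1) (c.al_Thf h3) hκ hρ hρ' (by simp)
  simp only [c.sh_zero] at this
  exact this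

theorem pw_row (c : Ctx D) (t : All T1 c) : PW c := (pwg_row c t).pw

end

end Vale.Agent.P352L
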