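import Vale.Agent.P352L.Iso
import Vale.Agent.P352L.Ns2
import Vale.Agent.P352L.W
import Vale.Agent.P352L.R.GRP.C

/-!
# P352L: families of stress tensors and of potentials, applied to the vacuum (helper89)
-/

set_option linter.all false

open MeasureTheory Set Filter Topology
open scoped SchwartzMap ComplexConjugate NNReal ENNReal

namespace Vale.Agent.P352L.Two

open Vale.Agent.P352.GF Vale.Agent.P352.BW Vale.Agent.P352.H496 Vale.Agent.P352.H755
open Vale.Agent.P352X Vale.Agent.P352X.Two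
open UniformSpace (Completion)
open Finset (range)
open Complex (I)

noncomputable section

variable {D : Type*} [NormedAddCommGroup D] [InnerProductSpace ℂ D] {Q : Theory D}
  {TT : ℝ → Ix → Ix → Fld D} {l : ℝ → Fn → Completion D} {n0 : ℕ} {c : Bs D}

lemma coe_sum {ι : Type*} (s : Finset ι) (F : ι → D) :
    ((∑ i ∈ s, F i : D) : Completion D) = ∑ i ∈ s, (F i : Completion D) :=
  map_sum (Completion.toComplL (𝕜 := ℂ)) F s

/-- the members of a family of stress tensors, applied to the vacuum -/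
def LT (hF : Fam Q TT n0) (τ : ℝ) (I : Fin 2 → Ix) : Sch →L[ℂ] Completion D :=
  Completion.toComplL ∘L Grp.fC (Grp.T_fld (hF.st τ) (I 0) (I 1)) Q.vac

lemma LT_apply (hF : Fam Q TT n0) (τ : ℝ) (I : Fin 2 → Ix) (f : Sch) :
    LT hF τ I f = ((TT τ (I 0) (I 1) (ev f) Q.vac : D) : Completion D) := rfl

lemma LT_hk (hF : Fam Q TT n0) (τ : ℝ) (h k : V) (f : Sch) :
    ∑ I, (P352X.Two.sy ![h, k] I : ℂ) • LT hF τ I f =
      ((∑ m, ∑ n, TT τ m n (hk h k (ev f) m n) Q.vac : D) : Completion D) := by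
  rw [Grp.T_hk (hF.st τ) h k ⟨f, rfl⟩, sum2]
  simp [coe_sum, Completion.coe_smul, LT_apply, P352X.Two.sy]

theorem st_fam (hF : Fam c.Q TT n0) : St c n0 (LT hF) := by
  refine ⟨⟨fun μ f => Grp.pol_coe (hF.pol _ _ _ _ ⟨f, rfl⟩), fun τ μ s L a f g hs hL e => ?_⟩,
    fun τ I f => (Completion.inner_coe _ _).trans (Grp.perp hF τ _ _ ⟨f, rfl⟩),
    fun τ m n f => congrArg ((↑) : D → Completion D) ((hF.st τ).symm m n _ _ ⟨f, rfl⟩), fun τ n f => ?_⟩
  · have := hF.cov τ (μ 0) (μ 1) s L a (ev f) c.Q.vac hs hL ⟨f, rfl⟩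
    rw [c.Q.U_vac s L a hs hL, show (fun x => ev f (sim s L a x)) = ev g from
      funext fun x => (e x).symm] at this
    rw [LT_apply, this, sum2]
    simp [coe_sum, Completion.coe_smul, LT_apply, Grp.coe hs hL]
  · have := congrArg ((↑) : D → Completion D) ((hF.st τ).conserved n (ev f) c.Q.vac ⟨f, rfl⟩)
    simpa [coe_sum, LT_apply, P352X.Grp.pd_ev, Completion.coe_zero] using this

/-- **TWO with logarithms** -/
theorem two_fam (hF : Fam c.Q TT n0) {d : ℝ} (hd : 0 < d) : ∃ C : ℝ, 0 ≤ C ∧ ∀ τ h k f, IsTest f →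
    c.nu ((∑ m, ∑ n, TT τ m n (hk h k f m n) c.Q.vac : D) : Completion D) ≤
      (volume.restrict Fc).withDensity fun p => ENNReal.ofReal
        (C * ((Real.exp (2 * τ) * mu p) ^ d + (Real.exp (2 * τ) * mu p) ^ (-d)) *
          nn p h * nn p k * ‖ft f p‖ ^ 2) := by
  obtain ⟨C, C0, e⟩ := (st_fam hF).two hd
  refine ⟨C, C0, fun τ h k f ⟨g, hg⟩ => ?_⟩
  rw [← hg, ← LT_hk hF]
  exact e τ h k g

/-- the same with the explicit power of the logarithm -/
theorem two_fam0 (hF : Fam c.Q TT n0) : ∃ C : ℝ≥0, ∀ τ h k f, IsTest f →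
    c.nu ((∑ m, ∑ n, TT τ m n (hk h k f m n) c.Q.vac : D) : Completion D) ≤
      C • (volume.restrict Fc).withDensity fun p => ENNReal.ofReal
        ((1 + |τ + lm p|) ^ (2 * n0) * (nn p h * nn p k * ‖ft f p‖ ^ 2)) := by
  obtain ⟨C, e⟩ := (st_fam hF).two0
  refine ⟨C, fun τ h k f ⟨g, hg⟩ => ?_⟩
  rw [← hg, ← LT_hk hF]
  exact e τ h k g

theorem fc_fam (hF : Fam c.Q TT n0) (τ : ℝ) (m n : Ix) {f : Fn} (hf : IsTest f) :
    ∀ᵐ p ∂c.nu ((TT τ m n f c.Q.vac : D) : Completion D), p ∈ Fc := by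
  obtain ⟨g, rfl⟩ := hf
  exact (st_fam hF).fc τ ![m, n] g

/-! ## closed sources -/

lemma ft_RR {F : Ix → Ix → Fn} (hF : ∀ m n, IsTest (F m n)) (p : V) : ft (RR F) p =
    -∑ r, ∑ s, ((p r * p s - if r = s then eta r * mu p else 0 : ℝ) : ℂ) * ft (F r s) p := by
  have t1 := fun m n => Ap.sw_cmul ((eta m * eta n : ℝ) : ℂ)
    (Grp.test_pd m (Grp.test_pd n (hF m n)))
  have t2 := fun m n => Ap.sw_cmul (gm (m, n) : ℂ) (Ap.test_box (hF m n))
  unfold RR
  rw [ft_sum _ fun m _ => Ap.sw_sum fun n _ => Ap.sw_sub (t1 m n) (t2 m n),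
    ← Finset.sum_neg_distrib]
  refine Finset.sum_congr rfl fun m _ => ?_
  rw [ft_sum _ fun n _ => Ap.sw_sub (t1 m n) (t2 m n), ← Finset.sum_neg_distrib]
  refine Finset.sum_congr rfl fun n _ => ?_
  have a : (eta m : ℂ) * eta m = 1 := by exact_mod_cast eta_sq m
  have b : (eta n : ℂ) * eta n = 1 := by exact_mod_cast eta_sq n
  have g : (gm (m, n) : ℂ) * mu p = ((if m = n then eta m * mu p else 0 : ℝ) : ℂ) := by
    by_cases h : m = n <;> simp [gm, bas, h, eq_comm]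
  rw [ft_sub (t1 m n) (t2 m n), ft_mul, ft_mul, ft_pd (Grp.test_pd n (hF m n)), ft_pd (hF m n),
    P352X.ft_box (hF m n), Complex.ofReal_sub, ← g]
  push_cast
  linear_combination (p m * p n * ft (F m n) p * eta m * eta m * eta n * eta n) * Complex.I_sq -
    (p m * p n * ft (F m n) p * eta n * eta n) * a - (p m * p n * ft (F m n) p) * b

lemma clo_of_RR {F : Ix → Ix → Fn} (hF : ∀ m n, IsTest (F m n)) (h : RR F = 0) : Clo F := fun p => by
  have := ft_RR hF p
  rw [h] at this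
  exact neg_eq_zero.1 (this.symm.trans (by simp [ft]))

/-- **NS2** -/
theorem ns2_fam (hF : Fam c.Q TT n0) {N J : ℕ} {d : ℤ}
    {O : ℝ → (Fin N → Ix) → Sch →L[ℂ] Completion D} (hO : CovL c.Q N d J O) (he : Even (d - N))
    (hd : d ≤ 3) {F : Ix → Ix → Fn} (h : ∀ m n, IsTest (F m n)) (h0 : RR F = 0) (τ τ' : ℝ)
    (μ : Fin N → Ix) (f : Sch) :
    inner ℂ ((∑ m, ∑ n, TT τ m n (F m n) c.Q.vac : D) : Completion D) (O τ' μ f) = 0 := by
  have h1 := clo_of_RR h h0
  choose G hG using h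
  obtain rfl : F = fun m n => ev (G m n) := funext₂ fun m n => (hG m n).symm
  simp only [coe_sum]
  exact (st_fam hF).ns2 hO he hd h1 τ τ' μ f

/-! ## potentials -/

/-- the members of a family of potentials -/
def LP (hl : PotF Q TT l n0) (τ : ℝ) : Sch →L[ℂ] Completion D :=
  Grp.toC (l τ) (hl.st τ).lin (hl.st τ).cont

lemma LP_apply (hl : PotF Q TT l n0) (τ : ℝ) (f : Sch) : LP hl τ f = l τ (ev f) := rfl

theorem sl_pot (hl : PotF c.Q TT l n0) : Sl c n0 (LP hl) :=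
  ⟨fun f => hl.pol _ ⟨f, rfl⟩, fun τ s L a f g hs hL e => by
    rw [LP_apply, show ev g = fun x => ev f (sim s L a x) from funext e,
      Grp.pot c.bR hl τ a hs hL ⟨f, rfl⟩, Complex.coe_smul, LP_apply],
    fun τ f => Grp.perpl hl τ ⟨f, rfl⟩⟩

/-- **ELL with logarithms** -/
theorem ell_pot (hl : PotF c.Q TT l n0)
    (a3 : SN.BC pr3 fun (y : P3) z => Ut c.Q (y.1 • va) (Ga c.Q y.2 z)) :
    ∃ ell g, EllL c.Q c.bt
      (fun t => a3.Phi fun k => Complex.exp (I * (t * (d2 k.2 k.2 / k.1) : ℝ))) ell g ∧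
      ∀ τ f, IsTest f → l τ f = ∑ j ∈ range (n0 + 1),
        ell j fun p => (((τ + lm p) ^ j : ℝ) : ℂ) * ft f p := by
  obtain ⟨ell, g, h1, h2⟩ := (sl_pot hl).ell a3
  exact ⟨ell, g, h1, fun τ f ⟨f', e⟩ => e ▸ h2 τ f'⟩

theorem fc_pot (hl : PotF c.Q TT l n0) (τ : ℝ) {f : Fn} (hf : IsTest f) :
    ∀ᵐ p ∂c.nu (l τ f), p ∈ Fc := by
  obtain ⟨g, rfl⟩ := hf
  exact (sl_pot hl).fc τ g

/-! ## the component `aa` of the improved tensor -/

lemma dv_sim {f : Fn} (hf : IsTest f) {s : ℝ} {L : Ix → V} (hs : 0 < s) (hL : IsLor L) (a h : V) :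
    (dv h fun x => f (sim s L a x)) = fun x => dv (sim s L 0 h) f (sim s L a x) := funext fun x => by
  have := Ap.dv_aff (x := x) (f := f)
    (simE s L hs hL).toContinuousLinearEquiv.toContinuousLinearMap a (Ap.sw_diff hf _) h
  simpa only [ContinuousLinearEquiv.coe_coe, LinearEquiv.coe_toContinuousLinearEquiv',
    simE_apply, ← sim_zero] using this

/-- `T_aa(g) + l(∂_a² g)` -/
def TA0 (hF : Fam Q TT n0) (hl : PotF Q TT l n0) (τ : ℝ) : Sch →L[ℂ] Completion D :=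
  ∑ I, (P352X.Two.sy ![va, va] I : ℂ) • LT hF τ I + LP hl τ ∘L (dD va * dD va)

lemma TA0_apply (hF : Fam Q TT n0) (hl : PotF Q TT l n0) (τ : ℝ) (f : Sch) : TA0 hF hl τ f =
    ((∑ m, ∑ n, TT τ m n (hk va va (ev f) m n) Q.vac : D) : Completion D) +
      l τ (dv va (dv va (ev f))) := by
  rw [← LT_hk hF, ← ev_dD, ← ev_dD]
  simp [TA0, ContinuousLinearMap.sum_apply, LP_apply]

lemma TA0_cov (hF : Fam c.Q TT n0) (hl : PotF c.Q TT l n0) (τ : ℝ) {s t : ℝ} {L : Ix → V} (a : V)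
    (hs : 0 < s) (hL : IsLor L) (ht : sim 1 L 0 va = t • va) (f g : Sch)
    (e : ∀ x, g x = f (sim s L a x)) :
    Ug c.Q s L a (TA0 hF hl τ g) = ((t ^ 2 : ℝ) : ℂ) • TA0 hF hl (τ + Real.log s) f := by
  have tf : IsTest (ev f) := ⟨f, rfl⟩
  have e1 : ∀ {f : Fn}, IsTest f → (dv va fun x => f (sim s L a x)) =
      fun x => ((s * t : ℝ) : ℂ) * dv va f (sim s L a x) := fun hf => by
    simp only [dv_sim hf hs hL, sim_smul (s := s), ht, smul_smul, Ap.dv_smul_l]
  have e2 : ∀ (z : ℂ) {f : Fn}, IsTest f → l τ (fun x => z * f x) = z • l τ f :=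
    fun z f ⟨g, hg⟩ => hg ▸ map_smul (LP hl τ) z g
  have t2 := Grp.test_dv va (Grp.test_dv va tf)
  have n : (s : ℂ) ≠ 0 := Complex.ofReal_ne_zero.2 hs.ne'
  rw [TA0_apply, TA0_apply, show ev g = fun x => ev f (sim s L a x) from funext e, map_add,
    Grp.coe hs hL, Grp.ten hF τ a va va _ hs hL tf, c.Q.U_vac s L a hs hL, ht, e1 tf,
    funext (Ap.dv_cmul _ va _), e1 (Grp.test_dv va tf), e2 _ (Ap.sw_cmul _ (Grp.test_sim hs hL a t2)),
    e2 _ (Grp.test_sim hs hL a t2), map_smul, map_smul, Grp.pot c.bR hl τ a hs hL t2,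
    ← Complex.coe_smul, smul_smul, smul_smul, smul_add, Grp.T_hk (hF.st _) _ _ tf,
    Grp.T_hk (hF.st _) _ _ tf, ← Completion.coe_smul]
  congr 2
  · simp only [Finset.smul_sum, smul_smul, Pi.smul_apply, smul_eq_mul, ← Complex.ofReal_mul]
    refine Finset.sum_congr rfl fun m _ => Finset.sum_congr rfl fun n _ => ?_
    congr 2
    ring
  · push_cast
    field_simp

/-- **ELT**: if the improved component does not depend on the member, it is an isometry -/
theorem elt_fam (hF : Fam c.Q TT n0) (hl : PotF c.Q TT l n0) (τ : ℝ)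
    (h : ∀ x, TA0 hF hl (τ + x) = TA0 hF hl τ)
    (a3 : SN.BC pr3 fun (y : P3) z => Ut c.Q (y.1 • va) (Ga c.Q y.2 z)) :
    ∃ ell c0, Z.Ell0 c.Q c.bt
      (fun t => a3.Phi fun k => Complex.exp (I * (t * (d2 k.2 k.2 / k.1) : ℝ))) ell c0 ∧
      ∀ g : Sch, ell (ft (dv va (dv va (ev g)))) = TA0 hF hl τ g := by
  refine elt _ (fun y f => ?_) (fun u f g e => ?_) (fun r s f g hr hs e => ?_) (fun f => ?_) a3
  · rw [Ut, TA0_cov hF hl τ y one_pos isLor_one (t := 1) (by simp [P352.HM.sim_tr]) (ST.tsl y f) f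
      fun x => (congrFun (P352X.Grp.tsl_sim y f) x).symm, h]
    simp
  · obtain ⟨l1, l2⟩ := P352X.Grp.lga u
    rw [Ga, TA0_cov hF hl τ 0 one_pos l1 (t := 1) (by
      rw [l2, one_smul]; exact null_ext (by simp) (by simp) (by simp)) f g (by simpa only [l2] using e), h]
    simp
  · obtain ⟨l1, l2⟩ := P352X.Grp.lsc hr hs
    have q : 0 < Real.sqrt (r * s) := by positivity
    rw [Usc, TA0_cov hF hl τ 0 q l1 (t := r / Real.sqrt (r * s)) (by
      refine smul_right_injective V q.ne' ?_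
      simp only [← sim_smul, l2, smul_smul, mul_div_cancel₀ _ q.ne']
      exact null_ext (by simp) (by simp) (by simp)) f g (by simpa only [l2] using e), h,
      div_pow, Real.sq_sqrt (by positivity)]
    congr 2
    field_simp
  · simp only [TA0, ContinuousLinearMap.add_apply, ContinuousLinearMap.sum_apply,
      ContinuousLinearMap.smul_apply, inner_add_right, inner_sum, inner_smul_right,
      (st_fam hF).perp, ContinuousLinearMap.comp_apply, (sl_pot hl).perp]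
    simp

lemma RR_aa {g : Fn} (hg : IsTest g) : RR (hk va va g) = dv va (dv va g) := by
  funext x
  have e : ∀ (m : Ix) (z : ℂ) (f : Fn), (pd m fun x => z * f x) = fun x => z * pd m f x :=
    fun m z f => funext fun x => by simp only [pd, deriv_const_mul_field']
  have b : ∀ z : ℂ, P352.H246.box (fun x => z * g x) x = z * P352.H246.box g x := fun z => by
    simp only [P352.H246.box, e, Finset.mul_sum, mul_left_comm z]
  have d := Ap.dv_sum (x := x) (s := Finset.univ) (f := fun n x => (va n : ℂ) * pd n g x)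
    (fun n _ => Ap.sw_diff (Ap.sw_cmul _ (Grp.test_pd n hg)) x) va
  refine Eq.trans ?_ d.symm
  unfold RR hk
  simp only [e, b, dv]
  simp [Fin.sum_univ_four, gm, bas, va, pt, eta, o]
  ring

end

end Vale.Agent.P352L.Two
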