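import Vale.Agent.P352L.Spec2
import Vale.Agent.P352L.R.TW0

/-!
# P352L: the rows ZC, TWO, POLY, NS2, ELT (helper89)
-/

set_option linter.all false

open MeasureTheory Set Filter Topology

namespace Vale.Agent.P352L

open Vale.Agent.P352X Vale.Agent.P352.GF
open UniformSpace (Completion)

noncomputable section

variable {D : Type*} [NormedAddCommGroup D] [InnerProductSpace ℂ D]

/-- the data of the vacuum representation -/
abbrev Base.bs (c : Base D) : Two.Bs D := ⟨c.Q, c.A, c.bt, c.hN.toRep, c.hU⟩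

theorem Base.Cov2.bs {c : Base D} {φ : Fn → Completion D} {x y : ℝ} (h : c.Cov2 φ x y) :
    c.bs.Cov2 φ x y := ⟨h.lin, h.bd, h.tra, h.rot, h.sca, h.perp⟩

theorem zc_row (c : Base D) : ZC c :=
  ⟨fun _ _ _ h hy _ hf => Two.zc_zer h.bs hy hf, fun _ _ h h' => Two.zc_cls h.bs h'.bs⟩

theorem two_row (c : Ctx D) : TWO c := fun d hd => by
  obtain ⟨C, C0, e⟩ := Two.two_fam (c := c.bs) c.hF hd
  exact ⟨C, C0, fun x => e _⟩

theorem poly_row (c : Ctx D) : POLY c := fun N d J O h he τ => by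
  obtain ⟨n, π, h1, h2⟩ := (Two.st_fam (c := c.bs) c.hF).polyL ⟨h.pol, h.cov⟩ he c.tau τ
  exact ⟨n, π, fun j => ⟨(h1 j).1, (h1 j).2.1, (h1 j).2.2.1, (h1 j).2.2.2.1, (h1 j).2.2.2.2⟩,
    fun r s μ f' f => (h2 r s μ f' f).trans (by simp only [Complex.ofReal_pow])⟩

theorem ns2_row (c : Ctx D) : NS2 c := fun N d J O h hd he F τ μ f hF h0 =>
  Two.ns2_fam (c := c.bs) c.hF ⟨h.pol, h.cov⟩ he hd hF h0 c.tau τ μ f

theorem elt_row (c : Ctx D) (p : PART c) : ELT c := by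
  have h : ∀ x, Two.TA0 c.hF c.hLL (c.tau + x) = Two.TA0 c.hF c.hLL c.tau := fun x => by
    ext f
    have := p x _ (Ap.test_hk va va ⟨f, rfl⟩)
    rw [Two.RR_aa ⟨f, rfl⟩, sub_eq_sub_iff_add_eq_add, add_comm (c.l _)] at this
    rw [Two.TA0_apply, Two.TA0_apply]
    exact this
  obtain ⟨ell, c0, h1, h2⟩ := Two.elt_fam (c := c.bs) c.hF c.hLL c.tau h c.a3
  refine ⟨ell, c0, h1, fun x g ⟨f, hf⟩ => ?_⟩
  rw [← hf, h2, ← h x]
  exact Two.TA0_apply ..

end

end Vale.Agent.P352L
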