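import Vale.Agent.P352L.BL6
import Vale.Agent.P352L.BLT

/-!
# P352L, row BB for the running member (helper68)
-/

namespace Vale.Agent.P352L

variable {D : Type*} [NormedAddCommGroup D] [InnerProductSpace ℂ D]

/-- **row BBrun** -/
theorem bbrun_row (c : Ctx D) (t : T3 c) : BBrun c :=
  fun _ _ _ _ _ _ _ _ _ _ _ y => BL.bbrun (BL.tb_of t) y

theorem bbrun_all (c : Ctx D) (t : T3 c) : All BBrun c := fun x => bbrun_row _ (t.sh x)

end Vale.Agent.P352L
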