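import Vale.Agent.P352L.R.BPW
import Vale.Agent.P352L.R.BBrun

/-!
# P352L, row BB (helper89)
-/

set_option linter.all false

namespace Vale.Agent.P352L

variable {D : Type*} [NormedAddCommGroup D] [InnerProductSpace ℂ D]

theorem bb_row (c : Ctx D) (t : T3 c) : BB c := bb_of_run t (bbrun_all c t)

theorem bpw_all (c : Ctx D) (t : T3 c) : All BPW c := fun x =>
  bpw_row _ (t.sh x) (bb_row _ (t.sh x))

end Vale.Agent.P352L
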