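import Vale.Agent.P352L.CK.AA
import Vale.Agent.P352L.CK.Sh

/-!
# P352L, row CONK (helper57, helper54)
-/

set_option linter.all false

namespace Vale.Agent.P352L

theorem conk_row {D : Type*} [NormedAddCommGroup D] [InnerProductSpace ℂ D] (c : Ctx D)
    (t : T3 c) : All BPW c → CONK c := fun bp =>
  have t' : CK.Tools c := ⟨t⟩
  CK.outer_of t' t'.tail (t'.aa bp) t'.ub

end Vale.Agent.P352L
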