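import Vale.Agent.P352L.CM.C

/-!
# P352L, row CONM: the first moments (helper69)
-/

set_option linter.all false

open MeasureTheory Filter Topology Set
open scoped SchwartzMap ComplexConjugate ContDiff

namespace Vale.Agent.P352L

open Vale.Agent.P352X Vale.Agent.P352X.Conm
open Vale.Agent.P352 Vale.Agent.P352.GF Vale.Agent.P352.BW Vale.Agent.P352.H246
open Vale.Agent.P352.H496 Vale.Agent.P352.H755 Vale.Agent.P352.H15
open UniformSpace (Completion)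
open Complex (I)

noncomputable section

namespace Cm

lemma l1_thin {g : P3 → ℝ} {φ ψ : ℝ → ℝ} (hg : Tst g) (hφ : Tst φ) {a b s : ℝ}
    (h0 : ∀ t, |ψ t| ≤ a) (hb : ∫ t, |φ t| ≤ b) (hs : ∫ y, |g y| ≤ s) :
    ∫ z, |ψ (be z) * rp g φ z| ≤ a * (s * b) := by
  have a0 := (abs_nonneg _).trans (h0 0)
  have n1 : 0 ≤ ∫ y, |g y| := integral_nonneg fun _ => abs_nonneg _
  have n2 : 0 ≤ ∫ t, |φ t| := integral_nonneg fun _ => abs_nonneg _
  refine (l1_le hg hφ (M := a) fun z => ?_).trans (by gcongr; exact n1.trans hs)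
  rw [abs_mul]
  gcongr
  exact h0 _

lemma int_abs {φ : ℝ → ℝ} (h : Tst φ) : Integrable fun t => |φ t| :=
  (h.1.continuous.integrable_of_hasCompactSupport h.2).abs

lemma l1_prof {θ1 θ : ℝ → ℝ} (h1 : Tst θ1) (hθ : Tst θ) : ∃ N, 0 ≤ N ∧ ∀ δ, 0 < δ →
    ∫ t, |θ1 t * dil δ θ t| ≤ δ * N ∧ ∫ t, |deriv (fun t => θ1 t * dil δ θ t) t| ≤ N := by
  obtain ⟨M1, m1, hM1⟩ := tst_bd h1
  obtain ⟨M2, m2, hM2⟩ := tst_bd hθ
  have n : ∀ φ : ℝ → ℝ, 0 ≤ ∫ t, |φ t| := fun _ => integral_nonneg fun _ => abs_nonneg _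
  have := n θ
  have := n (deriv θ)
  have := n (deriv θ1)
  refine ⟨M1 * (∫ t, |θ t|) + (M2 * (∫ t, |deriv θ1 t|) + M1 * ∫ t, |deriv θ t|), by positivity,
    fun δ hδ => ⟨?_, ?_⟩⟩
  · calc _ ≤ ∫ t, M1 * |dil δ θ t| := integral_mono_of_nonneg (ae_of_all _ fun _ => abs_nonneg _)
          ((int_abs (Ap.tst_dil hθ hδ.ne')).const_mul _) (ae_of_all _ fun t => by
            simp only [abs_mul]; gcongr; exact hM1 _)
      _ = δ * (M1 * ∫ t, |θ t|) := by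
          rw [integral_const_mul, show ∫ t, |dil δ θ t| = _ from
            Ap.integral_dil hδ fun t => |θ t|, mul_left_comm]
      _ ≤ _ := by gcongr; exact le_add_of_nonneg_right (by positivity)
  · have i1 := (int_abs (tst_deriv h1)).const_mul M2
    have i2 := (int_abs (Ap.tst_dlt (tst_deriv hθ) hδ.ne')).const_mul M1
    calc _ ≤ ∫ t, M2 * |deriv θ1 t| + M1 * |dlt δ (deriv θ) t| := integral_mono_of_nonneg
          (ae_of_all _ fun _ => abs_nonneg _) (i1.add i2) (ae_of_all _ fun t => by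
            simp only [deriv_fun_mul (tst_diff h1 t) (tst_diff (Ap.tst_dil hθ hδ.ne') t),
              Ap.deriv_dil]
            refine (abs_add_le _ _).trans ?_
            rw [abs_mul, abs_mul, mul_comm]
            exact add_le_add (mul_le_mul_of_nonneg_right (hM2 _) (abs_nonneg _))
              (mul_le_mul_of_nonneg_right (hM1 _) (abs_nonneg _)))
      _ = M2 * (∫ t, |deriv θ1 t|) + M1 * ∫ t, |deriv θ t| := by
          rw [integral_add i1 i2, integral_const_mul, integral_const_mul,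
            ← Ap.integral_dlt hδ fun t => |deriv θ t|]
          simp only [dlt, abs_div, abs_of_pos hδ]
      _ ≤ _ := le_add_of_nonneg_left (by positivity)

variable {D : Type*} [NormedAddCommGroup D] [InnerProductSpace ℂ D] {c : Ctx D}
  {w : ℝ → ℝ → I2 → I2 → S2 →L[ℂ] Completion D}

/-- the thin part -/
lemma thin (hg : All GRP c) (hs : STRUCT c) (hp : POLY c) (hw : TP2 c.Q c.TT false w)
    {κ f : P3 → ℝ} {ρ θ1 θ : ℝ → ℝ} {f3 : Fn} (i : Fin 2) (hκ : Cut κ) (hf : Tst f) (hρ : Tst ρ)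
    (sρ : tsupport ρ ⊆ Ici (-1)) (h1 : Tst θ1) (hθ : Tst θ) (h3 : IsTest f3) :
    ∃ C : ℝ, ∀ δ ∈ Ioc (0 : ℝ) 1, In {z | be z < -δ} f3 → ∀ η > 0, ∀ᶠ L in atTop,
      ‖inner ℂ (XX (lw (w c.tau c.tau)) i (kL κ L) (dlt δ ρ) (rp f fun t => θ1 t * dil δ θ t))
        (c.Wv f3)‖ ≤ C * δ + η := by
  obtain ⟨C, hC0, hC⟩ := contact hg.zero hs hp hw i h3
  obtain ⟨R, hR⟩ := hθ.2.isCompact.isBounded.exists_norm_le
  obtain ⟨A, A1, a1, a2, a3, a4, a5⟩ := prim hρ sρ R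
  obtain ⟨B, B1, b1, b2, b3, b4, b5⟩ := prim a1 a4 R
  obtain ⟨MA, m1, hMA⟩ := tst_bd a1
  obtain ⟨MB, m2, hMB⟩ := tst_bd b1
  obtain ⟨N, N0, hN⟩ := l1_prof h1 hθ
  have n : ∀ g : P3 → ℝ, 0 ≤ ∫ y, |g y| := fun _ => integral_nonneg fun _ => abs_nonneg _
  obtain ⟨S, S1, S2, S3, S4⟩ : ∃ S, ∫ y, |da (da f) y| ≤ S ∧ ∫ y, |da f y| ≤ S ∧
      (∀ j, ∫ y, |dj j (dj j f) y| ≤ S) ∧ ∫ y, |dj i f y| ≤ S := by
    have := n (da (da f))
    have := n (da f)
    have := n (dj 0 (dj 0 f))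
    have := n (dj 1 (dj 1 f))
    have := n (dj i f)
    exact ⟨(∫ y, |da (da f) y|) + (∫ y, |da f y|) + (∫ y, |dj 0 (dj 0 f) y|) +
      (∫ y, |dj 1 (dj 1 f) y|) + ∫ y, |dj i f y|, by linarith, by linarith,
      Fin.forall_fin_two.2 ⟨by linarith, by linarith⟩, by linarith⟩
  refine ⟨C * ((MA + MB) * (S * N)), fun δ ⟨hδ, hδ1⟩ hf3 η hη => ?_⟩
  have hδ' := hδ.ne'
  have p0 := tst_mul_r h1 (Ap.smooth_dil hθ.1 δ)
  have u0 := tst_rp hf p0
  obtain ⟨n1, n2⟩ := hN δ hδ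
  set φ := fun t => θ1 t * dil δ θ t with hφ
  have c1 : ∀ {φ : ℝ → ℝ}, tsupport φ ⊆ Ici (-1) → tsupport (dil δ φ) ⊆ Ici (-δ) :=
    fun h t ht => by
      have : -1 ≤ t / δ := h (Ap.tsupport_dil δ _ ht)
      rw [le_div_iff₀ hδ] at this
      show -δ ≤ t
      linarith
  have c2 : ∀ {φ : ℝ → ℝ}, tsupport φ ⊆ Ioi R → tsupport (dil δ φ) ⊆ Ioi (R * δ) :=
    fun h t ht => (lt_div_iff₀ hδ).1 (h (Ap.tsupport_dil δ _ ht))
  have su : tsupport (rp f φ) ⊆ {z | be z ≤ R * δ} := fun z hz => by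
    have := hR _ (Ap.tsupport_dil δ _ (tsupport_mul_subset_right (supp_rp hz).2))
    exact (div_le_iff₀ hδ).1 ((le_abs_self _).trans this)
  have hB : Tst fun t => δ * dil δ B t := tst_mul_l contDiff_const (Ap.tst_dil b1 hδ')
  have eB : deriv (fun t => δ * dil δ B t) = fun t => dil δ A t + dil δ B1 t := by
    funext t
    rw [deriv_const_mul_field, Ap.deriv_dil, b3, mul_div_cancel₀ _ hδ']
    rfl
  have t := thin_lim hg hw hκ i (Ap.tst_dlt hρ hδ') (Ap.tst_dil a1 hδ') (Ap.tst_dlt a2 hδ') hB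
    (Ap.tst_dil b2 hδ') u0 hf3 (funext fun t => by rw [Ap.deriv_dil, a3, add_div]; rfl) eB
    (c1 a4) (tsupport_mul_subset_right.trans (c1 b4))
    (by rw [Ap.dlt_eq]; exact tsupport_mul_subset_right.trans (c2 a5)) (c2 b5) su
  have kA : ∀ t, |dil δ A t| ≤ MA + MB := fun t => (hMA _).trans (le_add_of_nonneg_right m2)
  have kB : ∀ t, |δ * dil δ B t| ≤ δ * (MA + MB) := fun t => by
    rw [abs_mul, abs_of_pos hδ]
    gcongr
    exact (hMB _).trans (le_add_of_nonneg_left m1)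
  have kB' : ∀ t, |δ * dil δ B t| ≤ MA + MB := fun t =>
    (kB t).trans (mul_le_of_le_one_left (by positivity) hδ1)
  filter_upwards [eventually_gt_atTop 0, Ap.kL_one_on hκ hf.2.isCompact.isBounded,
    (tendsto_zero_iff_norm_tendsto_zero.1 t).eventually (eventually_le_nhds hη)] with L hL h4 h5
  have h6 := hC (kL κ L) _ _ _ ((MA + MB) * (S * (δ * N))) (Far.tst_kL hκ.1 hL)
    (Ap.tst_dil a1 hδ') hB u0 (fun z hz => h4 _ (supp_rp hz).1) (fun z hz => by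
      rw [eB]
      exact add_eq_left.2 (image_eq_zero_of_notMem_tsupport (f := dil δ B1) fun h =>
        not_lt.2 (show be z ≤ R * δ from su hz) (mem_Ioi.1 (c2 b5 h))))
    (by rw [fd_a hf p0, fd_a (tst_da hf) p0]; exact l1_thin (tst_da (tst_da hf)) p0 kA n1 S1)
    (by rw [fd_a hf p0, fd_a (tst_da hf) p0]; exact l1_thin (tst_da (tst_da hf)) p0 kB' n1 S1)
    (by
      rw [fd_b hf p0, fd_a hf (tst_deriv p0)]
      exact (l1_thin (tst_da hf) (tst_deriv p0) kB n2 S2).trans_eq (by ring))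
    (fun j => by
      rw [fd_e hf p0, fd_e (tst_dj j hf) p0]
      exact l1_thin (tst_dj j (tst_dj j hf)) p0 kB' n1 (S3 j))
    (by rw [fd_e hf p0]; exact l1_thin (tst_dj i hf) p0 kA n1 S4)
  exact (norm_le_insert _ _).trans (add_le_add (h6.trans_eq (by ring)) h5)

lemma small (hp : POLY c) {g : Fn} (h3 : IsTest g) {f : P3 → ℝ} {θ1 θ : ℝ → ℝ}
    (hf : Tst f) (h1 : Tst θ1) (hθ : Bump θ) (m : ℝ) : ∃ C : ℝ, ∀ δ : ℝ, 0 < δ →
      ‖((δ * m : ℝ) : ℂ) * inner ℂ (c.Wv (cx (rp f (abv θ1 θ δ)))) (I • c.Wv g)‖ ≤ C * δ := by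
  obtain ⟨C, p2, hC⟩ := w_bd hp h3
  obtain ⟨M, pM, hM⟩ := tst_bd hθ.1
  refine ⟨|m| * (C * ((1 + M) * ((∫ y, |f y|) * ∫ t, |θ1 t|))), fun δ hδ => ?_⟩
  have b : ∫ z, |rp f (abv θ1 θ δ) z| ≤ (1 + M) * ((∫ y, |f y|) * ∫ t, |θ1 t|) := by
    refine l1_le hf h1 fun z => ?_
    simp only [rp, abv, abs_mul]
    split_ifs
    · have : |1 - θ (be z / δ)| ≤ 1 + M :=
        (abs_sub _ _).trans (by rw [abs_one]; linarith [hM (be z / δ)])
      rw [abs_mul]
      calc _ = |1 - θ (be z / δ)| * (|f (pl z)| * |θ1 (be z)|) := by ring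
        _ ≤ _ := by gcongr
    · rw [abs_zero, mul_zero]
      positivity
  have b' := (hC _ (tst_rp hf (Ap.tst_abv h1 hθ hδ))).trans (mul_le_mul_of_nonneg_left b p2)
  rw [inner_smul_right, norm_mul, norm_mul, Complex.norm_I, one_mul, Complex.norm_real,
    Real.norm_eq_abs, abs_mul, abs_of_pos hδ, mul_assoc, mul_comm δ]
  exact mul_le_mul_of_nonneg_right (mul_le_mul_of_nonneg_left b' (abs_nonneg m)) hδ.le

/-- the generators of the translations on `W f` -/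
lemma gn_W (hg : GEN c) (y : V) {f : Fn} (hf : IsTest f) :
    Gn (fun t => Ut c.Q (t • y)) (c.Wv f) (I • c.Wv (dv y f)) := by
  have e : ∀ I : I2, dv y (hW f I.1 I.2) = hW (dv y f) I.1 I.2 := fun I => by
    obtain ⟨f, rfl⟩ := hf
    rw [← ev_dD, ← ev_hD, ← ev_hD, ← ev_dD, hD_dD]
  have := Gn.sum Finset.univ fun (I : I2) _ =>
    hg.ut y (bas I.1 (eta I.1)) (bas I.2 (eta I.2)) _ (test_hW hf I.1 I.2)
  simp only [e, ← Finset.smul_sum] at this
  rwa [← CK.Tv_eq (CK.tsT_hW hf), ← CK.Tv_eq (CK.tsT_hW (Ap.test_dv y hf))] at this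

end Cm

open Cm in
theorem conm_row {D : Type*} [NormedAddCommGroup D] [InnerProductSpace ℂ D] (c : Ctx D) :
    T3 c → CONM c := by
  intro h w κ f ρ θ1 θ f3 i hw hκ hf hρ sρ h1 hθ h3 η hη
  have hg : All GRP c := fun x => (h.all x).grp
  obtain ⟨C1, hC1⟩ := Cm.thin hg h.struct h.poly hw i hκ hf hρ
    (fun t ht => le_trans (by norm_num) (sρ ht).1) h1 hθ.1 h3.1
  obtain ⟨C3, hC3⟩ := Cm.small h.poly (Ap.test_dv (ex i) h3.1) hf h1 hθ (∫ t, t * ρ t)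
  obtain ⟨r, hr, hr'⟩ := h3.2.1.isCompact.exists_forall_le' (f := fun z => -be z) (a := 0)
    cont_be.neg.continuousOn fun z hz => neg_pos.2 (h3.2.2 hz)
  have t0 : Tendsto (fun δ : ℝ => (C1 + C3) * δ) (𝓝[>] 0) (𝓝 0) :=
    (Continuous.tendsto' (by fun_prop) 0 0 (by simp)).mono_left nhdsWithin_le_nhds
  filter_upwards [Ioo_mem_nhdsGT (lt_min hr one_pos), t0.eventually
    (eventually_le_nhds (by positivity : 0 < η / 4))] with δ ⟨hδ, hδ'⟩ hδη
  have hδr := (lt_min_iff.1 hδ').1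
  have k2 := Ap.tst_dlt hρ hδ.ne'
  have s2 := Ap.tsupport_dlt_Icc sρ hδ
  have u1 := tst_rp hf (Ap.tst_abv h1 hθ hδ)
  have u2 := tst_rp hf (Ap.tst_blw h1 hθ hδ)
  have i3 : ∀ s, s ≤ δ → In {z | be z < -s} f3 := fun s hs =>
    ⟨h3.1, h3.2.1, fun z hz => show be z < -s by linarith [hr' z hz]⟩
  have ta := Cm.above h.pwg hw i hκ k2 u1 (i3 (3 / 4 * δ) (by linarith))
    (fun t ht => ⟨by linarith [(s2 ht).1], by linarith [(s2 ht).2]⟩) fun z hz =>
      show 3 / 4 * δ < be z by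
        linarith [show δ ≤ be z from (Ap.tsupport_abv h1 hθ hδ (supp_rp hz).2).1]
  have tb := Cm.below hg hw i hκ.1 k2 u2 h3.1 (b := -δ)
    (fun t ht => show -δ < t by linarith [(s2 ht).1])
    fun z hz => (Ap.tsupport_blw h1 hθ hδ (supp_rp hz).2).1
  have e1 : ∫ t, t * dlt δ ρ t = δ * ∫ t, t * ρ t := by
    rw [← Ap.integral_dlt hδ fun t => t * ρ t, ← integral_const_mul]
    congr 1
    funext t
    simpa using Ap.pow_dlt hδ.ne' 1 ρ t
  have e2 : xv i (rp f (abv θ1 θ δ)) = rp (fun y => y.2 i * f y) (abv θ1 θ δ) := by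
    funext z
    simp only [xv, rp, pl_2, mul_assoc]
  rw [Ap.integral_dlt hδ, e1, e2, (gn_W h.gen (ex i) h3.1).gen_eq] at ta
  have b1 := hC3 δ hδ
  have hη4 : 0 < η / 4 := by positivity
  filter_upwards [eventually_gt_atTop 0, hC1 δ ⟨hδ, (lt_min_iff.1 hδ').2.le⟩ (i3 δ le_rfl) _ hη4,
    (tendsto_iff_norm_sub_tendsto_zero.1 ta).eventually (eventually_le_nhds hη4),
    (tendsto_zero_iff_norm_tendsto_zero.1 tb).eventually (eventually_le_nhds hη4)]
    with L hL q1 q2 q3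
  rw [ww0_eq, pair_eq i hκ.1 hf hρ h1 hθ hδ hL, inner_add_left, inner_add_left]
  have key : ∀ x y z a b d m : ℂ, x + y + z - m * (a - d) = x - (m * a - b - m * d) + y + z - b :=
    fun _ _ _ _ _ _ _ => by ring
  rw [Conm.pr_eq, Conm.pr_eq, key]
  refine (norm_sub_le _ _).trans ((add_le_add ((norm_add_le _ _).trans (add_le_add
    ((norm_add_le _ _).trans (add_le_add q2 q3)) q1)) b1).trans ?_)
  linarith

end

end Vale.Agent.P352L
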