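import Vale.Agent.P352X.R.CONT
import Vale.Agent.P352L.R.D1
import Vale.Agent.P352L.Slot

/-!
# P352L, row CONT: the faces (helper55)
-/

set_option linter.all false

open MeasureTheory Filter Topology
open scoped SchwartzMap ComplexConjugate ENNReal ContDiff

namespace Vale.Agent.P352L

open Vale.Agent.P352X
open Vale.Agent.P352 Vale.Agent.P352.GF Vale.Agent.P352.BW Vale.Agent.P352.H246
open Vale.Agent.P352.H496 Vale.Agent.P352.H755 Vale.Agent.P352.H15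
open UniformSpace (Completion)
open Far (dc_pr isTest_dc sch_apply sch_coe tsupport_pr legs tri sw1 sw2 bar_pr)
open Cont (Apx xi xx tst_xi tst_xx tst_dlt supp_dlt tst_abv supp_abv in_pr pf0 dc_pf0 legs_pf0 tq
  sm_xx sm_xi tq_apply triF_dec triF_add late_be ps dc_ps sm_p1 sm_p2 triF_dec' tsupport_two mj ng
  tst_mj cut_mj tst_ng supp_ng ng_ng blw_eq pr_jr pf0_jr gsym jr_zero cutθ supp_ng_lo lim_abv)

noncomputable section

namespace Ct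

variable {D : Type*} [NormedAddCommGroup D] [InnerProductSpace ℂ D] (c : Ctx D)

/-! ### factorization -/

/-- `G (y, x) f z` -/
def tz (G : S2) (f : Sch) : S3 := tn3 (cp (.prodComm ℝ V V) 0 G) f

lemma tz_apply (G : S2) (f : Sch) (x y z : V) : tz G f (x, y, z) = G (y, x) * f z := by
  rw [tz, tn3_apply, cp_apply, add_zero]
  rfl

lemma hD_tz (I K : I2) (G : S2) (f : Sch) :
    (hD j1 I * hD j3 K) (tz G f) = tz (hD i2 I G) (hD i0 K f) := by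
  rw [ContinuousLinearMap.mul_apply, tz, hD_t3, hD_t1,
    (itw_cp (e := i2) (e' := i1) (A := .prodComm ℝ V V) (fun _ => rfl) 0).hD, tz]

lemma late_mono {A B A' B' : Set V} (h : Late A B) (hA : A' ⊆ A) (hB : B' ⊆ B) : Late A' B' :=
  Far.late_iff.2 fun x hx y hy => Far.late_iff.1 h x (hA hx) y (hB hy)

lemma legs_hD (I : I2) (G : S2) : legs (hD i2 I G) ⊆ legs G :=
  Set.union_subset_union (Set.image_mono (tsupport_hD _ _ _)) (Set.image_mono (tsupport_hD _ _ _))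

lemma Wv_eq (f : Sch) : c.Wv (ev f) =
    ∑ K : I2, ((c.T K.1 K.2 (ev (hD i0 K f)) c.Q.vac : D) : Completion D) := by
  simp only [Ctx.Wv, Ctx.Wf, Ctx.Tf, ev_hD, Fintype.sum_prod_type]
  change Completion.toComplL (𝕜 := ℂ) _ = _
  simp only [map_sum]
  rfl

lemma tw0_eq (F : S3) : c.tw0 F = ∑ J : I2, ∑ I, ((la J.1 * la J.2 : ℝ) : ℂ) *
    ∑ K, c.t I J K ((hD j1 I * hD j3 K) F) := by
  simp only [Ctx.tw0, Ctx.tw, ContinuousLinearMap.sum_apply, ContinuousLinearMap.smul_apply,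
    ContinuousLinearMap.comp_apply, smul_eq_mul, ← Finset.mul_sum]

lemma ww0_eq (w : I2 → I2 → S2 →L[ℂ] Completion D) (G : S2) :
    ww0 w G = ∑ J : I2, ∑ I, ((la J.1 * la J.2 : ℝ) : ℂ) • w J I (hD i2 I G) := by
  simp only [ww0, ContinuousLinearMap.sum_apply, ContinuousLinearMap.smul_apply,
    ContinuousLinearMap.comp_apply]

/-- the third leg is not later than the two others -/
theorem fac_lo [Fact c.tp] (f : Sch) (G G' : S2) (e' : ∀ x, G' x = star (G x))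
    (h : Late (legs G) (tsupport f)) : c.tw0 (tz G f) = inner ℂ (ww0 c.wm G') (c.Wv (ev f)) := by
  have key : ∀ I J K, c.t I J K (tz (hD i2 I G) (hD i0 K f)) = inner ℂ (c.wm J I (hD i2 I G'))
      ((c.T K.1 K.2 (ev (hD i0 K f)) c.Q.vac : D) : Completion D) := fun I J K =>
    (c.hTP.swap1 _ I J K _ (SchwartzMap.compCLMOfContinuousLinearEquiv ℂ sw1
      (tz (hD i2 I G) (hD i0 K f))) fun _ _ _ => rfl).trans
      (c.hTP.fac3 _ J I K (hD i2 I G) _ _ _ (fun x y z => tz_apply _ _ y x z) (hD_star e' i2 I)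
        (late_mono h (legs_hD I G) (tsupport_hD _ _ _)))
  simp only [tw0_eq, ww0_eq, hD_tz, key, sum_inner, inner_smul_left, Complex.conj_ofReal]
  simp only [Wv_eq, inner_sum]

/-- the third leg is not earlier than the two others -/
theorem fac_hi [Fact c.tp] (f f' : Sch) (G : S2) (e' : ∀ x, f' x = star (f x))
    (h : Late (tsupport f) (legs G)) : c.tw0 (tz G f) = inner ℂ (c.Wv (ev f')) (ww0 c.wp G) := by
  have key : ∀ I J K, c.t I J K (tz (hD i2 I G) (hD i0 K f)) = inner ℂ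
      ((c.T K.1 K.2 (ev (hD i0 K f')) c.Q.vac : D) : Completion D) (c.wp J I (hD i2 I G)) := by
    intro I J K
    set F := tz (hD i2 I G) (hD i0 K f)
    rw [show ev (hD i0 K f') = bar (ev (hD i0 K f)) from funext (hD_star e' i0 K)]
    exact (c.hTP.swap1 _ I J K F (SchwartzMap.compCLMOfContinuousLinearEquiv ℂ sw1 F)
      fun _ _ _ => rfl).trans ((c.hTP.swap2 _ J I K _
        (SchwartzMap.compCLMOfContinuousLinearEquiv ℂ (sw2.trans sw1) F) fun _ _ _ => rfl).trans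
      ((c.hTP.swap1 _ J K I _ (SchwartzMap.compCLMOfContinuousLinearEquiv ℂ
        (sw1.trans (sw2.trans sw1)) F) fun _ _ _ => rfl).trans
      (c.hTP.fac1 _ K J I (hD i0 K f) (hD i2 I G) _
        (fun x y z => (tz_apply _ _ z y x).trans (mul_comm _ _))
        (late_mono h (tsupport_hD _ _ _) (legs_hD I G)))))
  simp only [tw0_eq, ww0_eq, hD_tz, key, inner_sum, inner_smul_right]
  simp only [Wv_eq, sum_inner]

/-! ### the modular conjugation -/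

variable {c}

lemma J_inner (x y : Completion D) : inner ℂ (c.J x) (c.J y) = inner ℂ y x :=
  c.E.inner_J_J x y

lemma J_Wv (hj : JC c) {f g : Sch} (e : ∀ x, g x = star (f (jr x))) :
    c.J (c.Wv (ev f)) = c.Wv (ev g) := by
  have e1 : ∀ x, g x = star (cp conf_jr.cle 0 f x) := fun x => by rw [e, cp_apply, add_zero]; rfl
  simp only [Wv_eq, map_sum]
  refine Finset.sum_congr rfl fun K _ => ?_
  have t : IsTest (bar fun z => ev (hD i0 K f) (jr z)) :=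
    Ap.test_bar (test_conf conf_jr ⟨_, rfl⟩)
  rw [hj.one _ _ _ ⟨_, rfl⟩, ← Completion.coe_smul,
    ← Grp.fld_smul (c.Q.bose_fld _ (c.hT.bose _ _)) _ t]
  congr 2
  funext x
  rw [ev, ev, hD_star e1, hD_jr (e := i0) (e' := i0) (A := conf_jr.cle) (fun _ => rfl),
    SchwartzMap.smul_apply, cp_apply, add_zero, smul_eq_mul, star_mul', Complex.star_def,
    Complex.conj_ofReal]
  rfl

lemma J_pr (hj : JC c) {f : P3 → ℝ} {φ : ℝ → ℝ} (hf : Tst f) (hφ : Tst φ) :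
    c.J (c.Wv (pr f φ)) = c.Wv (pr (mj f) (ng φ)) := by
  have h1 := dc_pr hf hφ
  have h2 := dc_pr (tst_mj hf) (tst_ng hφ)
  have := J_Wv hj (f := sch (pr f φ)) (g := sch (pr (mj f) (ng φ))) fun x => by
    rw [sch_apply h1, sch_apply h2, ← pr_jr]
    rfl
  rwa [ev, ev, sch_coe h1, sch_coe h2] at this

lemma J_w0 {w : I2 → I2 → S2 →L[ℂ] Completion D} (hw : ∀ K M (F G : S2),
    (∀ x y, G (x, y) = conj (F (jr x, jr y))) →
      w K M G = ((sj K.1 * sj K.2 * (sj M.1 * sj M.2) : ℝ) : ℂ) • c.J (c.wp K M F))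
    {F G : S2} (e : ∀ x y, G (x, y) = conj (F (jr x, jr y))) : ww0 w G = c.J (ww0 c.wp F) := by
  have e1 : ∀ x, G x = star (cp (c2 conf_jr.cle) 0 F x) := fun x => by
    rw [cp_apply, add_zero]
    exact e x.1 x.2
  simp only [ww0_eq, map_sum, map_smulₛₗ, Complex.conj_ofReal]
  refine Finset.sum_congr rfl fun J _ => Finset.sum_congr rfl fun I _ => ?_
  rw [hw J I (((sj I.1 * sj I.2 : ℝ) : ℂ) • hD i2 I F) _ fun x y => by
      rw [hD_star e1, hD_jr (e := i2) (e' := i2) (c2_i2 _), SchwartzMap.smul_apply, cp_apply,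
        add_zero]
      rfl,
    map_smul, map_smulₛₗ, Complex.conj_ofReal, smul_smul, smul_smul, ← Complex.ofReal_mul,
    ← Complex.ofReal_mul]
  have h : ∀ k, la k * sj k = -la k := fun k => by fin_cases k <;> simp [la, va, sj]
  congr 2
  linear_combination (la J.1 * sj J.1 * la J.2 * sj J.2 * (sj I.2 * sj I.2)) * sj_sq I.1 +
    (la J.1 * sj J.1 * la J.2 * sj J.2) * sj_sq I.2 + (la J.2 * sj J.2) * h J.1 - la J.1 * h J.2

lemma J_ug (hj : JC c) {L L' : Ix → V} {a a' : V} (hL : IsLor L) (ha : jr a = a')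
    (e : ∀ z, sim 1 L' 0 (jr z) = jr (sim 1 L 0 z)) (z : Completion D) :
    c.J (Ug c.Q 1 L a z) = Ug c.Q 1 L' a' (c.J z) := by
  have : jL L = L' := funext fun m => by
    rw [← Cont.sim_bas (jL L), ← Cont.sim_bas L', ← jr_jr (GF.one m), e, ← (hj.lor L hL).2, jr_zero]
  rw [hj.ug _ _ _ _ one_pos hL, this, ha]

lemma J_Mi (hg : GRP c) (hj : JC c) (i : Fin 2) (t : ℝ) (z : Completion D) :
    c.J (Mi c.Q i t z) = Mi c.Q i (-t) (c.J z) := by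
  refine J_ug hj (hg.lga _).1 jr_zero (fun z => ?_) z
  rw [(hg.lga _).2, (hg.lga _).2]
  refine null_ext ?_ (by simp) (by simp)
  simp only [al_gap, al_jr, be_jr, tx_jr, neg_smul, d2_neg, d2_neg_l]
  ring

lemma J_Pa (hj : JC c) (t : ℝ) (z : Completion D) :
    c.J (Pa c.Q t z) = Pa c.Q (-t) (c.J z) := by
  have e : ∀ z, sim 1 GF.one 0 z = z := fun z => funext fun n => by simp [sim, GF.one, bas]
  exact J_ug hj H496.isLor_one (null_ext (by simp) (by simp) (by simp)) (fun z => by rw [e, e]) z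

lemma mir {W : ℝ → Completion D →L[ℂ] Completion D} (h0 : W 0 = 1)
    (hu : ∀ t, W t ∈ unitary (Completion D →L[ℂ] Completion D))
    (hJ : ∀ t z, c.J (W t z) = W (-t) (c.J z)) {x y : Completion D} (hx : Dm W x) (hy : Dm W y) :
    inner ℂ (c.J x) (gen W (c.J y)) = inner ℂ y (gen W x) := by
  rw [(hy.gn.anti_neg c.J fun t => hJ t y).gen_eq, J_inner, gsym h0 hu hy hx]

lemma dm_SK (t : TA c) {f : P3 → ℝ} {φ : ℝ → ℝ} (hf : Tst f) (hφ : Tst φ)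
    (h : tsupport φ ⊆ Set.Iio 0 ∨ tsupport φ ⊆ Set.Ioi 0) : Dm c.SK (c.Wv (pr f φ)) := by
  obtain ⟨b1, b2, h1, h2⟩ : ∃ b1 b2 : ℝ, (b2 < 0 ∨ 0 < b1) ∧ tsupport φ ⊆ Set.Icc b1 b2 := by
    rcases h with h | h
    · obtain ⟨b1, b2, h1, h2⟩ := Cont.slab hφ h
      exact ⟨b1, b2, .inl h1, h2⟩
    · obtain ⟨b1, b2, h1, h2⟩ := Cont.slab' hφ h
      exact ⟨b1, b2, .inr h1, h2⟩
  obtain ⟨m, C, H⟩ := (D1w.slab t).dm b1 b2 h1
  have hd := dc_pr hf hφ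
  have := (H (sch (pr f φ)) (by
    rw [sch_coe hd]
    exact fun z hz => h2 (tsupport_pr _ _ hz).2)).1
  rwa [ev, sch_coe hd] at this

lemma PF_pr (f g : P3 → ℝ) (α β : ℝ → ℝ) : c.PFW (pr f α) (pr g β) =
    inner ℂ (c.Wv (pr f α)) (gen c.SK (c.Wv (pr g β))) -
    ∑ i, (inner ℂ (c.Wv (pr (xi i f) α)) (gen (Mi c.Q i) (c.Wv (pr g β))) +
      inner ℂ (c.Wv (pr f α)) (gen (Mi c.Q i) (c.Wv (pr (xi i g) β)))) +
    ∑ i, inner ℂ (c.Wv (pr (xi i f) α)) (gen (Pa c.Q) (c.Wv (pr (xi i g) β))) := by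
  have e : ∀ (i : Fin 2) (f : P3 → ℝ) (α : ℝ → ℝ),
      (fun z => ((tx z i : ℝ) : ℂ) * pr f α z) = pr (xi i f) α := fun i f α => by
    funext z
    simp only [pr, xi, pl_2]
    push_cast
    ring
  simp only [Z.PFg, e, bar_pr]

/-- the mirror image of the plane form -/
theorem PF_mir (h : T3 c) {f g : P3 → ℝ} {α β : ℝ → ℝ} (hf : Tst f) (hg : Tst g) (hα : Tst α)
    (hβ : Tst β) (sα : tsupport α ⊆ Set.Iio 0) (sβ : tsupport β ⊆ Set.Ioi 0) :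
    c.PFW (pr g β) (pr f α) = c.PFW (pr (mj f) (ng α)) (pr (mj g) (ng β)) := by
  obtain ⟨ell, c0, E⟩ := h.elt
  have dM : ∀ i {f : P3 → ℝ} {φ : ℝ → ℝ}, Tst f → Tst φ → Dm (Mi c.Q i) (c.Wv (pr f φ)) :=
    fun i _ _ hf hφ => by
      have k := isTest_dc (dc_pr hf hφ)
      rw [D1w.wv_thv h.toTA E k]
      exact (Z.mith (c := h.toTA.kn) E.el i (Z.test_daa k)).dm
  have dP : ∀ {f : P3 → ℝ} {φ : ℝ → ℝ}, Tst f → Tst φ → Dm (Pa c.Q) (c.Wv (pr f φ)) :=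
    fun hf hφ => by
      have k := isTest_dc (dc_pr hf hφ)
      rw [D1w.wv_thv h.toTA E k]
      exact (Z.uth (c := h.toTA.kn) E.el va (Z.test_daa k)).dm
  have mM : ∀ i {x y}, Dm (Mi c.Q i) x → Dm (Mi c.Q i) y →
      inner ℂ (c.J x) (gen (Mi c.Q i) (c.J y)) = inner ℂ y (gen (Mi c.Q i) x) := fun i _ _ =>
    mir ((congrArg (Ga c.Q) (zero_smul _ _)).trans h.grp.ga0) (fun t => h.grp.uni _ _ _)
      (J_Mi h.grp h.jc i)
  have mP : ∀ {x y}, Dm (Pa c.Q) x → Dm (Pa c.Q) y →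
      inner ℂ (c.J x) (gen (Pa c.Q) (c.J y)) = inner ℂ y (gen (Pa c.Q) x) :=
    mir ((congrArg (Ut c.Q) (zero_smul _ _)).trans h.grp.ut0) (fun t => h.grp.uni _ _ _) (J_Pa h.jc)
  have e : ∀ i (f : P3 → ℝ), xi i (mj f) = mj (xi i f) := fun _ _ => rfl
  rw [PF_pr, PF_pr]
  simp only [e, ← J_pr h.jc hf hα, ← J_pr h.jc hg hβ, ← J_pr h.jc (tst_xi hf _) hα,
    ← J_pr h.jc (tst_xi hg _) hβ]
  rw [mir (c.hS.zero va null_va) (fun t => h.grp.S_uni va t null_va) h.jc.S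
    (dm_SK h.toTA hf hα (.inl sα)) (dm_SK h.toTA hg hβ (.inr sβ))]
  congr 1
  · congr 1
    refine Finset.sum_congr rfl fun i _ => ?_
    rw [mM i (dM i (tst_xi hf i) hα) (dM i hg hβ), mM i (dM i hf hα) (dM i (tst_xi hg i) hβ),
      add_comm]
  · exact Finset.sum_congr rfl fun i _ => (mP (dP (tst_xi hf i) hα) (dP (tst_xi hg i) hβ)).symm

lemma Wv_add {f g : Fn} (hf : IsTest f) (hg : IsTest g) :
    c.Wv (fun x => f x + g x) = c.Wv f + c.Wv g := by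
  obtain ⟨f, rfl⟩ := hf
  obtain ⟨g, rfl⟩ := hg
  have e : ∀ (K : I2) (u v : Sch), c.T K.1 K.2 (ev (u + v)) c.Q.vac =
      c.T K.1 K.2 (ev u) c.Q.vac + c.T K.1 K.2 (ev v) c.Q.vac := fun K u v => by
    have := c.Q.lin _ (ev u) (ev v) 1 c.Q.vac (c.Q.bose_fld _ (c.hT.bose K.1 K.2)) ⟨u, rfl⟩ ⟨v, rfl⟩
    simp only [one_mul, one_smul] at this
    exact this
  refine (Wv_eq c (f + g)).trans ?_
  simp only [Wv_eq, map_add, e, Completion.coe_add, Finset.sum_add_distrib]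

/-! ### the small terms -/

theorem small (h : T3 c) {f : P3 → ℝ} {θ1 θ : ℝ → ℝ} (hf : Tst f) (h1 : Tst θ1) (hθ : Bump θ) :
    Tendsto (fun δ : ℝ => (δ : ℂ) • c.Wv (pr f (abv θ1 θ δ))) (𝓝[>] 0) (𝓝 0) := by
  obtain ⟨ell, c0, E⟩ := h.elt
  have g := Z.tst_dd2 hf
  have l := ((lim_abv h1 hθ).const_mul (9 * c0 * (∫ k, ‖ft3 (sch (cx (Z.dd2 f))) k‖ ^ 2 ∂m3) *
    (8 * Real.pi))).sqrt
  rw [mul_zero, Real.sqrt_zero] at l
  refine squeeze_zero_norm' ?_ l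
  filter_upwards [self_mem_nhdsWithin] with δ hδ
  have a := tst_abv h1 hθ hδ
  have b := Z.th_sq (c := h.toTA.kn) E.el (sch (cx (Z.dd2 f))) (Ib.S1 (abv θ1 θ δ))
  rw [← Ib.pr_sch g a, ← Z.daa_pr hf a, ← D1w.wv_thv h.toTA E (isTest_dc (dc_pr hf a)),
    Ib.S1_coe a, Ib.q2] at b
  simp only [fun t => show deriv (cx (abv θ1 θ δ)) t = (deriv (abv θ1 θ δ) t : ℝ) from
    Ap.fderiv_cx (a.diff t) 1, Complex.norm_real, Real.norm_eq_abs, sq_abs] at b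
  refine Real.le_sqrt_of_sq_le ?_
  simp only [norm_smul, mul_pow, integral_const_mul, Complex.norm_real, Real.norm_eq_abs, sq_abs]
  refine (mul_le_mul_of_nonneg_left b (sq_nonneg δ)).trans_eq ?_
  ring

theorem lo2 (h : T3 c) {f g : P3 → ℝ} {θ1 θ φ : ℝ → ℝ} (hf : Tst f) (h1 : Tst θ1) (hθ : Bump θ) :
    Tendsto (fun δ : ℝ => (δ : ℂ) * c.PFW (pr f (abv θ1 θ δ)) (pr g φ)) (𝓝[>] 0) (𝓝 0) := by
  have k : ∀ {f : P3 → ℝ}, Tst f → ∀ v : Completion D,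
      Tendsto (fun δ : ℝ => (δ : ℂ) * inner ℂ (c.Wv (pr f (abv θ1 θ δ))) v) (𝓝[>] 0) (𝓝 0) :=
    fun hf v => by
      simpa only [inner_smul_left, Complex.conj_ofReal, inner_zero_left] using
        (small h hf h1 hθ).inner (𝕜 := ℂ) (tendsto_const_nhds (x := v))
  simp only [PF_pr, Fin.sum_univ_two, mul_add, mul_sub]
  simpa only [add_zero, sub_zero] using ((k hf _).sub (((k (tst_xi hf 0) _).add (k hf _)).add
    ((k (tst_xi hf 1) _).add (k hf _)))).add ((k (tst_xi hf 0) _).add (k (tst_xi hf 1) _))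

theorem PF_hi (h : T3 c) {f g : P3 → ℝ} {θ1 θ φ : ℝ → ℝ} (hf : Tst f) (hg : Tst g) (h1 : Tst θ1)
    (hθ : Bump θ) (hφ : Tst φ) (hφ' : tsupport φ ⊆ Set.Ioi 0) {δ : ℝ} (hδ : 0 < δ) :
    c.PFW (pr g φ) (pr f (blw θ1 θ δ)) =
      c.PFW (pr (mj f) (abv (ng θ1) θ δ)) (pr (mj g) (ng φ)) := by
  rw [blw_eq θ1 hθ, PF_mir h hf hg (tst_ng (tst_abv (tst_ng h1) hθ hδ)) hφ
    (supp_ng_lo fun t ht => hδ.trans_le (supp_abv _ hθ hδ ht)) hφ', ng_ng]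

/-! ### the sum of the moments -/

variable (c) (t : S3 →L[ℂ] ℂ) (w : S2 →L[ℂ] Completion D)

/-- `CONM` and `CONK` for the product `w` -/
structure Mom : Prop where
  m : ∀ (κ f : P3 → ℝ) (ρ θ1 θ : ℝ → ℝ) (f3 : Fn) (i : Fin 2), Cut κ → Tst f → Tst ρ →
    tsupport ρ ⊆ Set.Icc (-1 / 2) (1 / 2) → Tst θ1 → Bump θ → In {z | be z < 0} f3 →
    Apx (fun δ L => inner ℂ (w (pairF (fun x => x i) κ f ρ θ1 δ L)) (c.Wv f3)) fun δ =>
      (∫ t, ρ t : ℝ) * (inner ℂ (c.Wv (pr f (abv θ1 θ δ))) (gen (Mi c.Q i) (c.Wv f3)) -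
        inner ℂ (c.Wv (pr (fun y => y.2 i * f y) (abv θ1 θ δ))) (gen (Pa c.Q) (c.Wv f3)))
  k : ∀ (κ f : P3 → ℝ) (ρ θ1 θ : ℝ → ℝ) (f3 : Fn), Cut κ → Tst f → Tst ρ →
    tsupport ρ ⊆ Set.Icc (-1 / 2) (1 / 2) → Tst θ1 → Bump θ → In {z | be z < 0} f3 →
    Apx (fun δ L => inner ℂ (w (pairF (fun x => d2 x x) κ f ρ θ1 δ L)) (c.Wv f3)) fun δ =>
      (∫ t, ρ t : ℝ) * c.AbW f (abv θ1 θ δ) (c.Wv f3)

/-- `FAR.side` for the functional `t` -/
def Sid : Prop := ∀ (u0 : ℝ) (κ : P3 → ℝ) (ρ : ℝ → ℝ) (Ψ : V × V → ℂ), Tst κ → Tst ρ → Dc Ψ →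
  tsupport ρ ⊆ Set.Ioo (-u0) u0 →
  (tsupport Ψ ⊆ {z | be z.1 < -u0 ∧ be z.2 < -u0} ∨ tsupport Ψ ⊆ {z | u0 < be z.1 ∧ u0 < be z.2}) →
  Tendsto (fun L : ℝ => (L : ℂ) * t (tri Ψ κ ρ L)) atTop (𝓝 0)

/-- the combination of the moments -/
def SS (κ f g : P3 → ℝ) (ρ θ1 φ : ℝ → ℝ) (δ L : ℝ) : ℂ :=
  inner ℂ (w (pairF (fun x => d2 x x) κ f ρ θ1 δ L)) (c.Wv (pr g φ)) +
    (inner ℂ (w (pairF (fun x => x 0) κ (xi 0 f) ρ θ1 δ L)) (c.Wv (pr g φ)) +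
      inner ℂ (w (pairF (fun x => x 1) κ (xi 1 f) ρ θ1 δ L)) (c.Wv (pr g φ))) -
    (inner ℂ (w (pairF (fun x => x 0) κ f ρ θ1 δ L)) (c.Wv (pr (xi 0 g) φ)) +
      inner ℂ (w (pairF (fun x => x 1) κ f ρ θ1 δ L)) (c.Wv (pr (xi 1 g) φ)))

variable {c t w} {κ f g : P3 → ℝ} {ρ θ1 θ φ : ℝ → ℝ}

theorem core (hM : Mom c w) (hκ : Cut κ) (hf : Tst f)
    (hg : Tst g) (hρ : Tst ρ) (hρ' : tsupport ρ ⊆ Set.Icc (-1 / 2) (1 / 2)) (h1 : Tst θ1)
    (hθ : Bump θ) (hφ : Tst φ) (hφ' : tsupport φ ⊆ Set.Iio 0) :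
    Apx (SS c w κ f g ρ θ1 φ) fun δ => (∫ t, ρ t : ℝ) * c.PFW (pr f (abv θ1 θ δ)) (pr g φ) := by
  have i1 := in_pr hg hφ hφ'
  have i2 := fun i => in_pr (tst_xi hg i) hφ hφ'
  have k := hM.k κ f ρ θ1 θ _ hκ hf hρ hρ' h1 hθ i1
  have m1 := fun i => hM.m κ (xi i f) ρ θ1 θ _ i hκ (tst_xi hf i) hρ hρ' h1 hθ i1
  have m2 := fun i => hM.m κ f ρ θ1 θ _ i hκ hf hρ hρ' h1 hθ (i2 i)
  refine ((k.add ((m1 0).add (m1 1))).sub ((m2 0).add (m2 1))).congr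
    (.of_forall fun δ => .of_forall fun L => rfl) ?_
  filter_upwards [self_mem_nhdsWithin] with δ hδ
  have ha := tst_abv h1 hθ hδ
  have e : c.Wv (pr (fun y => d2 y.2 y.2 * f y) (abv θ1 θ δ)) =
      c.Wv (pr (fun y => y.2 0 * xi 0 f y) (abv θ1 θ δ)) +
      c.Wv (pr (fun y => y.2 1 * xi 1 f y) (abv θ1 θ δ)) := by
    refine Eq.trans ?_ (Wv_add (isTest_dc (dc_pr (tst_xi (tst_xi hf 0) 0) ha))
      (isTest_dc (dc_pr (tst_xi (tst_xi hf 1) 1) ha)))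
    congr 1
    funext z
    simp only [pr, xi, d2]
    push_cast
    ring
  rw [PF_pr, Ctx.AbW, e, inner_add_left]
  simp only [Fin.sum_univ_two]
  unfold xi
  ring

/-- both legs on one side -/
theorem side (hF : Sid t) {δ u : ℝ} (hκ : Tst κ) (hf : Tst f)
    (hg : Tst g) (hρ : Tst ρ) (h1 : Tst θ1) (hφ : Tst φ) (hδ : 0 < δ)
    (hs : tsupport (dlt δ ρ) ⊆ Set.Ioo (-u) u)
    (h : tsupport θ1 ∪ tsupport φ ⊆ Set.Iio (-u) ∨ tsupport θ1 ∪ tsupport φ ⊆ Set.Ioi u) :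
    Tendsto (fun L => t (triF κ f g ρ θ1 φ δ L)) atTop (𝓝 0) := by
  have key : ∀ (κ' : P3 → ℝ) (p : V × V → ℝ), Tst κ' → ContDiff ℝ ∞ p →
      Tendsto (fun L : ℝ => (L : ℂ) * t (tri (ps p f g θ1 φ) κ' (dlt δ ρ) L)) atTop (𝓝 0) :=
    fun κ' p hκ' hp => by
      refine hF u κ' _ _ hκ' (tst_dlt hρ hδ) (dc_ps hp hf hg h1 hφ) hs
        (h.imp (fun h z hz => ?_) fun h z hz => ?_) <;>
      exact ⟨h (.inl (tsupport_pr _ _ (tsupport_two _ _ _ hz).1).2),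
        h (.inr (tsupport_pr _ _ (tsupport_two _ _ _ hz).2).2)⟩
  have l1 : Tendsto (fun L : ℝ => (((Real.sqrt L)⁻¹ : ℝ) : ℂ)) atTop (𝓝 0) :=
    (Complex.continuous_ofReal.tendsto 0).comp
      (tendsto_inv_atTop_zero.comp Real.tendsto_sqrt_atTop)
  have l2 : Tendsto (fun L : ℝ => ((L⁻¹ : ℝ) : ℂ)) atTop (𝓝 0) :=
    (Complex.continuous_ofReal.tendsto 0).comp tendsto_inv_atTop_zero
  have := ((key _ _ (tst_xx hκ) (contDiff_const (c := 1))).sub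
    ((l1.mul (key _ _ (tst_xi hκ 0) (sm_p1 0))).add (l1.mul (key _ _ (tst_xi hκ 1) (sm_p1 1))))).add
    (l2.mul (key _ _ hκ sm_p2))
  rw [mul_zero, add_zero, add_zero, sub_zero] at this
  refine this.congr' ?_
  filter_upwards [eventually_gt_atTop (0 : ℝ)] with L hL
  rw [triF_dec' hκ hf hg hρ h1 hφ hδ hL, map_add, map_sub, map_add, map_smul, map_smul, map_smul,
    smul_eq_mul, smul_eq_mul, smul_eq_mul,
    ← mul_assoc, ← mul_assoc, ← mul_assoc, ← Complex.ofReal_mul, ← Complex.ofReal_mul,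
    inv_mul_cancel₀ hL.ne', inv_mul_eq_div, Real.div_sqrt, Complex.ofReal_one, one_mul]

lemma tq_eq {W : R2 → ℝ} {δ L : ℝ} (hW : ContDiff ℝ ∞ W) (hκ : Tst κ) (hf : Tst f) (hg : Tst g)
    (hρ : Tst ρ) (h1 : Tst θ1) (hφ : Tst φ) (hδ : 0 < δ) (hL : 0 < L) :
    tq W κ f g ρ θ1 φ δ L = tz (pairF W κ f ρ θ1 δ L) (sch (pr g φ)) := by
  ext ⟨x, y, z⟩
  rw [tq_apply hW hκ hf hg hρ h1 hφ hδ hL, tz_apply, sch_apply (dc_pr hg hφ)]
  exact congrArg (· * _) (sch_apply (dc_pf0 hW hκ hf hρ h1 hδ hL) _).symm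

theorem lo1 (hF : Sid t) (hM : Mom c w) (fac : ∀ (f : Sch) (G G' : S2), (∀ x, G' x = star (G x)) →
      Late (legs G) (tsupport f) → t (tz G f) = inner ℂ (w G') (c.Wv (ev f)))
    (hκ : Cut κ) (hf : Tst f) (hg : Tst g)
    (hρ : Tst ρ) (hρ' : tsupport ρ ⊆ Set.Icc (-1 / 2) (1 / 2)) (h1 : Tst θ1) (hθ : Bump θ)
    (hφ : Tst φ) (hφ' : tsupport φ ⊆ Set.Iio 0) :
    Apx (fun δ L => t (triF κ f g ρ θ1 φ δ L))
      fun δ => (∫ t, ρ t : ℝ) * c.PFW (pr f (abv θ1 θ δ)) (pr g φ) := by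
  obtain ⟨b1, b2, hb, hs⟩ := Cont.slab hφ hφ'
  have hu : 0 < -b2 / 4 := by linarith
  obtain ⟨θ2, θ3, h2, h3, e, s2, s3, e'⟩ := cutθ h1 hu
  have a1 := core hM hκ hf hg hρ hρ' h2 hθ hφ hφ'
  have a2 : Apx (fun δ L => t (triF κ f g ρ θ3 φ δ L)) fun _ => 0 := .of_lim (by
    filter_upwards [Ioc_mem_nhdsGT hu] with δ hδ
    refine side hF hκ.1 hf hg hρ h3 hφ hδ.1 (supp_dlt hρ' hδ.1 hδ.2) (.inl ?_)
    rintro t (ht | ht)
    · exact s3 ht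
    · have := (hs ht).2
      show t < _
      linarith)
  refine (a1.add a2).congr ?_ (.of_forall fun δ => by rw [e', add_zero])
  filter_upwards [Ioc_mem_nhdsGT hu] with δ hδ
  filter_upwards [eventually_gt_atTop (0 : ℝ)] with L hL
  have H : ∀ s ∈ tsupport (dlt δ ρ) ∪ tsupport θ2, ∀ t ∈ tsupport φ, t < s := by
    rintro s (h | h) t ht
    · linarith [(hs ht).2, (supp_dlt hρ' hδ.1 hδ.2 h).1]
    · linarith [(hs ht).2, show -3 * (-b2 / 4) ≤ s from s2 h]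
  have key : ∀ {W : R2 → ℝ} {f g : P3 → ℝ}, ContDiff ℝ ∞ W → Tst f → Tst g →
      t (tq W κ f g ρ θ2 φ δ L) = inner ℂ (w (pairF W κ f ρ θ2 δ L)) (c.Wv (pr g φ)) := by
    intro W f g hW hf hg
    have hp := dc_pf0 hW hκ.1 hf hρ h2 hδ.1 hL
    have h3 := dc_pr hg hφ
    have q : ⇑(pairF W κ f ρ θ2 δ L) = pf0 W κ f ρ θ2 δ L := sch_coe hp
    rw [tq_eq hW hκ.1 hf hg hρ h2 hφ hδ.1 hL, fac _ _ (pairF W κ f ρ θ2 δ L)
      (fun x => by rw [q, pf0, Complex.star_def, Complex.conj_ofReal]) (by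
        rw [q, sch_coe h3]
        exact late_be fun x hx y hy => H _ (legs_pf0 hx) _ (tsupport_pr _ _ hy).2), ev, sch_coe h3]
  rw [triF_add hκ.1 hf hg hρ h1 h2 h3 e hφ hδ.1 hL, map_add, triF_dec hκ.1 hf hg hρ h2 hφ hδ.1 hL,
    map_sub, map_add, map_add, map_add, key sm_xx hf hg,
    key (sm_xi 0) (tst_xi hf 0) hg, key (sm_xi 1) (tst_xi hf 1) hg,
    key (sm_xi 0) hf (tst_xi hg 0), key (sm_xi 1) hf (tst_xi hg 1)]
  rfl

theorem hi1 (h : T3 c) (hF : Sid t) (hM : Mom c w) {wp : S2 →L[ℂ] Completion D}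
    (fac : ∀ (f f' : Sch) (G : S2), (∀ x, f' x = star (f x)) →
      Late (tsupport f) (legs G) → t (tz G f) = inner ℂ (c.Wv (ev f')) (wp G))
    (hw : ∀ F G : S2, (∀ x y, G (x, y) = conj (F (jr x, jr y))) → w G = c.J (wp F))
    (hκ : Cut κ) (hf : Tst f)
    (hg : Tst g) (hρ : Tst ρ) (hρ' : tsupport ρ ⊆ Set.Icc (-1 / 2) (1 / 2)) (h1 : Tst θ1)
    (hθ : Bump θ) (hφ : Tst φ) (hφ' : tsupport φ ⊆ Set.Ioi 0) :
    Apx (fun δ L => t (triF κ f g ρ θ1 φ δ L))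
      fun δ => (∫ t, ρ t : ℝ) * c.PFW (pr g φ) (pr f (blw θ1 θ δ)) := by
  obtain ⟨b1, b2, hb, hs⟩ := Cont.slab' hφ hφ'
  have hu : 0 < b1 / 4 := by linarith
  obtain ⟨θ2, θ3, h2, h3, e, s2, s3, e'⟩ := cutθ (tst_ng h1) hu
  have a1 := core hM (cut_mj hκ) (tst_mj hf) (tst_mj hg) (tst_ng hρ) (fun t ht => by
    obtain ⟨a, b⟩ := hρ' (supp_ng ht)
    constructor <;> linarith) h2 hθ (tst_ng hφ) (supp_ng_lo hφ')
  have a2 : Apx (fun δ L => t (triF κ f g ρ (ng θ3) φ δ L)) fun _ => 0 := .of_lim (by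
    filter_upwards [Ioc_mem_nhdsGT hu] with δ hδ
    refine side hF hκ.1 hf hg hρ (tst_ng h3) hφ hδ.1 (supp_dlt hρ' hδ.1 hδ.2) (.inr ?_)
    rintro t (ht | ht)
    · exact show b1 / 4 < t from neg_lt_neg_iff.1 (s3 (supp_ng ht))
    · have := (hs ht).1
      show _ < t
      linarith)
  refine (a1.add a2).congr ?_ ?_
  · filter_upwards [Ioc_mem_nhdsGT hu] with δ hδ
    filter_upwards [eventually_gt_atTop (0 : ℝ)] with L hL
    have g2 := tst_ng h2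
    have H : ∀ s ∈ tsupport (dlt δ ρ) ∪ tsupport (ng θ2), ∀ t ∈ tsupport φ, s < t := by
      rintro s (h | h) t ht
      · linarith [(hs ht).1, (supp_dlt hρ' hδ.1 hδ.2 h).2]
      · linarith [(hs ht).1, show -3 * (b1 / 4) ≤ -s from s2 (supp_ng h)]
    have key : ∀ {W : R2 → ℝ} {f g : P3 → ℝ}, ContDiff ℝ ∞ W → Tst f → Tst g →
        t (tq W κ f g ρ (ng θ2) φ δ L) =
          inner ℂ (w (pairF W (mj κ) (mj f) (ng ρ) θ2 δ L)) (c.Wv (pr (mj g) (ng φ))) := by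
      intro W f g hW hf hg
      have hp := dc_pf0 hW hκ.1 hf hρ g2 hδ.1 hL
      have h3 := dc_pr hg hφ
      have q : ⇑(pairF W κ f ρ (ng θ2) δ L) = pf0 W κ f ρ (ng θ2) δ L := sch_coe hp
      rw [tq_eq hW hκ.1 hf hg hρ g2 hφ hδ.1 hL, fac _ (sch (pr g φ)) _
        (fun x => by rw [sch_coe h3, pr, Complex.star_def, Complex.conj_ofReal]) (by
          rw [q, sch_coe h3]
          exact late_be fun x hx y hy => H _ (legs_pf0 hy) _ (tsupport_pr _ _ hx).2), ev,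
        sch_coe h3, ← J_inner, J_pr h.jc hg hφ,
        ← hw _ (pairF W (mj κ) (mj f) (ng ρ) θ2 δ L) fun x y => ?_]
      refine (sch_apply (dc_pf0 hW (tst_mj hκ.1) (tst_mj hf) (tst_ng hρ) h2 hδ.1 hL) _).trans ?_
      rw [q, ← pf0_jr, ng_ng]
    rw [triF_add hκ.1 hf hg hρ h1 g2 (tst_ng h3) (fun t => by
        have := e (-t)
        rwa [ng, neg_neg] at this) hφ hδ.1 hL, map_add,
      triF_dec hκ.1 hf hg hρ g2 hφ hδ.1 hL, map_sub, map_add, map_add, map_add, key sm_xx hf hg,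
      key (sm_xi 0) (tst_xi hf 0) hg, key (sm_xi 1) (tst_xi hf 1) hg,
      key (sm_xi 0) hf (tst_xi hg 0), key (sm_xi 1) hf (tst_xi hg 1)]
    rfl
  · filter_upwards [self_mem_nhdsWithin] with δ hδ
    rw [PF_hi h hf hg h1 hθ hφ hφ' hδ, e', add_zero]
    congr 2
    exact (integral_neg_eq_self ρ volume).symm

lemma mom (hM : CONM c) (hK : CONK c) {w : ℝ → ℝ → I2 → I2 → S2 →L[ℂ] Completion D}
    (hw : TP2 c.Q c.TT false w) : Mom c (ww0 (w c.tau c.tau)) := by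
  have m := fun κ f ρ θ1 θ f3 i => hM w κ f ρ θ1 θ f3 i hw
  have k := fun κ f ρ θ1 θ f3 => hK w κ f ρ θ1 θ f3 hw
  generalize ww0 (w c.tau c.tau) = u at m k ⊢
  exact ⟨m, k⟩

lemma sid (hF : FAR c) : Sid c.tw0 := by
  have := hF.side
  generalize c.tw0 = t at this ⊢
  exact this

end Ct

open Ct in
/-- row CONT -/
theorem cont_row {D : Type*} [NormedAddCommGroup D] [InnerProductSpace ℂ D] (c : Ctx D) [Fact c.tp] :
    T3 c → FAR c → CONM c → CONK c → CONT c := fun h hF hM hK => by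
  obtain ⟨w, hw, hw'⟩ := h.mir Fact.out
  have l := fun κ f g ρ θ1 θ φ => lo1 (κ := κ) (f := f) (g := g) (ρ := ρ) (θ1 := θ1) (θ := θ)
    (φ := φ) (sid hF) (mom hM hK c.hTP.tm) (fac_lo c)
  have u := fun κ f g ρ θ1 θ φ => hi1 (κ := κ) (f := f) (g := g) (ρ := ρ) (θ1 := θ1) (θ := θ)
    (φ := φ) h (sid hF) (mom hM hK hw) (fac_hi c) fun F G => J_w0 (hw' _ _)
  refine ⟨fun κ f g ρ θ1 θ φ hκ hf hg hρ hρ' h1 hθ hφ hφ' => ⟨?_, lo2 h hf h1 hθ⟩,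
    fun κ f g ρ θ1 θ φ hκ hf hg hρ hρ' h1 hθ hφ hφ' => ⟨?_,
      (lo2 h (tst_mj hf) (tst_ng h1) hθ).congr' (by
        filter_upwards [self_mem_nhdsWithin] with δ hδ
        rw [PF_hi h hf hg h1 hθ hφ hφ' hδ])⟩⟩
  · exact l κ f g ρ θ1 θ φ hκ hf hg hρ hρ' h1 hθ hφ hφ'
  · exact u κ f g ρ θ1 θ φ hκ hf hg hρ hρ' h1 hθ hφ hφ'

end

end Vale.Agent.P352L
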