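import Vale.Agent.P352X.R.DD
import Vale.Agent.P352X.R.SCH.Tht
import Vale.Agent.P352L.Ray
import Vale.Agent.P352L.Api1C
import Vale.Agent.P352L.Spec2

/-!
# P352L, row DD: the potentials are local in forward cut cones (helper69)
-/

set_option linter.all false

noncomputable section

open MeasureTheory Filter Topology Set
open scoped ContDiff ComplexConjugate

namespace Vale.Agent.P352L

open Vale.Agent.P352X
open Vale.Agent.P352 Vale.Agent.P352.GF Vale.Agent.P352.BW Vale.Agent.P352.H496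
open Vale.Agent.P352.H246 (In box)
open Vale.Agent.P352.H755 Vale.Agent.P352X.Ap
open UniformSpace (Completion)
open Complex (I)
open Z (Ell0 daa)
open Th (mF)

namespace Dd

/-! ### derivatives along `a` do not change locality -/

section ray

variable {H : Type*} [NormedAddCommGroup H] [InnerProductSpace ℂ H] [CompleteSpace H]
  {W : ℝ → H →L[ℂ] H} {M : VonNeumannAlgebra H} {ξ : H} {φ ψ T : Fn → H} {f f' : Fn}

/-- `W t` maps `M` into itself for positive `t` -/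
structure Ry (W : ℝ → H →L[ℂ] H) (M : VonNeumannAlgebra H) (ξ : H) : Prop where
  ug : UG W
  vac : ∀ t, W t ξ = ξ
  inc : ∀ t, 0 ≤ t → ∀ X ∈ M, W t * X * W (-t) ∈ M

/-- `W` translates `φ` along `a` -/
structure Tr (W : ℝ → H →L[ℂ] H) (φ : Fn → H) : Prop where
  gn : ∀ f, IsTest f → Gn W (φ f) (I • φ (dv va f))
  erg : ∀ f, IsTest f → Erg W (φ f)

lemma Tr.one (t : Tr W φ) (r : Ry W M ξ) (hf : IsTest f) (hf' : IsTest f') :
    Pr M ξ (φ (dv va f)) (φ (dv va f')) ↔ Pr M ξ (φ f) (φ f') :=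
  ⟨fun h => ray r.ug r.vac r.inc (t.gn f hf) (t.gn f' hf') h (t.erg f hf) (t.erg f' hf'),
    fun h => by
      simpa only [smul_smul, Complex.I_mul_I, neg_one_smul, neg_neg] using (h.gn_ug r.ug r.vac
        (nhdsGT_le_nhdsNE 0) (eventually_mem_nhdsWithin.mono fun t ht => r.inc t (le_of_lt ht))
        (t.gn f hf) (t.gn f' hf')).neg⟩

lemma Tr.two (t : Tr W φ) (r : Ry W M ξ) (hf : IsTest f) (hf' : IsTest f') :
    Pr M ξ (φ (daa f)) (φ (daa f')) ↔ Pr M ξ (φ f) (φ f') :=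
  (t.one r (test_dv _ hf) (test_dv _ hf')).trans (t.one r hf hf')

lemma Tr.iff (t : Tr W φ) (t' : Tr W ψ) (r : Ry W M ξ)
    (e : ∀ g, IsTest g → φ (daa g) = T g + ψ (daa g)) (hf : IsTest f) (hf' : IsTest f')
    (h : Pr M ξ (T f) (T f')) : Pr M ξ (φ f) (φ f') ↔ Pr M ξ (ψ f) (ψ f') := by
  rw [← t.two r hf hf', ← t'.two r hf hf', e f hf, e f' hf']
  exact ⟨fun k => by simpa only [add_sub_cancel_left] using k.sub h, h.add⟩

end ray

variable {D : Type*} [NormedAddCommGroup D] [InnerProductSpace ℂ D]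

/-! ### the covariant potential -/

section ell

variable {c : Base D} {ell : (V → ℂ) → Completion D} {c0 : ℝ} (h : Ell0 c.Q c.bt c.S0 ell c0)
  {ψ ψ' : V → ℂ}
include h

lemma bl : Sch.BL mF ell := Sch.bl_of_inner h.lin fun f hf => h.inn f f hf hf

theorem gn_ell (y : V) (hψ : MemLp ψ 2 mF) (hψ' : MemLp (fun p => (mdot y p : ℂ) * ψ p) 2 mF) :
    Gn (fun t => Ut c.Q (t • y)) (ell ψ) (ell fun p => (mdot y p : ℂ) * ψ p) := by
  have n (r : ℝ) : 1 ≤ ‖(r : ℂ) + I‖ := by simpa using Complex.abs_im_le_norm ((r : ℂ) + I)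
  have n0 (r : ℝ) : (r : ℂ) + I ≠ 0 := norm_pos_iff.1 (one_pos.trans_le (n r))
  have b1 : SN.Bd fun p => ((mdot y p : ℂ) + I)⁻¹ :=
    ⟨by fun_prop, 1, fun p => by rw [norm_inv]; exact inv_le_one_of_one_le₀ (n _)⟩
  have b2 : SN.Bd fun p => (mdot y p : ℂ) * ((mdot y p : ℂ) + I)⁻¹ := ⟨by fun_prop, 1, fun p => by
    rw [norm_mul, norm_inv, mul_inv_le_iff₀ (one_pos.trans_le (n _)), one_mul]
    simpa using Complex.abs_re_le_norm ((mdot y p : ℂ) + I)⟩
  have m : MemLp (fun p => ((mdot y p : ℂ) + I) * ψ p) 2 mF := by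
    simp only [add_mul]; exact hψ'.add (hψ.const_mul I)
  have e1 := h.phi _ _ b1 m
  have e2 := h.phi _ _ b2 m
  simp only [mul_assoc, inv_mul_cancel_left₀ (n0 _)] at e1 e2
  have d := SN.Calc.Dom.of_bd (C := c.bt.toCalc) b2 (ell fun p => ((mdot y p : ℂ) + I) * ψ p)
  rw [gn_iff_bc c.bt SN.isPair_mdot (v := y) fun _ => rfl, ← e1, ← e2]
  simp only [md_comm _ y]
  exact ⟨(SN.Calc.dom_Phi b1 (by fun_prop)).2 d, by
    rw [SN.Calc.Psi_Phi b1 (by fun_prop) d, SN.Calc.Psi_bd b2]⟩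

lemma tr_ell (B : BAS c) : Tr (Pa c.Q) fun f => ell (ft f) :=
  ⟨fun f hf => by
    have m := memLp_ft (test_dv va hf) Fc
    have e : (fun p => (mdot va p : ℂ) * ft f p) = fun p => I * ft (dv va f) p := funext fun p => by
      rw [ft_dv hf, md_comm p]
      linear_combination (mdot va p * ft f p) * Complex.I_mul_I
    have := gn_ell h va (memLp_ft hf _) (e ▸ m.const_mul I)
    rwa [e, (bl h).smul I m] at this,
  fun f hf => erg_of_bc c.bt (fun _ _ => rfl) (by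
    simpa only [md_comm _ va] using! (B.ker _ (h.perp _ (memLp_ft hf _))).1)⟩

lemma ex_l (v : Completion D) :
    ∃ b : Fn, MemLp b 2 ∧ ∀ f, IsTest f → inner ℂ v (ell (ft f)) = ∫ z, b z * f z := by
  obtain ⟨b, m, -, hb⟩ := (bl h).riesz v
  obtain ⟨b', m', -, hb'⟩ := ft_l2_dual (b := Fc.indicator fun p => conj (b p))
    ((memLp_indicator_iff_restrict meas_Fc).2 m.star)
  refine ⟨b', m', fun f hf => ?_⟩
  rw [← hb' f hf, ← inner_conj_symm, hb _ (memLp_ft hf _), ← integral_conj,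
    ← integral_indicator meas_Fc]
  refine integral_congr_ae (.of_forall fun p => ?_)
  by_cases k : p ∈ Fc <;> simp [k, mul_comm]

/-- the defect is a square integrable function -/
lemma ex_b (v w : Completion D) : ∃ b : Fn, MemLp b 2 ∧ ∀ f, IsTest f →
    inner ℂ v (ell (ft f)) - inner ℂ (ell (ft (bar f))) w = ∫ z, b z * f z := by
  obtain ⟨b1, m1, h1⟩ := ex_l h v
  obtain ⟨b2, m2, h2⟩ := ex_l h w
  refine ⟨fun z => b1 z - conj (b2 z), m1.sub m2.star, fun f hf => ?_⟩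
  rw [h1 f hf, ← inner_conj_symm, h2 _ (test_bar hf), ← integral_conj]
  simp only [sub_mul, bar, map_mul, RCLike.star_def, Complex.conj_conj]
  exact (integral_sub (m1.integrable_mul (test_memLp hf 2))
    (m2.star.integrable_mul (test_memLp hf 2))).symm

end ell

/-! ### the members -/

variable {c : Ctx D} {ell : (V → ℂ) → Completion D} {c0 r : ℝ} {f : Fn}

lemma ry (G : GRP c) (r : ℝ) : Ry (Pa c.Q) (c.N (Rc r 0)) c.Om :=
  ⟨G.ugPa, fun _ => G.vac _ _ _, fun t ht X hX => by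
    rw [Pa, Pa, neg_smul]
    refine G.mem_ut hX _ fun z hz => ?_
    simp only [Rc, HM.Rg, mem_setOf_eq, sub_zero, md_add, md_add_l, md_smul, md_smul_l, null_va.1,
      md_comm vb va, md_comm z va, md_ab] at hz ⊢
    exact ⟨by linarith [hz.1], by linarith [hz.2.1], by nlinarith [hz.2.2, mul_nonneg ht hz.2.1.le]⟩⟩

lemma tr_l (T : T1 c) : Tr (Pa c.Q) c.l :=
  ⟨T.gen.utl va, fun f hf => erg_of_bc c.bt (fun _ _ => rfl) (by
    simpa only [md_comm _ va] using! (T.bas.ker _ (T.grp.perpl f hf)).1)⟩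

lemma iff_t (T : T3 c) (E : c.Elt ell c0) (x : ℝ) (hf : In (Rc r 0) f) :
    Pr (c.N (Rc r 0)) c.Om (ell (ft f)) (ell (ft (bar f))) ↔
      Pr (c.N (Rc r 0)) c.Om ((c.sh x).l f) ((c.sh x).l (bar f)) :=
  (tr_ell E.el T.bas).iff (tr_l (T.all x).toT1) (ry T.grp r) (E.taa x) hf.1 (test_bar hf.1) (by
    simpa only [bar_hk] using (T.all x).grp.pr_Tv (in_hk va va hf))

lemma pr_box (G : GRP c) {O : Set V} (hf : In O f) :
    Pr (c.N O) c.Om (c.l (box f)) (c.l (bar (box f))) := by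
  have e : ∀ f, IsTest f → c.l (box f) = ((3⁻¹ : ℝ) : ℂ) • c.Th f := fun f hf => by
    rw [show c.Th f = (3 : ℂ) • c.l (box f) from (c.hl.trace f hf).symm, smul_smul]
    simp
  rw [← P352X.Dd.box_bar (in_dc hf).1, e _ hf.1, e _ (test_bar hf.1)]
  exact (G.pr_Th hf).csmul _

theorem std (T : T3 c) (d1 : D1 c) (x : ℝ) (hr : 0 < r) (hf : In (Rc r 0) f) :
    Pr (c.N (Rc r 0)) c.Om ((c.sh x).l f) ((c.sh x).l (bar f)) := by
  obtain ⟨ell, c0, E⟩ := T.elt
  obtain ⟨Φ, C, h1, h2, h3⟩ := d1 ell c0 E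
  refine (iff_t T E x hf).1 fun Z hZ => ?_
  obtain ⟨b, hb, e⟩ := ex_b E.el (star Z c.Om) (Z c.Om)
  refine sub_eq_zero.1 ((e f hf.1).trans (P352X.Dd.core T.uq hb hr (fun u hu => ?_) h1 h2
    (fun g hg hs => ?_) hf))
  · exact (e _ (test_box hu.1)).symm.trans
      (sub_eq_zero.2 ((iff_t T E x (in_box hu)).2 (pr_box (T.all x).grp hu) Z hZ))
  · exact (h3 r hr.le Z hZ g hg hs).congr fun n =>
      e _ (test_dv _ (test_pf hg (dc_cx (h1 n).1)))

end Dd

variable {D : Type*} [NormedAddCommGroup D] [InnerProductSpace ℂ D]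

/-- **Row DD.** -/
theorem dd_row (c : Ctx D) : T3 c → D1 c → All DD c := fun T d1 x a b r y f ha hb hab hr hf => by
  obtain ⟨L, s, t, hL, hs, ht, h1, h2⟩ := JCa.rl ha hb (hab ▸ one_pos)
  have h3 : s * t = 1 := by
    have := md_LL hL va vb
    rwa [h1, h2, md_smul, md_smul_l, hab, md_ab, mul_one, mul_comm] at this
  have h4 := HM.Rg_img (b := vb) (c := r / s) one_pos hs hL h1
  rw [h2, smul_smul, h3, one_smul, div_one, mul_div_cancel₀ _ hs.ne'] at h4
  have h5 : ∀ x, x ∈ Rc (r / s) 0 ↔ sim 1 L y x - y ∈ HM.Rg a b r := fun x => by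
    rw [HM.sim_at 1 L y, add_sub_cancel_right, ← h4, Rc, mem_setOf_eq, sub_zero]
    exact (Function.Injective.mem_set_image fun u v k => by
      rw [← linv_sim u hL, k, linv_sim v hL]).symm
  have h6 := T.grp.pr_ug (O' := {z | z - y ∈ HM.Rg a b r}) (Dd.std T d1 x (div_pos hr hs)
    (in_mono (in_sim one_pos hL y hf) fun x hx => (h5 x).2 hx)) y one_pos hL fun x hx => (h5 x).1 hx
  have h7 := fun g hg => (T.all x).grp.pot1 L y g hL hg
  exact h6.cast (h7 f hf.1).symm (h7 _ (test_bar hf.1)).symm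

end Vale.Agent.P352L

end
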