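import Vale.Agent.P352X.R.EE
import Vale.Agent.P352L.R.EE.A

/-!
# P352L, row EE: the operators `K_y` are quadratic along `b` (helper69)
-/

set_option linter.all false

open MeasureTheory Filter Topology Set
open scoped SchwartzMap ComplexConjugate ContDiff

namespace Vale.Agent.P352L

open Vale.Agent.P352X Vale.Agent.P352X.EE
open Vale.Agent.P352 Vale.Agent.P352.GF Vale.Agent.P352.BW Vale.Agent.P352.H246
open Vale.Agent.P352.H496 Vale.Agent.P352.H755 Vale.Agent.P352.H15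
open Vale.Agent.P132 (jconj)
open UniformSpace (Completion)

noncomputable section

namespace EE

variable {D : Type*} [NormedAddCommGroup D] [InnerProductSpace ℂ D] {c : Ctx D}
  {X X' : Completion D →L[ℂ] Completion D} {u0 A L t : ℝ} {R : ℝ → ℝ} {k : Completion D}

/-- the rows that are used -/
structure Use (c : Ctx D) : Prop where
  grp : All GRP c
  f2 : All F2 c
  dd : All DD c
  bas : BAS c.toBase
  jc : JC c
  kd : KD c
  good : GOOD c
  bb : BBrun c

theorem ward (T : Use c) (h0 : 0 ≤ u0) (hA : 2 * u0 + 10 ≤ A)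
    (hX : X ∈ c.N (dc (pt (3 * A) (-A) 0) 1)) (hX' : X' ∈ c.N (dc (pt A (-A) 0) 1))
    (hk : Gn (Pb c.Q) (X c.Om) k) (hR : ContDiff ℝ ∞ R) (R0 : ∀ t ≤ -u0, R t = 0)
    (R1 : ∀ t ≥ u0, R t = 1) :
    Tendsto (fun L => lam ((jconj c.J X' * X) c.Om) (star (jconj c.J X' * X) c.Om)
      (TT (rn c L) va vb (tp (uL L) (vL (32 * A * L)) (deriv R)))) atTop
      (𝓝 (-inner ℂ (star (jconj c.J X') c.Om) k)) := by
  have A0 : 0 < A := by linarith
  have ts : Tst fun t => (1 - R t) * sg u0 A t := Ap.cs_mul_l (contDiff_const.sub hR) tst_sg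
  have f := nul_f (Z := jconj c.J X' * X) T.grp.zero T.bas
    (ad_T T.grp (fun _ => sc_b) fun _ => sc_b) ts (W := fun L => vL (32 * A * L))
    (tst_vL (M := 32 * A) (by positivity)) fun L hL x => by
      rw [vL_sc hL, ← mul_inv, Real.mul_self_sqrt hL.le]
  have w : ∀ z, z ∈ Wdg va vb (pt (-1) (u0 + 2) 0) ↔ be z < u0 + 2 ∧ -1 < al z := fun z => by
    simp only [Wdg, mem_setOf_eq, md_va, md_vb, be_sub, al_sub, be_pt, al_pt, sub_neg, sub_pos]
  have s : dc (pt (3 * A) (-A) 0) 1 ⊆ Wdg va vb (pt (-1) (u0 + 2) 0) := fun z hz => (w z).2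
    ⟨by linarith [(abs_le.1 (dc_Bx' hz).2.1).2], by linarith [(abs_le.1 (dc_Bx' hz).1).1]⟩
  have y := comm_Y T.jc hX' null_vb null_va (by simp [md_vb]) (s := -1) (t := u0 + 2)
    (fun z hz => by
      rw [md_va, md_vb, al_jr, be_jr]
      exact ⟨by linarith [(abs_le.1 (dc_Bx' hz).1).1], by linarith [(abs_le.1 (dc_Bx' hz).2.1).2]⟩)
    fun z hz => (w z).1 hz
  have := f.sub_const (inner ℂ (star (jconj c.J X') c.Om) k)
  rw [zero_sub] at this
  refine this.congr' ?_
  filter_upwards [eventually_ge_atTop (4 * A)] with L hL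
  have L0 : 0 < L := by linarith
  have tv : Tst (vL (32 * A * L)) := tst_vL (by positivity)
  have t1 := test_tp (tst_uL L0) tv (tst_dR hR R0 R1)
  have t2 := test_tp (tst_fL L0) tv ts
  have p := T.f2 (Real.log L / 2) _ 1 va vb _ _ _ (fun _ => GF.one) (fun e => e • vb)
    (fun _ => vb) X k one_pos null_va null_vb (by simp [md_va]) hX (chg h0 hA hL hR R0 R1) s
    ((Ap.tsupp_sub (K := {z | be z ≤ u0 + 1 ∧ -1 / 2 ≤ al z})
      ((isClosed_le cont_be continuous_const).inter (isClosed_le continuous_const cont_al))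
      fun z h => ⟨not_lt.1 fun k => right_ne_zero_of_mul h (sg0 k), (uL_ne (by linarith)
        (left_ne_zero_of_mul (left_ne_zero_of_mul h))).1⟩).trans fun z h => (w z).2
      ⟨by linarith [h.1], by linarith [h.2]⟩) rfl (zero_smul _ _) (fun _ => H496.isLor_one)
    (fun n z => by
      simpa [sim, GF.one, bas] using (hasDerivAt_id (0 : ℝ)).mul_const (vb n)) hk _ y
  have e : (rn c L).Tv (dens (ch u0 A L) (Xi R L) fun _ => vb) =
      TT (rn c L) va vb (tp (uL L) (vL (32 * A * L)) (deriv R)) -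
        TT (rn c L) vb vb (tp (fL L) (vL (32 * A * L)) fun t => (1 - R t) * sg u0 A t) := by
    have q := fun m n => (congrArg (fun f => (rn c L).T m n f c.Q.vac)
      (dens_eq h0 hA hL hR R0 R1 m n)).trans (c.Q.lin _ _ _ _ _
        (c.Q.bose_fld _ ((rn c L).hT.bose m n)) (Ap.sw_cmul _ t1) (Ap.sw_cmul _ t2))
    simp only [TT, Ctx.Tv, Ctx.Tf, q, neg_smul, one_smul, ← sub_eq_add_neg, Finset.sum_sub_distrib,
      Completion.coe_sub]
  rw [inner_add_right, star_inner X, comm_apply (c.hN.mono _ _ s X hX) y, ← star_inner X] at p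
  rw [eq_sub_iff_add_eq.1 e |>.symm, map_add, lam_apply _ _ ((rn c L).Tv _), star_mul,
    ContinuousLinearMap.mul_apply, ContinuousLinearMap.mul_apply, ← p]
  ring

theorem key (T : Use c) (h0 : 0 ≤ u0) (hA : 2 * u0 + 10 ≤ A)
    (hX : X ∈ c.N (dc (pt (3 * A) (-A) 0) 1)) (gX : c.Good X)
    (hX' : X' ∈ c.N (dc (pt A (-A) 0) 1)) (gX' : c.Good X')
    (hk : Gn (Pb c.Q) (X c.Om) k) (hR : ContDiff ℝ ∞ R) (R0 : ∀ t ≤ -u0, R t = 0)
    (R1 : ∀ t ≥ u0, R t = 1) :
    ∫ u, ((deriv (deriv (deriv R)) u : ℝ) : ℂ) * inner ℂ (star (jconj c.J X') c.Om)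
      (gen (c.Ky (u • vb)) (X c.Om)) = 4 * inner ℂ (star (jconj c.J X') c.Om) k := by
  have A0 : 0 < A := by linarith
  have t1 := tst_dR hR R0 R1
  have t3 := tst_d (tst_d t1)
  have s1 : tsupport (deriv R) ⊆ Icc (-u0) u0 := Ap.tsupp_sub isClosed_Icc (dR R0 R1)
  have tk : Tst fun t => kp t * kp (-t) := tst_of (by fun_prop) (-2) 2
    (fun t h => by rw [kp0 (t := -t) (by linarith), mul_zero]) fun t h => by rw [kp0 h.le, zero_mul]
  have t0 : Tst (vL (32 * A)) := tst_vL (by positivity)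
  have b := T.bb (u0 + 1) 1 _ 1 _ 1 X X' chi (k3 (fun t => kp t * kp (-t)) (vL (32 * A))) _ 0 one_pos
    one_pos one_pos (fun z hz => ⟨by linarith [(abs_le.1 (dc_Bx' hz).2.1).2],
      by linarith [(abs_le.1 (dc_Bx' hz).1).1]⟩) (fun z hz => ⟨by
      linarith [(abs_le.1 (dc_Bx' hz).2.1).2], by linarith [(abs_le.1 (dc_Bx' hz).1).1]⟩)
    hX gX hX' gX' sm_chi (fun _ => chi0) (fun _ => chi1) ⟨Ap.cs_prod tk t0, by
      filter_upwards [continuous_fst.continuousAt.eventually (Ioo_mem_nhds neg_one_lt_zero one_pos),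
        (by fun_prop : Continuous fun y : P3 => d2 y.2 y.2).continuousAt.eventually
        (eventually_lt_nhds (b := 32 * A) (by simpa using A0))] with y y1 y2
      rw [k3, kp1 y1.2.le, kp1 (by linarith [y1.1]), vL1 (by positivity) y2]
      norm_num⟩ t3 ((tsupport_deriv_subset.trans (tsupport_deriv_subset.trans s1)).trans
      (Icc_subset_Ioo (by linarith) (by linarith)))
  simp only [tv_zero, zero_add, sub_zero] at b
  have w := (wn T.grp.zero T.bas (φ0 := TT c va va) (fun L => dis_T (c := rn c L) va va)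
    (fun _ => perp_Tv T.grp.zero va va)
    (fun L hL _ => sc_T T.grp.zero hL (sc_a hL) (sc_a hL)) tk (tst_q t0) t3
    (U := fun L t => kp (t / L) * kp (-(t / L))) (W := fun L x => d2 x x * vL (32 * A * L) x)
    fun L hL t x => by
      have L0 := one_pos.trans_le hL
      rw [vL_sc L0, d2_smul, d2_smul_l, ← mul_assoc _ _ (d2 x x), ← mul_inv,
        Real.mul_self_sqrt L0.le]
      field_simp) (star (jconj c.J X' * X) c.Om)
  have := (w.sub (nul_main T.grp T.bas (fun L hL z => sp T.jc T.dd hA hX hX' hL) A0 t1 s1)).sub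
    ((ward T h0 hA hX hX' hk hR R0 R1).const_smul (4 : ℝ))
  refine tendsto_nhds_unique_of_eventuallyEq b (this.trans_eq ?_) ?_
  · simp
  filter_upwards [eventually_ge_atTop (1 : ℝ)] with L hL
  have L0 := one_pos.trans_le hL
  have tv := tst_q (tst_vL (M := 32 * A * L) (by positivity))
  have e0 : ∀ t, chi t * (kp (t / L) * kp (-(t / L))) = uL L t := fun t => by
    rcases le_total t (-1 / 2) with h | h
    · rw [uL, chi0 h, zero_mul, zero_mul]
    · rw [uL, kp1 (t := -(t / L)) (neg_le.1 ((le_div_iff₀ L0).2 (by linarith))), mul_one]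
  have tkL : Tst fun t => kp (t / L) * kp (-(t / L)) := by
    simpa only [smul_eq_mul, div_eq_inv_mul] using! Ap.cs_smul (inv_ne_zero L0.ne') tk
  have e1 := (dis_T (c := rn c L) va va).tp (U := fun t => (1 - chi t) * (kp (t / L) * kp (-(t / L))))
    (W := fun x => d2 x x * vL (32 * A * L) x) (-1) tkL tv (tst_uL L0) tv t3 fun t x => by
      rw [← e0]; ring
  rw [neg_one_smul, ← sub_eq_add_neg] at e1
  rw [sub_sub, ← map_smul, ← map_add, sub_add_cancel, lam_apply, ← sub_add, add_comm,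
    ← inner_sub_right, ← e1, star_mul, ContinuousLinearMap.mul_apply, ContinuousLinearMap.mul_apply]
  unfold Ctx.om2
  congr 3 <;> funext m n z
  · simp only [bar, P352X.hk, pr, kL, k3, tp_apply, pl_1, pl_2, vL_sc L0, ← e0, star_mul',
      Complex.star_def, Complex.conj_ofReal]
    push_cast
    ring
  · simp only [P352X.hk, pr, kL, k3, tp_apply, pl_1, pl_2, vL_sc L0]
    push_cast
    ring

/-! ### good operators -/

lemma good_dom (g : GRP c) (h : c.Good X) : Dm (Bo c.Q) (X c.Om) ∧ Dm (Pb c.Q) (X c.Om) := by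
  have h1 := (CK.Smv.smooth_app h (contDiff_const (c := c.Om))).differentiable (by simp)
  have e1 : ∀ t, Bo c.Q t c.Om = c.Om := fun _ => g.vac _ _ _
  have e2 : ∀ t, Pb c.Q t c.Om = c.Om := fun _ => g.vac _ _ _
  have e3 : ∀ t, Gb c.Q t c.Om = c.Om := fun _ => g.vac _ _ _
  simp only [ContinuousLinearMap.mul_apply, e1, e2, e3] at h1
  exact ⟨by simpa only [Dm, Function.comp_def, g.ugPb.zero, g.ugGb.zero] using
      (h1 _).comp (0 : ℝ) (f := fun t => (t, 0, 0)) (by fun_prop),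
    by simpa only [Dm, Function.comp_def, g.ugB.zero, g.ugGb.zero] using
      (h1 _).comp (0 : ℝ) (f := fun t => (0, t, 0)) (by fun_prop)⟩

lemma good_star (g : GRP c) (h : c.Good X) : c.Good (star X) := by
  have h1 := (starL' ℝ (A := Completion D →L[ℂ] Completion D)).contDiff.comp h
  simpa only [Base.Good, Function.comp_def, starL'_apply, star_mul, g.ugB.star_eq, g.ugPb.star_eq,
    g.ugGb.star_eq, neg_neg, mul_assoc] using h1

lemma gn_b (g : GRP c) (u : ℝ) {v a b : Completion D} (ha : Gn (Pb c.Q) v a)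
    (hb : Gn (Bo c.Q) v b) :
    Gn (Bo c.Q) (Pb c.Q (-u) v) (Pb c.Q (-u) b + u • Pb c.Q (-u) a) := by
  simpa only [neg_mul_neg, one_mul] using g.ugPb.scal_shift g.ugB g.bo_pb ha hb (-u)

theorem shift (g : GRP c) (kd : KD c) {y : V} {r d0 : ℝ} (hd : 0 < d0)
    (h : dc y r ⊆ {z | be z < -u0 ∧ d0 < al z}) (hX : X ∈ c.N (dc y r)) (hG : c.Good X) :
    (∀ u ∈ Icc (-u0) u0, Dm (c.Ky (u • vb)) (X c.Om)) ∧
      ContinuousOn (fun u : ℝ => gen (c.Ky (u • vb)) (X c.Om)) (Icc (-u0) u0) := by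
  obtain ⟨r0, p, q⟩ := CK.Kp.ex_cone hd h 0
  simp only [tv_zero, zero_add, ← neg_smul] at q
  obtain ⟨C, hC⟩ := kd.a r0 p
  obtain ⟨v1, v2⟩ := good_dom g hG
  set v := X c.Om
  set w := star X c.Om
  let β := fun u : ℝ => Pb c.Q (-u) (gen (Bo c.Q) v) + u • Pb c.Q (-u) (gen (Pb c.Q) v)
  have pr : ∀ u ∈ Icc (-u0) u0, Pr (c.N (Rc r0 0)) c.Om (Pb c.Q (-u) v) (Pb c.Q (-u) w) :=
    fun u hu => g.pr_ut (.of_mem hX) _ (q u hu)
  have gb : ∀ u, Gn (Bo c.Q) (Pb c.Q (-u) v) (β u) := fun u => gn_b g u v2.gn v1.gn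
  have dk : ∀ u ∈ Icc (-u0) u0, Dm c.SK (Ut c.Q (-(u • vb)) v) := fun u hu =>
    neg_smul u vb ▸ (hC _ _ (pr u hu) (gb u).dm).1
  have cp : ∀ z, Continuous fun u : ℝ => Pb c.Q (-u) z := g.ugPb.neg.cont
  have cb : Continuous β := (cp _).add (continuous_id.smul (cp _))
  refine ⟨fun u hu => (g.dm_Ky _).2 (dk u hu), fun u' hu' => ?_⟩
  have h1 : ContinuousWithinAt (fun u => gen c.SK (Ut c.Q (-(u • vb)) v)) (Icc (-u0) u0) u' := by
    refine tendsto_iff_norm_sub_tendsto_zero.2 (squeeze_zero' (.of_forall fun _ => norm_nonneg _)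
      (eventually_mem_nhdsWithin.mono fun u hu => ?_) (tendsto_nhdsWithin_of_tendsto_nhds
      (Continuous.tendsto' (f := fun u => C * (‖Pb c.Q (-u) v - Pb c.Q (-u') v‖ +
        ‖Pb c.Q (-u) w - Pb c.Q (-u') w‖ + ‖β u - β u'‖)) ?_ _ _ (by simp))))
    · have := (hC _ _ ((pr u hu).sub (pr u' hu')) ((gb u).sub (gb u')).dm).2
      rw [((gb u).sub (gb u')).gen_eq] at this
      rw [← gen_sub (dk u hu) (dk u' hu'), ← neg_smul, ← neg_smul]
      exact this
    · have := cp v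
      have := cp w
      fun_prop
  refine ContinuousWithinAt.congr (f := fun u => Ut c.Q (u • vb) (gen c.SK (Ut c.Q (-(u • vb)) v)))
    ?_ (fun u hu => g.gen_Ky _ (dk u hu)) (g.gen_Ky _ (dk u' hu'))
  exact tendsto_apply (.of_forall fun _ => g.ug_opn _ _ _) h1
    (g.ut_cont (by fun_prop) continuous_const).continuousWithinAt

lemma tri (t : Use c) {a u : Fin 3 → ℝ}
    (hu : ∀ i, u i ∈ Ioo (-u0) u0) (h0 : ∑ i, a i = 0) (h1 : ∑ i, a i * u i = 0)
    (h2 : ∑ i, a i * u i ^ 2 = 2) {ψ : Completion D} (hK : ∀ i, Dm (c.Ky (u i • vb)) ψ)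
    (hP : Dm (Pb c.Q) ψ) :
    ∑ i, (a i : ℂ) • gen (c.Ky (u i • vb)) ψ = (4 : ℂ) • gen (Pb c.Q) ψ := by
  have g := t.grp.zero
  have k0 : 0 < u0 := by linarith [(hu 0).1, (hu 0).2]
  set A := 2 * u0 + 10
  have sub : dc (pt (3 * A) (-A) 0) 1 ⊆ {z | be z < -u0 ∧ 1 < al z} := fun z hz => by
    obtain ⟨b1, b2, -⟩ := dc_Bx' hz
    exact ⟨by linarith [(abs_le.1 b2).2], by linarith [(abs_le.1 b1).1]⟩
  refine (t.good.dense (pt (3 * A) (-A) 0) 1 one_pos).eq_of_inner_right ℂ ?_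
  rintro _ ⟨X, hX, gX, rfl⟩
  have v2 := (good_dom g gX).2
  obtain ⟨dk, cn⟩ := shift g t.kd one_pos sub hX gX
  have e : ∑ i, (a i : ℂ) • gen (c.Ky (u i • vb)) (X c.Om) = (4 : ℂ) • gen (Pb c.Q) (X c.Om) := by
    refine c.J.injective ((t.good.dense (pt A (-A) 0) 1 one_pos).eq_of_inner_left ℂ ?_)
    rintro _ ⟨Y, hY, gY, rfl⟩
    have := three (continuousOn_const.inner cn)
      (fun R => key t k0.le le_rfl hX gX (star_mem hY) (good_star g gY) v2.gn) hu h0 h1 h2
    rw [jconj_star c.J c.J_J, star_star, P132.jconj_apply, c.J_Om] at this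
    rw [J_left c.J c.J_J, J_left c.J c.J_J (_ • _), inner_sum, inner_smul_right, ← this]
    simp only [inner_smul_right]
  rw [inner_sum, inner_smul_right, g.ugPb.symm v2.gn hP.gn, ← map_ofNat conj 4,
    ← inner_smul_left, ← e, sum_inner]
  refine Finset.sum_congr rfl fun i _ => ?_
  rw [inner_smul_right, inner_smul_left, Complex.conj_ofReal,
    (g.ugKy _).symm (dk _ (Ioo_subset_Icc_self (hu i))).gn (hK i).gn]

end EE

variable {D : Type*} [NormedAddCommGroup D] [InnerProductSpace ℂ D]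

theorem ee_of {c : Ctx D} (t : EE.Use c) : EE c.toBase := fun lo hi ψ hK hP => by
  rcases le_or_gt hi lo with h | h
  · exact ⟨0, 0, fun u hu => absurd (hu.1.trans hu.2) (not_lt.2 h)⟩
  obtain ⟨u1, a1, b1⟩ := exists_between h
  obtain ⟨u2, a2, b2⟩ := exists_between b1
  set E := fun u : ℝ => gen (c.Ky (u • vb)) ψ
  set P := gen (Pb c.Q) ψ
  have n0 : (u2 - u1 : ℂ) ≠ 0 := by exact_mod_cast (sub_pos.2 a2).ne'
  refine ⟨(u2 - u1 : ℂ)⁻¹ • ((u2 : ℂ) • E u1 - (u1 : ℂ) • E u2) + (2 * u1 * u2 : ℂ) • P,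
    (u2 - u1 : ℂ)⁻¹ • (E u2 - E u1) - (2 * (u1 + u2) : ℂ) • P, fun u hu => ?_⟩
  show E u = _
  by_cases e1 : u = u1
  · subst e1
    match_scalars <;> field_simp <;> ring
  by_cases e2 : u = u2
  · subst e2
    match_scalars <;> field_simp <;> ring
  have n0' := (sub_pos.2 a2).ne'
  have n1 := sub_ne_zero.2 e1
  have n2 := sub_ne_zero.2 e2
  have m : ∀ i, ![u, u1, u2] i ∈ Ioo lo hi := fun i => by
    fin_cases i
    exacts [hu, ⟨a1, b1⟩, ⟨a1.trans a2, b2⟩]
  have := EE.tri t (u0 := |lo| + |hi|) (u := ![u, u1, u2])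
    (a := ![2 / ((u - u1) * (u - u2)), 2 / ((u - u1) * (u2 - u1)), -2 / ((u - u2) * (u2 - u1))])
    (fun i => ⟨by linarith [(m i).1, neg_abs_le lo, abs_nonneg hi],
      by linarith [(m i).2, le_abs_self hi, abs_nonneg lo]⟩)
    (by simp only [Fin.sum_univ_three, Matrix.cons_val]; field_simp; ring)
    (by simp only [Fin.sum_univ_three, Matrix.cons_val]; field_simp; ring)
    (by simp only [Fin.sum_univ_three, Matrix.cons_val]; field_simp; ring) (fun i => hK _ (m i)) hP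
  simp only [Fin.sum_univ_three, Matrix.cons_val] at this
  have n1' : (u - u1 : ℂ) ≠ 0 := by exact_mod_cast n1
  have n2' : (u - u2 : ℂ) ≠ 0 := by exact_mod_cast n2
  linear_combination (norm := match_scalars <;> field_simp <;> ring)
    ((u - u1) * (u - u2) / 2 : ℂ) • this

/-- **row EE** -/
theorem ee_row (c : Ctx D) : T3 c → BBrun c → All DD c → EE c.toBase := fun t bb dd =>
  ee_of ⟨fun x => (t.all x).grp, fun x => (t.all x).f2, dd, t.bas, t.jc, t.kd, t.good, bb⟩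

end

end Vale.Agent.P352L
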