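import Vale.Agent.P352L.F.Tail

/-!
# P352L, rows FAR, RESL, IX (helper72)
-/

set_option linter.all false

open Filter Topology

namespace Vale.Agent.P352L

noncomputable section

variable {D : Type*} [NormedAddCommGroup D] [InnerProductSpace ℂ D] (c : Ctx D) [Fact c.tp]

/-- row FAR -/
theorem far_row (t : T3 c) : FAR c where
  far κ ρ Ψ h1 h2 h3 h4 := by
    simpa only [pow_one, Fx.X] using (Fx.ord0 t).far.far κ ρ Ψ h1 h2 h3 h4
  farh κ ρ Ψ h1 h2 h3 h4 := by
    simpa only [pow_zero, one_mul, Fx.X] using (Fx.ordh t).far.far κ ρ Ψ h1 h2 h3 h4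
  side u0 κ ρ Ψ h1 h2 h3 h4 h5 := by
    simpa only [pow_one, Fx.X] using (Fx.ord0 t).side h1 h2 h3 h4 h5

/-- row RESL -/
theorem resl_row (t : T3 c) (_ : FAR c) (h : RESW c) : RESL c := by
  have a := Fx.tww_eq c
  have b := (Fx.ordh t).far.far
  have d := (Fx.ord0 t).far.far
  unfold RESW at h
  unfold RESL
  generalize c.tw0 = x at a d ⊢
  generalize c.twh = y at a b
  generalize c.tww = z at a h
  exact fun _ _ _ _ _ _ h1 hκ h3 hρ hθ hϑ o1 o2 => Fx.wred a b d h h1 hκ h3 hρ hθ hϑ o1 o2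

/-- row IX -/
theorem ix_row (t : T3 c) (_ : FAR c) : IX c := by
  have a := Fx.ix (Fx.inv0 t) (Fx.ord0 t).far
  unfold IX
  generalize c.tw0 = x at a ⊢
  exact a

end

end Vale.Agent.P352L
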