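import Vale.Agent.P352X.R.YZ
import Vale.Agent.P352L.Spec2

/-!
# P352L, row FZ: the faces tend to zero (helper55)
-/

set_option linter.all false

open MeasureTheory Filter Topology Set Function
open scoped SchwartzMap ComplexConjugate ContDiff

namespace Vale.Agent.P352L

open Vale.Agent.P352X
open Vale.Agent.P352 Vale.Agent.P352.GF Vale.Agent.P352.BW Vale.Agent.P352.H246
open Vale.Agent.P352.H496 Vale.Agent.P352.H755 Vale.Agent.P352.H15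
open Ap
open Yz (V3 s1 s2 tst_sw3 Fl apx err pos tri uu tst_t tst_uu ex_k ex_r)

noncomputable section

namespace Fz

/-! ### the exchange of the outer legs -/

def s3 : V3 ≃L[ℝ] V3 := s1.trans (s2.trans s1)

def sw : S3 →L[ℂ] S3 := SchwartzMap.compCLMOfContinuousLinearEquiv ℂ s3

theorem sw_dD (v : V3) (F : S3) : dD v (sw F) = sw (dD (s3 v) F) := by
  ext z
  rw [dD_eq]
  show fderiv ℝ (F ∘ s3) z v = dD (s3 v) F (s3 z)
  rw [dD_eq, ContinuousLinearEquiv.comp_right_fderiv]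
  rfl

theorem sw_hD {e e' : V →L[ℝ] V3} (h : ∀ v, s3 (e v) = e' v) (I : I2) (F : S3) :
    hD e I (sw F) = sw (hD e' I F) := by
  simp only [hD, bD, pD, ContinuousLinearMap.add_apply, ContinuousLinearMap.smul_apply,
    ContinuousLinearMap.mul_apply, ContinuousLinearMap.sum_apply, sw_dD, h, map_add, map_smul,
    map_sum]

theorem hD_cm {e : V →L[ℝ] V3} {A : S3 →L[ℂ] S3} (h : ∀ v, Commute (dD v) A) (I : I2) :
    Commute (hD e I) A :=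
  (((h _).mul_left (h _)).smul_left _).add_left
    ((Commute.sum_left _ _ _ fun m _ => ((h _).mul_left (h _)).smul_left _).smul_left _)

theorem hD_comm (e e' : V →L[ℝ] V3) (I K : I2) : hD e I * hD e' K = hD e' K * hD e I :=
  hD_cm (fun v => (hD_cm (fun w => dD_comm w v) K).symm) I

variable {D : Type*} [NormedAddCommGroup D] [InnerProductSpace ℂ D] (c : Ctx D)

theorem t_sw [Fact c.tp] (I J K : I2) (F : S3) : c.t I J K (sw F) = c.t K J I F := by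
  let F1 := SchwartzMap.compCLMOfContinuousLinearEquiv ℂ s1 F
  let F2 := SchwartzMap.compCLMOfContinuousLinearEquiv ℂ s2 F1
  exact ((c.hTP.swap1 _ K J I _ F1 fun _ _ _ => rfl).trans ((c.hTP.swap2 _ J K I F1 F2
    fun _ _ _ => rfl).trans (c.hTP.swap1 _ J I K F2 _ fun x y z => rfl))).symm

theorem tw_sw [Fact c.tp] (J : I2) (F : S3) : c.tw J (sw F) = c.tw J F := by
  simp only [Ctx.tw, ContinuousLinearMap.sum_apply, ContinuousLinearMap.comp_apply]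
  rw [Finset.sum_comm]
  refine Finset.sum_congr rfl fun I _ => Finset.sum_congr rfl fun K _ => ?_
  rw [hD_comm j1 j3 I K]
  simp only [ContinuousLinearMap.mul_apply]
  rw [sw_hD (e := j3) (e' := j1) (fun _ => rfl), sw_hD (e := j1) (e' := j3) (fun _ => rfl), t_sw]

theorem tw0_sw [Fact c.tp] (F : S3) : c.tw0 (sw F) = c.tw0 F := by
  simp only [Ctx.tw0, ContinuousLinearMap.sum_apply, ContinuousLinearMap.smul_apply, tw_sw]

variable (t : S3 →L[ℂ] ℂ) (P : Fn → Fn → ℂ)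

/-- `t` on real functions -/
def ta (F : V3 → ℝ) : ℂ := t (sch fun z => (F z : ℂ))

variable {F G : V3 → ℝ}

theorem ta_add (hF : Tst F) (hG : Tst G) : ta t (fun z => F z + G z) = ta t F + ta t G := by
  simp only [ta, Complex.ofReal_add, sch_add (tst_sw hF) (tst_sw hG), map_add]

theorem ta_mul (a : ℝ) (hF : Tst F) : ta t (fun z => a * F z) = a * ta t F := by
  simp only [ta, Complex.ofReal_mul, sch_cmul _ (tst_sw hF), map_smul, smul_eq_mul]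

theorem ta_sum {ι : Type} {s : Finset ι} {F : ι → V3 → ℝ} (hF : ∀ i, Tst (F i)) :
    ta t (fun z => ∑ i ∈ s, F i z) = ∑ i ∈ s, ta t (F i) := by
  simp only [ta, Complex.ofReal_sum, sch_sum fun i _ => tst_sw (hF i), map_sum]

theorem ta_sw (h : ∀ F, t (sw F) = t F) (hF : Tst F) :
    ta t (fun z => F (z.2.2, z.2.1, z.1)) = ta t F := by
  have e : (sch fun z : V3 => (F (z.2.2, z.2.1, z.1) : ℂ)) = sw (sch fun z => (F z : ℂ)) := by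
    ext z
    rw [sch_tst (tst_sw3 hF)]
    exact (sch_tst hF (z.2.2, z.2.1, z.1)).symm
  rw [ta, e, h, ta]

/-- `CONT` for a functional `t` and a plane form `P` -/
structure Cg : Prop where
  lo : ∀ (κ f g : P3 → ℝ) (ρ θ1 θ φ : ℝ → ℝ), Cut κ → Tst f → Tst g → Tst ρ →
    tsupport ρ ⊆ Set.Icc (-1 / 2) (1 / 2) → Tst θ1 → Bump θ → Tst φ → tsupport φ ⊆ Set.Iio 0 →
    (∀ η > 0, ∀ᶠ δ in 𝓝[>] (0 : ℝ), ∀ᶠ L in atTop, ‖t (triF κ f g ρ θ1 φ δ L) -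
      (∫ t, ρ t : ℝ) * P (pr f (abv θ1 θ δ)) (pr g φ)‖ ≤ η) ∧
    Tendsto (fun δ : ℝ => (δ : ℂ) * P (pr f (abv θ1 θ δ)) (pr g φ)) (𝓝[>] 0) (𝓝 0)
  hi : ∀ (κ f g : P3 → ℝ) (ρ θ1 θ φ : ℝ → ℝ), Cut κ → Tst f → Tst g → Tst ρ →
    tsupport ρ ⊆ Set.Icc (-1 / 2) (1 / 2) → Tst θ1 → Bump θ → Tst φ → tsupport φ ⊆ Set.Ioi 0 →
    (∀ η > 0, ∀ᶠ δ in 𝓝[>] (0 : ℝ), ∀ᶠ L in atTop, ‖t (triF κ f g ρ θ1 φ δ L) -
      (∫ t, ρ t : ℝ) * P (pr g φ) (pr f (blw θ1 θ δ))‖ ≤ η) ∧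
    Tendsto (fun δ : ℝ => (δ : ℂ) * P (pr g φ) (pr f (blw θ1 θ δ))) (𝓝[>] 0) (𝓝 0)

/-- `RESL` for a functional `t` -/
def Rg : Prop := ∀ (ρ1 κ κ3 : P3 → ℝ) (ρ2 θ1 θ3 : ℝ → ℝ), Tst ρ1 → Cut κ → Tst κ3 →
  Tst ρ2 → Tst θ1 → Tst θ3 → (∀ y ∈ tsupport ρ1, ∀ᶠ x in 𝓝 y, κ3 x = 1) →
  (∀ t ∈ tsupport ρ2, (∀ᶠ x in 𝓝 t, θ1 x = 1) ∧ ∀ᶠ x in 𝓝 t, θ3 x = 1) →
  Tendsto (fun L : ℝ => t (sch fun z : V × V × V => ((Ph6 z.1 z.2.1 z.2.2 * ρ1 (pl z.1) *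
    ρ2 (be z.2.1) * kL κ L (pl z.2.1) *
    (2 * (be z.1 - be z.2.1) * deriv θ1 (be z.1) * θ3 (be z.2.2) * κ3 (pl z.2.2) +
      2 * (be z.2.2 - be z.2.1) * θ1 (be z.1) * deriv θ3 (be z.2.2) * κ3 (pl z.2.2) +
      θ1 (be z.1) * θ3 (be z.2.2) * dx κ3 (pl z.2.2) (tx z.2.2 - tx z.1)) : ℝ) : ℂ))) atTop (𝓝 0)

/-- `IX` for a functional `t` -/
def Xg : Prop := ∃ N : ℕ, ∀ (ρ1 κ : P3 → ℝ) (k θ ρ : ℝ → ℝ) (k' : R2 → ℝ), Tst ρ1 → Cut κ →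
  Tst k → Tst θ → Tst ρ → Tst k' → (∀ j ≤ N, ∫ t, t ^ j * k t = 0) →
  (∀ y ∈ tsupport ρ1, ∀ᶠ x in 𝓝 y.2, k' x = 1) → tsupport ρ ⊆ Set.Icc (-1) 1 →
  ∀ η > 0, ∀ᶠ ε in 𝓝[>] (0 : ℝ), ∀ δ ∈ Set.Ioc 0 ε, ∀ᶠ L in atTop,
    ‖t (sch fun z : V × V × V => ((Ph6 z.1 z.2.1 z.2.2 * ρ1 (pl z.1) * dlt δ ρ (be z.2.1) *
      (dil ε θ (be z.1) * dil ε θ (be z.2.2) * kL κ L (pl z.2.1) *
        dx (k3 k k') (pl z.2.2) (tx z.2.2 - tx z.1)) : ℝ) : ℂ))‖ ≤ η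

/-! ### the faces -/

/-- two faces -/
def fc (f g : P3 → ℝ) (θ : ℝ → ℝ) (ε δ : ℝ) : ℂ :=
  P (pr f (abv (dil ε θ) θ δ)) (pr g (dil ε (chm θ))) +
    P (pr g (dil ε (chp θ))) (pr f (blw (dil ε θ) θ δ))

section face

variable {t P} {κ f g : P3 → ℝ} {ρ θ θ1 φ : ℝ → ℝ} {p : ℝ × ℝ} {ε : ℝ}

theorem face (h : Cg t P) (hκ : Cut κ) (hf : Tst f) (hg : Tst g) (hρ : Tst ρ)
    (hs : tsupport ρ ⊆ Icc (-1 / 2) (1 / 2)) (hi : ∫ t, ρ t = 1) (hθ : Bump θ) (hε : 0 < ε) :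
    Tendsto (fun p => ta t (uu κ f g ρ (dil ε θ) p) + 2 * fc P f g θ ε p.1) Fl (𝓝 0) := by
  have h1 := tst_dil hθ.1 hε.ne'
  have hd : ∀ t, |t| < ε → deriv (dil ε θ) t = 0 := fun t ht => by
    rw [deriv_dil, bump_deriv hθ (by rw [abs_div, abs_of_pos hε, div_le_one hε]; exact ht.le),
      zero_div]
  obtain ⟨p1, p2⟩ := tst_pos (cs_deriv h1) hε hd
  obtain ⟨m1, m2⟩ := tst_neg (cs_deriv h1) hε hd
  have p3 := tst_dil (tst_chp hθ) hε.ne'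
  have m3 := tst_dil (tst_chm hθ) hε.ne'
  have hρ' : Tst fun t => t ^ 1 * ρ t := cs_mul_l (by fun_prop) hρ
  have hs' : tsupport (fun t => t ^ 1 * ρ t) ⊆ _ := tsupport_mul_subset_right.trans hs
  have a1 := apx (h.lo κ f g ρ _ θ _ hκ hf hg hρ hs h1 hθ m3 fun t k => by
    have := (div_le_iff₀ hε).1 (show t / ε ≤ -1 from (tsupport_chm hθ (tsupport_dil _ _ k)).1)
    exact show t < 0 by linarith).1
  have a2 := apx (h.hi κ f g ρ _ θ _ hκ hf hg hρ hs h1 hθ p3 fun t k => by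
    have := (le_div_iff₀ hε).1 (show 1 ≤ t / ε from (tsupport_chp hθ (tsupport_dil _ _ k)).1)
    exact show 0 < t by linarith).1
  have a3 := err (h.lo κ f g _ _ θ _ hκ hf hg hρ' hs' h1 hθ m1 fun t k =>
    show t < 0 by linarith [show t ≤ -ε from (m2 k).1])
  have a4 := err (h.hi κ f g _ _ θ _ hκ hf hg hρ' hs' h1 hθ p1 fun t k => hε.trans_le (p2 k).1)
  have := ((a1.add a2).add (a3.add a4)).const_mul (-2)
  simp only [add_zero, mul_zero, hi, Complex.ofReal_one, one_mul] at this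
  refine this.congr' (pos.mono fun p hp => ?_)
  have t1 := tst_t hκ.1 hf hg hρ h1 m3 hp
  have t2 := tst_t hκ.1 hf hg hρ h1 p3 hp
  have t3 := tst_t hκ.1 hf hg hρ' h1 m1 hp
  have t4 := tst_t hκ.1 hf hg hρ' h1 p1 hp
  have e := ta_mul t (-2) (cs_add (cs_add t1 t2) (cs_cmul p.1 (cs_add t3 t4)))
  rw [ta_add t (cs_add t1 t2) (cs_cmul p.1 (cs_add t3 t4)), ta_add t t1 t2,
    ta_mul t _ (cs_add t3 t4), ta_add t t3 t4] at e
  beta_reduce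
  rw [show uu κ f g ρ (dil ε θ) p = _ from funext fun z => ?_, e]
  · simp only [fc, ta, triF, tri]
    push_cast
    ring
  have e1 := chp_add_chm (dil ε θ) (be z.2.2)
  have e2 : ((if 0 < be z.2.2 then deriv (dil ε θ) (be z.2.2) else 0) +
      if be z.2.2 < 0 then deriv (dil ε θ) (be z.2.2) else 0) = deriv (dil ε θ) (be z.2.2) := by
    rcases lt_trichotomy (be z.2.2) 0 with k | k | k
    · simp [k, lt_asymm k]
    · simp [k, hd 0 (by simpa using hε)]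
    · simp [k, lt_asymm k]
  have e3 := pow_dlt hp.1.ne' 1 ρ (be z.2.1)
  rw [chp_dil hε, chm_dil hε] at e1
  simp only [uu, tri]
  let w := d2 (tx z.2.1 - tx z.1) (tx z.2.1 - tx z.2.2) * (f (pl z.1) * dil ε θ (be z.1)) *
    kL κ p.2 (pl z.2.1) * g (pl z.2.2)
  linear_combination (2 * w * dlt p.1 ρ (be z.2.1)) * e1 +
    (2 * w * p.1 * dlt p.1 (fun t => t ^ 1 * ρ t) (be z.2.1)) * e2 -
    (2 * w * deriv (dil ε θ) (be z.2.2)) * e3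

end face

theorem fin {A T R Y : ℂ} {η : ℝ} (a : ‖A‖ < η) (b : ‖T‖ ≤ η) (c : ‖R‖ < η)
    (e : Y = (A + T - R) / 2) : ‖Y‖ ≤ 2 * η := by
  rw [e, norm_div, Complex.norm_two]
  linarith [norm_sub_le (A + T) R, norm_add_le A T, norm_nonneg A]

theorem alg (a X Y U W : Fin 7 → ℂ) (T R : ℂ) (r : R = ∑ j, a j * (X j + Y j) + T) :
    ∑ j, a j * (U j + W j) = (∑ j, a j * (X j + 2 * U j + (Y j + 2 * W j)) + T - R) / 2 := by
  simp only [r, Fin.sum_univ_seven]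
  ring

theorem bin6 (x y : ℝ) : ∑ j : Fin 7, Z.c6 j * (x ^ (6 - (j : ℕ)) * y ^ (j : ℕ)) = (x - y) ^ 6 := by
  simp [Fin.sum_univ_seven, Z.c6]
  ring

theorem pw6 (κ f g : P3 → ℝ) (ρ θ : ℝ → ℝ) (p : ℝ × ℝ) (z : V3) :
    ∑ j : Fin 7, Z.c6 j * (uu κ (ap j g) (ap (6 - j) f) ρ θ p (z.2.2, z.2.1, z.1) +
      uu κ (ap (6 - j) f) (ap j g) ρ θ p z) = Ph6 z.1 z.2.1 z.2.2 * f (pl z.1) *
      dlt p.1 ρ (be z.2.1) * kL κ p.2 (pl z.2.1) *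
      (2 * (be z.1 - be z.2.1) * deriv θ (be z.1) * θ (be z.2.2) * g (pl z.2.2) +
        2 * (be z.2.2 - be z.2.1) * θ (be z.1) * deriv θ (be z.2.2) * g (pl z.2.2)) := by
  rw [Ph6, ← bin6, Finset.mul_sum, Finset.sum_mul, Finset.sum_mul, Finset.sum_mul, Finset.sum_mul]
  refine Finset.sum_congr rfl fun j _ => ?_
  simp only [uu, tri, ap, d2, pl]
  ring

theorem faces_eq (f g : P3 → ℝ) (θ : ℝ → ℝ) (ε δ : ℝ) : Z.Faces6 P f g θ ε δ =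
    ∑ j : Fin 7, (Z.c6 j : ℂ) * (fc P (ap j g) (ap (6 - j) f) θ ε δ +
      fc P (ap (6 - j) f) (ap j g) θ ε δ) :=
  Finset.sum_congr rfl fun j _ => by
    simp only [fc]
    ring

theorem fz (hs : ∀ F, t (sw F) = t F) : Rg t → Xg t → Cg t P → Z.FZ P := by
  rintro hR ⟨N, hX⟩ hC θ hθ
  obtain ⟨k, hk, k0⟩ := ex_k (N + 1)
  obtain ⟨ρ1, r1, -, r3, r4⟩ := ex_r
  obtain ⟨k', q1, -, q2, -⟩ := ex_chi (isCompact_closedBall (0 : R2) 1) isOpen_univ (subset_univ _)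
  obtain ⟨ρ, s1, s2, -, s3⟩ := ex_rho (volume : Measure ℝ)
    (Icc_mem_nhds (by norm_num) (by norm_num) : Icc (-1 / 2 : ℝ) (1 / 2) ∈ 𝓝 0)
  obtain ⟨κ, hκ, -⟩ := ex_cut (univ_mem : univ ∈ 𝓝 (0 : P3))
  have o : ∀ y ∈ tsupport ρ1, (∀ᶠ x in 𝓝 y.1, k x = 1) ∧ ∀ᶠ x in 𝓝 y.2, k' x = 1 := fun y hy => by
    have := mem_ball_zero_iff.1 (r3 hy)
    exact ⟨bump_one hk ((norm_fst_le y).trans_lt this),
      q2 _ (mem_closedBall_zero_iff.2 ((norm_snd_le y).trans this.le))⟩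
  have h3 := tst_k3 hk.1 q1
  have o3 : ∀ y ∈ tsupport ρ1, ∀ᶠ x in 𝓝 y, k3 k k' x = 1 := fun y hy => by
    filter_upwards [continuousAt_fst.eventually (o y hy).1,
      continuousAt_snd.eventually (o y hy).2] with x a b
    rw [k3, a, b, mul_one]
  refine ⟨ρ1, k3 k k', r1, h3, fun y hy => (o3 y hy).self_of_nhds, r4, fun η' hη' => ?_⟩
  obtain ⟨η, hη, rfl⟩ : ∃ η > 0, η' = 2 * η := ⟨η' / 2, half_pos hη', by ring⟩
  filter_upwards [hX ρ1 κ k θ ρ k' r1 hκ hk.1 hθ.1 s1 q1 (fun j hj => k0 j (by omega))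
    (fun y hy => (o y hy).2) (s2.trans (Icc_subset_Icc (by norm_num) (by norm_num))) η hη,
    self_mem_nhdsWithin] with ε b2 hε
  replace hε : 0 < ε := hε
  have h1 := tst_dil hθ.1 hε.ne'
  have f1 := tendsto_finset_sum Finset.univ fun (j : Fin 7) _ =>
    ((face hC hκ (tst_ap j h3) (tst_ap (6 - j) r1) s1 s2 s3 hθ hε).add
    (face hC hκ (tst_ap (6 - j) r1) (tst_ap j h3) s1 s2 s3 hθ hε)).const_mul (Z.c6 j : ℂ)
  simp only [add_zero, mul_zero, Finset.sum_const_zero] at f1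
  filter_upwards [eventually_curry_iff.1 (NormedAddCommGroup.tendsto_nhds_zero.1 f1 η hη),
    Ioc_mem_nhdsGT hε] with δ b4 hδ
  have h2 := tst_dlt s1 hδ.1.ne'
  have o2 : ∀ t ∈ tsupport (dlt δ ρ), ∀ᶠ x in 𝓝 t, dil ε θ x = 1 := fun t ht => by
    obtain ⟨a, b⟩ := tsupport_dlt_Icc s2 hδ.1 ht
    exact (continuous_abs.continuousAt.eventually_lt_const (abs_lt.2 ⟨by linarith [hδ.1, hδ.2],
      by linarith [hδ.1, hδ.2]⟩)).mono fun x j => dil_one_of hθ hε j.le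
  have l3 := hR ρ1 κ (k3 k k') (dlt δ ρ) (dil ε θ) (dil ε θ) r1 hκ h3 h2 h1 h1 o3
    fun t ht => ⟨o2 t ht, o2 t ht⟩
  obtain ⟨L, ⟨⟨b5, b6⟩, b7⟩, hL⟩ := (((b4.and (b2 δ hδ)).and
    (NormedAddCommGroup.tendsto_nhds_zero.1 l3 η hη)).and (eventually_gt_atTop 0)).exists
  have hp : 0 < (δ, L).1 ∧ 0 < (δ, L).2 := ⟨hδ.1, hL⟩
  have u1 := fun j : Fin 7 => tst_uu hκ.1 (tst_ap j h3) (tst_ap (6 - j) r1) s1 h1 hp
  have u2 := fun j : Fin 7 => tst_uu hκ.1 (tst_ap (6 - j) r1) (tst_ap j h3) s1 h1 hp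
  have u3 := fun j : Fin 7 => cs_cmul (Z.c6 j) (cs_add (tst_sw3 (u1 j)) (u2 j))
  have u4 := cs_sum (s := Finset.univ) fun j _ => u3 j
  have t4 : Tst fun z : V3 => Ph6 z.1 z.2.1 z.2.2 * ρ1 (pl z.1) * dlt δ ρ (be z.2.1) *
      (dil ε θ (be z.1) * dil ε θ (be z.2.2) * kL κ L (pl z.2.1) *
        dx (k3 k k') (pl z.2.2) (tx z.2.2 - tx z.1)) := by
    refine (congrArg Tst (funext fun z => ?_)).mpr <| cs_sum (s := Finset.univ) fun i _ => tst_tri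
      (W := fun z => Ph6 z.1 z.2.1 z.2.2 * (tx z.2.2 i - tx z.1 i)) (by unfold Ph6; fun_prop)
      (tst_pr r1 h1) (tst_pr (tst_kL hκ.1 hL) h2) (tst_pr (tst_dx h3 (e2 i)) h1)
    rw [dx_sum]
    simp only [Fin.sum_univ_two, Pi.sub_apply]
    ring
  have r := ta_add t u4 t4
  rw [ta_sum t u3] at r
  simp only [fun j : Fin 7 => ta_mul t (Z.c6 j) (cs_add (tst_sw3 (u1 j)) (u2 j)),
    fun j => ta_add t (tst_sw3 (u1 j)) (u2 j), fun j => ta_sw t hs (u1 j)] at r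
  have b8 : ‖ta t _‖ < η := b7
  have b9 : ‖ta t _‖ ≤ η := b6
  have q := alg _ _ _ (fun j : Fin 7 => fc P (ap j (k3 k k')) (ap (6 - j) ρ1) θ ε δ)
    (fun j : Fin 7 => fc P (ap (6 - j) ρ1) (ap j (k3 k k')) θ ε δ) _ _ r
  rw [faces_eq, q]
  refine fin b5 b9 b8 ?_
  congr 3
  funext z
  rw [pw6]
  ring

end Fz

/-- row FZ -/
theorem fz_row {D : Type*} [NormedAddCommGroup D] [InnerProductSpace ℂ D] (c : Ctx D) [Fact c.tp] :
    T3 c → RESL c → IX c → CONT c → FZ c := by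
  intro _ hR hX hC
  have a : Fz.Rg c.tw0 := by
    unfold Fz.Rg
    unfold RESL at hR
    generalize c.tw0 = t at hR ⊢
    exact hR
  have b : Fz.Xg c.tw0 := by
    unfold Fz.Xg
    unfold IX at hX
    generalize c.tw0 = t at hX ⊢
    exact hX
  have d : Fz.Cg c.tw0 c.PFW := by
    obtain ⟨lo, hi⟩ := hC
    generalize c.tw0 = t at lo hi ⊢
    generalize c.PFW = P at lo hi ⊢
    exact ⟨lo, hi⟩
  exact Fz.fz c.tw0 c.PFW (Fz.tw0_sw c) a b d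

end

end Vale.Agent.P352L
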