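import Vale.Agent.P352L.PartT
import Vale.Agent.P352L.R.TWO

/-!
# P352L, row PART: the members differ by improvement terms (helper97)
-/

set_option linter.all false

open MeasureTheory Filter Topology

namespace Vale.Agent.P352L

namespace Two.Pv

open Vale.Agent.P352.GF Vale.Agent.P352.BW Vale.Agent.P352.H755
open Vale.Agent.P352X Vale.Agent.P352X.Two Vale.Agent.P352L.Part
open UniformSpace (Completion)

noncomputable section

variable {D : Type*} [NormedAddCommGroup D] [InnerProductSpace ℂ D] {c : Bs D} {F : V → ℂ}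

lemma cp_r (hF : Cp Fc F) {u : V → ℝ} (hu : Continuous u) : Cp Fc fun p => F p * (u p : ℝ) :=
  have := Complex.continuous_ofReal.comp hu
  hF.mul this.measurable this.continuousOn

/-- the longitudinal part -/
def Ul (m n b : Ix) (p : V) : ℝ := 3 * mu p * (p m * p n * lo p b - mu p * p n * bas m 1 b -
  mu p * p m * bas n 1 b) + mu p * (mu p * gm (m, n) - p m * p n) * lo p b

lemma cont_Ul (m n b : Ix) : Continuous (Ul m n b) := by unfold Ul lo mu; fun_prop

lemma G2_eq (m n a b : Ix) (p : V) : G2 (bas m (eta m)) (bas n (eta n)) p a b =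
    (bas m 1 a * bas n 1 b + bas n 1 a * bas m 1 b) * (3 * mu p ^ 3) -
      2 * gm (a, b) * (mu p ^ 2 * (mu p * gm (m, n) - p m * p n)) +
      Ul m n b p * lo p a + Ul m n a p * lo p b := by
  have e1 : ∀ m (p : V), mdot (bas m (eta m)) p = p m := fun m p => by
    fin_cases m <;> simp [mdot_eq, bas, eta, o]
  have e2 : ∀ m a, lo (pp p (bas m (eta m))) a = mu p * bas m 1 a - p m * lo p a := fun m a => by
    have : eta a * bas m (eta m) a = bas m 1 a := by
      fin_cases m <;> fin_cases a <;> simp [bas, eta, o]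
    simp only [lo, pp, e1, Pi.sub_apply, Pi.smul_apply, smul_eq_mul]
    linear_combination mu p * this
  have e3 : bas n (eta n) m = gm (m, n) := by
    simp only [gm, bas]
    by_cases e : m = n <;> simp [e, eq_comm]
  rw [Part.G2, pp_pp, e1, e1, e1, e2, e2, e2, e2, e3, Ul, Ul, gm, gm]
  ring

theorem low_con {X : Ix → Ix → Completion D} (hX : X ∈ Low c) (sym : ∀ a b, X a b = X b a)
    (con : ∀ n G, Cp Fc G → ∑ m, c.bt.Phi (fun p => G p * lo p m) (X m n) = 0) (m n : Ix)
    (hF : Cp Fc F) : c.bt.Phi (fun p => F p * (3 * mu p ^ 3 : ℝ)) (X m n) =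
      c.bt.Phi (fun p => F p * (mu p ^ 2 * (mu p * gm (m, n) - p m * p n) : ℝ))
        (∑ a, (eta a : ℂ) • X a a) := by
  have h1 := cp_r hF (u := fun p => 3 * mu p ^ 3) (by unfold mu; fun_prop)
  have h2 := cp_r hF (u := fun p => mu p ^ 2 * (mu p * gm (m, n) - p m * p n))
    (by unfold mu; fun_prop)
  have h3 := fun a => cp_r hF (cont_Ul m n a)
  have h4 := fun a b => cp_r (h3 a) (cont_lo b)
  have e : ∀ a b, c.bt.Phi (fun p => F p * G2 (bas m (eta m)) (bas n (eta n)) p a b) =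
      ((bas m 1 a * bas n 1 b + bas n 1 a * bas m 1 b : ℝ) : ℂ) •
        c.bt.Phi (fun p => F p * (3 * mu p ^ 3 : ℝ)) - ((2 * gm (a, b) : ℝ) : ℂ) •
        c.bt.Phi (fun p => F p * (mu p ^ 2 * (mu p * gm (m, n) - p m * p n) : ℝ)) +
        c.bt.Phi (fun p => F p * Ul m n b p * lo p a) +
        c.bt.Phi (fun p => F p * Ul m n a p * lo p b) := fun a b => by
    rw [← c.bt.smul _ h1.1, ← c.bt.smul _ h2.1, ← c.bt.sub (h1.1.smul _) (h2.1.smul _),
      ← c.bt.add ((h1.1.smul _).sub (h2.1.smul _)) (h4 b a).1,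
      ← c.bt.add (((h1.1.smul _).sub (h2.1.smul _)).add (h4 b a).1) (h4 a b).1]
    congr 1
    funext p
    rw [G2_eq]
    push_cast
    ring
  have z := hX (bas m (eta m)) (bas n (eta n)) F hF
  have z1 : ∑ a, ∑ b, c.bt.Phi (fun p => F p * Ul m n b p * lo p a) (X a b) = 0 :=
    Finset.sum_comm.trans (Finset.sum_eq_zero fun b _ => con b _ (h3 b))
  have z2 : ∑ a, ∑ b, c.bt.Phi (fun p => F p * Ul m n a p * lo p b) (X a b) = 0 :=
    Finset.sum_eq_zero fun a _ => by simpa only [sym a] using con a _ (h3 a)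
  simp only [e, ContinuousLinearMap.add_apply, ContinuousLinearMap.sub_apply,
    ContinuousLinearMap.smul_apply, Finset.sum_add_distrib, Finset.sum_sub_distrib, z1, z2,
    add_zero, ← map_smul, ← _root_.map_sum] at z
  have s1 : ∑ a, ∑ b, ((bas m 1 a * bas n 1 b + bas n 1 a * bas m 1 b : ℝ) : ℂ) • X a b =
      (2 : ℂ) • X m n := by
    simp [bas, add_smul, Finset.sum_add_distrib, ite_smul, two_smul, ← sym m n]
  have s2 : ∑ a, ∑ b, ((2 * gm (a, b) : ℝ) : ℂ) • X a b = (2 : ℂ) • ∑ a, (eta a : ℂ) • X a a := by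
    simp [gm, bas, ite_smul, Finset.smul_sum, mul_smul, apply_ite]
  rw [s1, s2, map_smul, map_smul, ← smul_sub] at z
  exact sub_eq_zero.1 ((smul_eq_zero.1 z).resolve_left two_ne_zero)

variable {TT : ℝ → Ix → Ix → Fld D} {l : ℝ → Fn → Completion D} {n0 : ℕ}

theorem part_fam (hF : Fam c.Q TT n0) (hl : PotF c.Q TT l n0) {α β : ℝ}
    (h : (fun m n => LT hF β ![m, n] gS - LT hF α ![m, n] gS) ∈ Low c) (f : I2 → Sch) :
    ∑ m, ∑ n, (LT hF β ![m, n] (f (m, n)) - LT hF α ![m, n] (f (m, n))) +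
      (LP hl β (∑ I, rD i0 I (f I)) - LP hl α (∑ I, rD i0 I (f I))) = 0 := by
  have b := wt_g0.bd
  have T := st_fam hF
  have S := sl_pot hl
  have bf : ∀ g : Sch, SN.Bd (ft (ev g)) := fun g => bd_ft ⟨g, rfl⟩
  have cf : ∀ {G}, Cp Fc G → ∀ g : Sch, Cp Fc fun p => G p * ft (ev g) p := fun hG g =>
    hG.mul (bf g).1 (P352X.cont_ft ⟨g, rfl⟩).continuousOn
  have r1 : ∀ {G}, Cp Fc G → ∀ (g : Sch) {u v}, c.bt.Phi (ft g0) u = c.bt.Phi (ft (ev g)) v →
      c.bt.Phi (ft g0) (c.bt.Phi G u) = c.bt.Phi (fun p => G p * ft (ev g) p) v :=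
    fun hG g _ _ e => by rw [c.bt.comm b hG.1, e, c.bt.mul_apply hG.1 (bf g)]
  have rl : ∀ g : Sch, c.bt.Phi (ft g0) (LP hl β g - LP hl α g) =
      c.bt.Phi (ft (ev g)) (LP hl β gS - LP hl α gS) := fun g => by
    rw [map_sub, map_sub, S.mul.rel β default g, S.mul.rel α default g]
  have tr : ∑ a, (eta a : ℂ) • (LT hF β ![a, a] gS - LT hF α ![a, a] gS) =
      (3 : ℂ) • (LP hl β (bD i0 gS) - LP hl α (bD i0 gS)) := by
    simp only [smul_sub, Finset.sum_sub_distrib, LP_apply, ev_bD, (hl.st _).trace _ ⟨gS, rfl⟩,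
      P352.GF.tr, coe_sum, Completion.coe_smul, LT_apply]
    rfl
  have key : ∀ m n {G}, Cp Fc G → c.bt.Phi G (LT hF β ![m, n] gS - LT hF α ![m, n] gS) =
      c.bt.Phi (fun p => G p * (p m * p n - mu p * gm (m, n) : ℝ))
        (LP hl β gS - LP hl α gS) := fun m n G hG => by
    have c3 : Continuous fun p => ((3 * mu p ^ 3 : ℝ) : ℂ) := by unfold mu; fun_prop
    have n3 : ∀ p ∈ Fc, (mu p : ℂ) ≠ 0 := fun p hp => by exact_mod_cast ((mem_Fc p).1 hp).2.ne'
    have hG' := hG.mul (minv c3.measurable) (c3.continuousOn.inv₀ fun p hp => by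
      have := n3 p hp
      push_cast
      exact mul_ne_zero three_ne_zero (pow_ne_zero _ this))
    have h2 := cp_r hG' (u := fun p => mu p ^ 2 * (mu p * gm (m, n) - p m * p n))
      (by unfold mu; fun_prop)
    have h3 := cp_r hG (u := fun p => p m * p n - mu p * gm (m, n)) (by unfold mu; fun_prop)
    have e := low_con h (fun a b => by simp only [T.sym _ a b]) (fun n G hG => by
      have := fun τ => (T.sv τ).con n G (fun m => (cp_r hG (cont_lo m)).1) hG.1
      simp only [map_sub, Finset.sum_sub_distrib, lo, this, sub_zero]) m n hG'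
    obtain ⟨-, B, -, g2, g3⟩ := id hG
    have g4 : ∀ p ∉ Fc, G p = 0 := fun p hp => g3 p fun a => hp (g2 a)
    refine Eq.trans (congrArg (c.bt.Phi · _) (funext fun p => ?_)) (e.trans (Phi_inj (c := c) b
      g0_ne ?_))
    · by_cases hp : p ∈ Fc
      · have := n3 p hp
        push_cast
        field_simp
      · simp [g4 p hp]
    rw [tr, map_smul, map_smul, r1 h2 _ (rl _), ← c.bt.mul_apply b h3.1,
      ← ContinuousLinearMap.smul_apply, ← c.bt.smul _ (cf h2 _).1]
    refine congrArg (c.bt.Phi · _) (funext fun p => ?_)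
    rw [ev_bD, P352X.ft_box ⟨gS, rfl⟩, show ev gS = g0 from rfl]
    by_cases hp : p ∈ Fc
    · have := n3 p hp
      push_cast
      field_simp
      ring
    · simp [g4 p hp]
  have pz : ∀ z, c.bt.P Fc z = z → (∀ G, Cp Fc G → c.bt.Phi G z = 0) → z = 0 :=
    fun z a1 a2 => a1.symm.trans (P_zero a2)
  refine pz _ ?_ fun G hG => Phi_inj (c := c) b g0_ne ?_
  · simp only [map_add, map_sub, _root_.map_sum, (SN.Calc.P_eq_self meas_Fc).2 (T.fc _ _ _),
      (SN.Calc.P_eq_self meas_Fc).2 (S.fc _ _)]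
  have rt : ∀ m n (g : Sch), c.bt.Phi (ft g0) (LT hF β ![m, n] g - LT hF α ![m, n] g) =
      c.bt.Phi (ft (ev g)) (LT hF β ![m, n] gS - LT hF α ![m, n] gS) := fun m n g => by
    rw [map_sub, map_sub, T.mul.rel β _ g, T.mul.rel α _ g]
  have h5 := fun I : I2 => cp_r (cf hG (f I)) (u := fun p => p I.1 * p I.2 - mu p * gm I)
    (by unfold mu; fun_prop)
  have := Phi_sum (c := c) (fun _ => 1) (fun I => (h5 I).1) (LP hl β gS - LP hl α gS)
  simp only [one_smul, Fintype.sum_prod_type] at this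
  rw [map_add, map_add, r1 hG _ (rl _), _root_.map_sum, _root_.map_sum, map_zero,
    Finset.sum_congr rfl fun m _ => by rw [_root_.map_sum, _root_.map_sum, Finset.sum_congr rfl
      fun n _ => (r1 hG _ (rt m n _)).trans (key m n (cf hG _))], this,
    ← ContinuousLinearMap.add_apply, ← c.bt.add ?_ (cf hG _).1, ev_RR]
  · refine (congrArg (c.bt.Phi · _) (funext fun p => ?_)).trans (DFunLike.congr_fun c.bt.zero _)
    rw [ft_RR fun m n => ⟨_, rfl⟩, mul_neg, add_neg_eq_zero, Finset.mul_sum]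
    refine Finset.sum_congr rfl fun m _ => ?_
    rw [Finset.mul_sum]
    refine Finset.sum_congr rfl fun n _ => ?_
    have g : mu p * gm (m, n) = if m = n then eta m * mu p else 0 := by
      by_cases h : m = n <;> simp [gm, bas, h, eq_comm, mul_comm]
    rw [g]
    ring
  · exact SN.Bd.sum _ fun m _ => SN.Bd.sum _ fun n _ => (h5 (m, n)).1.smul 1

end

end Two.Pv

open Vale.Agent.P352.GF

/-- **row PART** -/
theorem part_row {D : Type*} [NormedAddCommGroup D] [InnerProductSpace ℂ D] (c : Ctx D) :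
    All T2 c → TP0 c → PART c := fun t ⟨w, hw⟩ x F hF => by
  choose f hf using hF
  obtain rfl : F = fun m n => ev (f m n) := funext₂ fun m n => (hf m n).symm
  have := Two.Pv.part_fam (c := c.bs) c.hF c.hLL (Two.Pv.low_T (c := c.bs) c.hF.st hw
    t.zero.ch (t x).ch) fun I => f I.1 I.2
  simp only [Two.LP_apply, ev_RR, Finset.sum_sub_distrib] at this
  rw [← neg_sub (c.LL _ _), ← add_eq_zero_iff_eq_neg]
  simp only [Ctx.Tv, Ctx.Tf, Two.coe_sum]
  exact this

end Vale.Agent.P352L
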