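import Vale.Agent.P352L.TPD.Wire
import Vale.Agent.P352L.TPD.ECvx

/-!
# P352L, row TP0: time ordered products with mixed legs exist (helper14)
-/

set_option linter.all false

namespace Vale.Agent.P352L

variable {D : Type*} [NormedAddCommGroup D] [InnerProductSpace ℂ D]

/-- time ordered and anti-time ordered products with mixed legs, local relative to `T` -/
theorem tp_cmp (c : Ctx D) (t : All T2 c) :
    ∃ wp wm, TP2 c.Q c.TT true wp ∧ TP2 c.Q c.TT false wm ∧ c.Cmp wp wm :=
  TPD.two_of c (fun x => (t x).toT1) t.zero.wk (TPD.TE.cvx_row _)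

theorem tp0_row (c : Ctx D) (t : All T2 c) : TP0 c :=
  let ⟨wp, _, h, _⟩ := tp_cmp c t
  ⟨wp, h⟩

end Vale.Agent.P352L
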