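import Vale.Agent.P352L.Spec2
import Vale.Agent.P352L.R.GRP.C
import Vale.Agent.P352L.R.WX.An

/-!
# P352L: the row WX (on closed sources the field does not depend on the member)
-/

set_option linter.all false

open Filter Topology Metric
open scoped SchwartzMap ContDiff

namespace Vale.Agent.P352L

open Vale.Agent.P352X
open Vale.Agent.P352 Vale.Agent.P352.GF Vale.Agent.P352.BW Vale.Agent.P352.H246
open Vale.Agent.P352.H496
open Vale.Agent.P352X.ST (tsl)
open UniformSpace (Completion)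

noncomputable section

variable {D : Type*} [NormedAddCommGroup D] [InnerProductSpace ℂ D]

namespace Wx

/-- complex conjugation -/
def bS : Sch →L[ℝ] Sch := SchwartzMap.postcompCLM (Complex.conjCLE : ℂ →L[ℝ] ℂ)

lemma Cl.bar {F : I2 → Sch} (h : Cl F) : Cl fun I => bS (F I) := by
  ext x
  have a : ∀ I, ∀ z, bS (F I) z = star (F I z) := fun _ _ => rfl
  have := congrArg (fun g : Sch => star (g x)) h
  simpa [rD, pD, SchwartzMap.sum_apply, fun I => bD_star (a I), fun I v => dD_star (dD_star (a I) v)]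
    using this

lemma ball_wdg (y : V) {t R : ℝ} (h : 2 * R < t) :
    closedBall (y + t • bas 1 1) R ⊆ Wdg va vb y := fun z hz => by
  rw [mem_closedBall, dist_eq_norm] at hz
  have a := fun i => abs_le.1 ((norm_le_pi_norm (z - (y + t • bas 1 1)) i).trans hz)
  have a0 := a 0
  have a1 := a 1
  simp [bas] at a0 a1
  constructor <;> simp [GF.mdot, Fin.sum_univ_four, eta, o, P352X.va, P352X.vb] <;> linarith

/-- one component -/
def PT (c : Ctx D) (I : I2) (w : D) : Sch →L[ℂ] Completion D :=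
  Completion.toComplL ∘L P352X.Grp.fC (Grp.T_fld c.hT I.1 I.2) w

lemma sum_PT (c : Ctx D) (F : I2 → Sch) (w : D) :
    ∑ I, PT c I w (F I) = (c.Tf (fun m n => ev (F (m, n))) w : D) := by
  rw [Ctx.Tf, ← Fintype.sum_prod_type' fun m n => c.T m n (ev (F (m, n))) w]
  exact (map_sum (Completion.toComplL (𝕜 := ℂ)) _ _).symm

lemma loc_PT (c : Ctx D) {O : Set V} {Y} (hY : Y ∈ (c.N O).commutant) (I : I2) (w : D) {f : Sch}
    (hf : In O (ev f)) :
    inner ℂ (Y c.Om) (PT c I w f) = inner ℂ (PT c I c.Q.vac (bS f)) (star Y (w : Completion D)) :=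
  (ContinuousLinearMap.adjoint_inner_right Y _ _).symm.trans
    ((Grp.afs_T c.hN c.hT I.1 I.2 hf).2 _ (star_mem hY) w c.Q.vac).symm

/-- the difference of two members -/
def PP (c : Ctx D) (x : ℝ) (I : I2) (w : D) : Sch →L[ℂ] Completion D := PT (c.sh x) I w - PT c I w

variable {c : Ctx D} {x : ℝ}

lemma loc_PP {O : Set V} {Y} (hY : Y ∈ (c.N O).commutant) (I : I2) (w : D) {f : Sch}
    (hf : In O (ev f)) : inner ℂ (Y c.Om) (PP c x I w f) =
      inner ℂ (PP c x I c.Q.vac (bS f)) (star Y (w : Completion D)) := by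
  simp only [PP, ContinuousLinearMap.sub_apply, inner_sub_left, inner_sub_right]
  rw [loc_PT c hY I w hf, loc_PT (c.sh x) hY I w hf]

lemma l_zero (c : Ctx D) : c.l 0 = 0 := by
  have := c.hl.lin 0 0 1 ⟨0, rfl⟩ ⟨0, rfl⟩
  simp only [Pi.zero_apply, mul_zero, add_zero, one_smul] at this
  exact left_eq_add.1 this

lemma vac_PP (p : PART c) {F : I2 → Sch} (h : Cl F) : ∑ I, PP c x I c.Q.vac (F I) = 0 := by
  have := p x (fun m n => ev (F (m, n))) fun m n => ⟨_, rfl⟩
  rw [← ev_RR, h, show ev 0 = 0 from rfl, l_zero, l_zero, sub_zero] at this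
  simp only [PP, ContinuousLinearMap.sub_apply, Finset.sum_sub_distrib]
  rw [sum_PT c, sum_PT (c.sh x)]
  exact this

lemma dns (t : T1 c) (y : V) : Dense {z | ∃ Y ∈ (c.N (Wdg va vb y)).commutant, Y c.Om = z} := by
  rw [t.jc.dual _ _ y t.grp.na t.grp.nb (t.grp.nab ▸ one_pos)]
  refine t.grp.rs _ ((isOpen_lt (f := fun x => GF.mdot vb (x - y)) (by unfold GF.mdot; fun_prop)
    continuous_const).inter (isOpen_lt (g := fun x => GF.mdot va (x - y)) continuous_const
      (by unfold GF.mdot; fun_prop))) ⟨y - bas 1 1, ?_⟩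
  constructor <;> simp [GF.mdot, Fin.sum_univ_four, eta, o, P352X.va, P352X.vb, bas]

lemma cpt (t : T1 c) (p : PART c) (w : D) (F : I2 → Sch) (hc : ∀ I, HasCompactSupport (F I))
    (h : Cl F) : ∑ I, PP c x I w (F I) = 0 := by
  obtain ⟨R, hR⟩ := (isCompact_iUnion hc).isBounded.subset_closedBall 0
  refine (dns t (-((2 * R + 1) • bas 1 1))).eq_zero_of_inner_right ℂ ?_
  rintro _ ⟨Y, hY, rfl⟩
  rw [inner_sum, Finset.sum_congr rfl fun I _ => loc_PP hY I w ⟨⟨_, rfl⟩, hc I,
    ((Set.subset_iUnion _ I).trans hR).trans ?_⟩, ← sum_inner, vac_PP p h.bar, inner_zero_left]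
  simpa only [neg_add_cancel] using ball_wdg (-((2 * R + 1) • bas 1 1)) (lt_add_one (2 * R))

lemma far {Y} (hY : Y ∈ (c.N (Wdg va vb 0)).commutant) (I : I2) (w : D) (f : Sch) :
    Tendsto (fun n : ℕ => inner ℂ (Y c.Om) (PP c x I w (tsl ((5 * ((n : ℝ) + 1)) • bas 1 1) f)) -
      inner ℂ (PP c x I c.Q.vac (bS (tsl ((5 * ((n : ℝ) + 1)) • bas 1 1) f)))
        (star Y (w : Completion D))) atTop (𝓝 0) := by
  obtain ⟨u, h1, h2⟩ := cut_far f (C := 5) (by norm_num)
    (a := fun n => (5 * ((n : ℝ) + 1)) • bas 1 1) fun n => by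
      rw [norm_smul, Real.norm_of_nonneg (by positivity)]
      refine mul_le_of_le_one_right (by positivity) (pi_norm_le_iff_of_nonneg zero_le_one |>.2 ?_)
      intro i
      simp only [bas]
      split_ifs <;> simp
  have k : Continuous fun g : Sch => inner ℂ (Y c.Om) (PP c x I w g) -
      inner ℂ (PP c x I c.Q.vac (bS g)) (star Y (w : Completion D)) := by fun_prop
  refine ((k.tendsto' 0 0 (by simp)).comp h2).congr fun n => ?_
  have s := ST.tsupport_tsl (h1 n) ((5 * ((n : ℝ) + 1)) • bas 1 1)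
  have e := loc_PP (x := x) hY I w (f := tsl ((5 * ((n : ℝ) + 1)) • bas 1 1) (u n))
    ⟨⟨_, rfl⟩, (isCompact_closedBall _ _).of_isClosed_subset (isClosed_tsupport _) s,
      s.trans (by
        have p : (0 : ℝ) < (n : ℝ) + 1 := by positivity
        simpa only [zero_add] using ball_wdg 0 (t := 5 * ((n : ℝ) + 1)) (R := 2 * ((n : ℝ) + 1))
          (by linarith))⟩
  simp only [Function.comp, map_sub, inner_sub_left, inner_sub_right, e]
  ring

lemma all (t : T1 c) (p : PART c) (w : D) {F : I2 → Sch} (h : Cl F) :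
    ∑ I, PP c x I w (F I) = 0 := by
  refine (dns t 0).eq_zero_of_inner_right ℂ ?_
  rintro _ ⟨Y, hY, rfl⟩
  rw [inner_sum]
  refine key (lam := fun I => innerSL ℂ (Y c.Om) ∘L PP c x I w) (a := fun n => 5 * ((n : ℝ) + 1))
    (fun G hc hG => ?_) (fun G hG => ?_) h
  · show ∑ I, inner ℂ (Y c.Om) (PP c x I w (G I)) = 0
    rw [← inner_sum, cpt t p w G hc hG, inner_zero_right]
  · have := tendsto_finsetSum Finset.univ fun I _ => far (x := x) hY I w (G I)
    rw [Finset.sum_const_zero] at this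
    refine this.congr fun n => ?_
    rw [Finset.sum_sub_distrib, ← sum_inner, vac_PP p (hG.map (itw_tsl _)).bar, inner_zero_left,
      sub_zero]
    rfl

end Wx

/-- **row WX** -/
theorem wx_row (c : Ctx D) (t : All T2 c) (p : PART c) : WX c := fun x F v hF h => by
  choose f hf using hF
  obtain rfl : F = fun m n => ev (f m n) := funext₂ fun m n => (hf m n).symm
  have := Wx.all (x := x) t.zero.toT1 p v (F := fun I => f I.1 I.2)
    (SchwartzMap.ext fun z => congrFun ((ev_RR fun I => f I.1 I.2).trans h) z)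
  simp only [Wx.PP, ContinuousLinearMap.sub_apply, Finset.sum_sub_distrib, sub_eq_zero] at this
  rw [Wx.sum_PT c, Wx.sum_PT (c.sh x)] at this
  exact Completion.coe_injective D this

end

end Vale.Agent.P352L
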