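import Vale.Agent.P352X.R.BAS
import Vale.Agent.P352L.R.Br

/-!
# P352L: row BAS
-/

noncomputable section

open MeasureTheory Filter Topology Complex Set

namespace Vale.Agent.P352L

open Vale.Agent.P352X

open Vale.Agent.P352 Vale.Agent.P352.GF Vale.Agent.P352.BW
open Vale.Agent.P352.H496 Vale.Agent.P352.H755 Vale.Agent.P352.H15
open SN (BC Calc Bd IsPair URep)
open UniformSpace (Completion)
open Vale.Agent.P352X.Br hiding Usc_Phi ae_al_pos ae_be_pos ae_tx_ne bas_tail wn_gen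
open Vale.Agent.P352L.Br

namespace Br

export Vale.Agent.P352X.Br (Gb_apply Usc_apply Usc_norm Ut_apply al_dsc be_dsc dsc dsc_meas fr
  meas_al meas_be norm_P_of_nu norm_P_union scL scL_lor sc_pos sc_va sc_vb tvL tvL_apply tx_eq)

variable {D : Type*} [NormedAddCommGroup D] [InnerProductSpace ℂ D] {c : Base D}

lemma Usc_Phi (c : Base D) {r s : ℝ} (hr : 0 < r) (hs : 0 < s) {f : V → ℂ} (hf : Bd f)
    (v : Completion D) :
    Usc c.Q r s (c.bt.Phi f v) = c.bt.Phi (fun p => f (dsc r s p)) (Usc c.Q r s v) := by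
  rw [Usc_apply _ hr hs, Usc_apply _ hr hs]
  exact Kin.U_Phi c.bR c.ct (sc_pos hr hs) (scL_lor hr hs) 0 hf v

theorem ae_be_pos (c : Base D) {v : Completion D} (hv : inner ℂ c.Om v = 0) :
    ∀ᵐ p ∂c.nu v, 0 < be p := Kin.ae_md_pos c.bR c.ct c.bV fr.ha hv

theorem ae_al_pos (c : Base D) {v : Completion D} (hv : inner ℂ c.Om v = 0) :
    ∀ᵐ p ∂c.nu v, 0 < al p := Kin.ae_md_pos c.bR c.ct c.bV fr.hb hv

theorem ae_tx_ne (c : Base D) (i : Fin 2) {v : Completion D} (hv : inner ℂ c.Om v = 0) :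
    ∀ᵐ p ∂c.nu v, tx p i ≠ 0 := by
  filter_upwards [Kin.ae_perp_ne c.bR c.ct c.bV fr.ha (fr.hae i) (by simp [fr.hee]) hv] with p hp
  rw [tx_eq]
  exact neg_ne_zero.2 hp

/-- weak nullity along arbitrary filters -/
theorem wn_gen (c : Base D) {a : V} (ha : IsNull a) {ι : Type*} {l : Filter ι} {s r : ι → ℝ}
    {L : ι → Ix → V} (hs : ∀ i, 0 < s i) (hL : ∀ i, IsLor (L i)) (y : ι → V)
    (hr : ∀ i, sim (s i) (L i) 0 a = r i • a) (h : Tendsto r l atTop ∨ Tendsto r l (𝓝 0))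
    {η : Completion D} (hη : inner ℂ c.Om η = 0) {E : ι → Completion D}
    (hE : Tendsto E l (𝓝 η)) (w : Completion D) :
    Tendsto (fun i => inner ℂ w (Ue c.Q (s i) (L i) (y i) (E i))) l (𝓝 (0 : ℂ)) := by
  rcases h with h | h
  · exact (Kin.weak_null c.bR c.ct c.bV ha (l := comap r atTop ⊓ comap E (𝓝 η)) hs hL y hr
      (Or.inl (tendsto_comap.mono_left inf_le_left)) hη (tendsto_comap.mono_left inf_le_right)
      w).mono_left (le_inf h.le_comap hE.le_comap)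
  · exact (Kin.weak_null c.bR c.ct c.bV ha (l := comap r (𝓝 0) ⊓ comap E (𝓝 η)) hs hL y hr
      (Or.inr (tendsto_comap.mono_left inf_le_left)) hη (tendsto_comap.mono_left inf_le_right)
      w).mono_left (le_inf h.le_comap hE.le_comap)

theorem bas_tail (c : Base D) (η w : Completion D) (Λ C0 L : ℝ) (hL : 1 ≤ L) (hC : 0 ≤ C0)
    (hη : Dm (Pa c.Q) η) (hw : ∀ s, ‖Gb c.Q s w - w‖ ≤ Λ * |s|)
    (hν : ∀ s ∈ Set.Ioc (0 : ℝ) 1, c.nu η {p | al p < s} ≤ ENNReal.ofReal (C0 ^ 2 * s)) :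
    ‖inner ℂ (Usc c.Q L 1 η) w‖ ≤
      8 * L ^ (-(1 / 16 : ℝ)) * (‖w‖ + Λ) * (C0 + ‖η‖ + ‖gen (Pa c.Q) η‖) := by
  have hL0 : 0 < L := one_pos.trans_le hL
  set y := L ^ (1 / 16 : ℝ) with hy
  have hy1 : 1 ≤ y := Real.one_le_rpow hL (by norm_num)
  have hy0 : 0 < y := one_pos.trans_le hy1
  have hyL : y ^ 16 = L := by
    rw [hy, ← Real.rpow_natCast, ← Real.rpow_mul hL0.le]
    norm_num
  rw [Real.rpow_neg hL0.le, ← hy]
  have hΛ : 0 ≤ Λ := by simpa using (norm_nonneg _).trans (hw 1)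
  have hB : MeasurableSet {p : V | be p ≤ y ^ 4 ∧ (y ^ 4)⁻¹ ≤ al p} :=
    (measurableSet_le meas_be measurable_const).inter (measurableSet_le measurable_const meas_al)
  have h1 : MeasurableSet {p : V | y ^ 4 < be p} := measurableSet_lt measurable_const meas_be
  have h2 : MeasurableSet {p : V | al p < (y ^ 4)⁻¹} := measurableSet_lt meas_al measurable_const
  obtain ⟨d1, d2⟩ := c.cgn_Pa.1 hη.gn'
  have a1 : ‖c.bt.P {p : V | y ^ 4 < be p} η‖ ≤ (y ^ 4)⁻¹ * ‖gen (Pa c.Q) η‖ := by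
    rw [← d2]
    exact Calc.norm_P_le_Psi h1 d1 (by positivity) (Eventually.of_forall fun p hp => by
      rw [norm_real]; exact (le_of_lt hp).trans (le_abs_self _))
  have a2 : ‖c.bt.P {p : V | al p < (y ^ 4)⁻¹} η‖ ≤ C0 * (y ^ 2)⁻¹ := by
    refine norm_P_of_nu _ h2 (by positivity) ((hν _ ⟨by positivity,
      inv_le_one_of_one_le₀ (one_le_pow₀ hy1)⟩).trans_eq ?_)
    congr 1
    ring
  have a3 : ‖c.bt.P {p : V | be p ≤ y ^ 4 ∧ (y ^ 4)⁻¹ ≤ al p}ᶜ η‖ ≤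
      (y ^ 4)⁻¹ * ‖gen (Pa c.Q) η‖ + C0 * (y ^ 2)⁻¹ := by
    refine le_trans (Calc.norm_P_mono hB.compl (h1.union h2) (Eventually.of_forall fun p hp => ?_))
      ((norm_P_union _ h1 h2 η).trans (add_le_add a1 a2))
    simpa only [mem_compl_iff, mem_ofPred_eq, not_and_or, not_le, mem_union] using hp
  have hN : 0 < ⌈y ^ 2⌉₊ := Nat.ceil_pos.2 (by positivity)
  have hN1 : y ^ 2 ≤ ⌈y ^ 2⌉₊ := Nat.le_ceil _
  have hN2 : (⌈y ^ 2⌉₊ : ℝ) ≤ 2 * y ^ 2 := by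
    linarith [Nat.ceil_lt_add_one (sq_nonneg y), one_le_pow₀ (n := 2) hy1]
  have a4 := Kin.pig c.bR c.ct fr.ha fr.hb fr.hab (fr.hae 0) (fr.hbe 0) (by simp [fr.hee])
    (ρ := (y ^ 12)⁻¹) (lam := (y ^ 4)⁻¹) (σ := 2 * (y ^ 4)⁻¹) (Λ := 2 * Λ) (by positivity)
    (by positivity) (by field_simp; norm_num) (w := w) (fun t ht => by
      rw [← Gb_apply]
      refine (hw _).trans_eq ?_
      rw [abs_of_nonneg (by positivity)]
      ring) hN
  have a5 : ‖w‖ / √(⌈y ^ 2⌉₊ : ℝ) ≤ ‖w‖ * y⁻¹ := by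
    rw [← div_eq_mul_inv]
    exact div_le_div_of_nonneg_left (norm_nonneg _) hy0 (Real.le_sqrt_of_sq_le hN1)
  have a6 : 2 * Λ * (⌈y ^ 2⌉₊ * (2 * (y ^ 4)⁻¹)) ≤ 8 * Λ * y⁻¹ := by
    calc 2 * Λ * (⌈y ^ 2⌉₊ * (2 * (y ^ 4)⁻¹)) ≤ 2 * Λ * (2 * y ^ 2 * (2 * (y ^ 4)⁻¹)) := by gcongr
      _ = 8 * Λ * (y ^ 2)⁻¹ := by field_simp; ring
      _ ≤ 8 * Λ * y⁻¹ := by gcongr; nlinarith
  have e : dsc L 1 ⁻¹' {p : V | be p ≤ y ^ 4 ∧ (y ^ 4)⁻¹ ≤ al p} =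
      {p | GF.mdot va p ≤ (y ^ 12)⁻¹ ∧ (y ^ 4)⁻¹ ≤ GF.mdot vb p} := by
    ext p
    simp only [mem_preimage, mem_ofPred_eq, be_dsc hL0 one_pos, al_dsc hL0 one_pos, one_mul]
    rw [← hyL, ← le_div_iff₀' (by positivity), show y ^ 4 / y ^ 16 = (y ^ 12)⁻¹ by field_simp]
    rfl
  have b1 : ‖inner ℂ (Usc c.Q L 1 (c.bt.P {p : V | be p ≤ y ^ 4 ∧ (y ^ 4)⁻¹ ≤ al p} η)) w‖ ≤
      ‖η‖ * (‖w‖ * y⁻¹ + 8 * Λ * y⁻¹) := by
    have h3 : Usc c.Q L 1 (c.bt.P {p : V | be p ≤ y ^ 4 ∧ (y ^ 4)⁻¹ ≤ al p} η) =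
        c.bt.P (dsc L 1 ⁻¹' {p : V | be p ≤ y ^ 4 ∧ (y ^ 4)⁻¹ ≤ al p}) (Usc c.Q L 1 η) :=
      Usc_Phi c hL0 one_pos (Bd.ind hB) η
    rw [h3, Calc.P_adj (dsc_meas L 1 hB), e]
    refine (norm_inner_le_norm _ _).trans ?_
    rw [Usc_norm _ hL0 one_pos]
    exact mul_le_mul_of_nonneg_left (a4.trans (add_le_add a5 a6)) (norm_nonneg _)
  have b2 : ‖inner ℂ (Usc c.Q L 1 (c.bt.P {p : V | be p ≤ y ^ 4 ∧ (y ^ 4)⁻¹ ≤ al p}ᶜ η)) w‖ ≤
      (y⁻¹ * ‖gen (Pa c.Q) η‖ + C0 * y⁻¹) * ‖w‖ := by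
    refine (norm_inner_le_norm _ _).trans (mul_le_mul_of_nonneg_right ?_ (norm_nonneg _))
    rw [Usc_norm _ hL0 one_pos]
    refine a3.trans (add_le_add ?_ ?_)
    · gcongr
      exact le_self_pow₀ hy1 (by norm_num)
    · gcongr
      exact le_self_pow₀ hy1 (by norm_num)
  rw [Calc.P_compl hB, map_sub, inner_sub_left] at b2
  have b3 := (norm_le_norm_sub_add _ _).trans (add_le_add b2 b1)
  refine b3.trans ?_
  have hi : 0 < y⁻¹ := by positivity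
  have n1 := norm_nonneg w
  have n2 := norm_nonneg η
  have n3 := norm_nonneg (gen (Pa c.Q) η)
  have : (y⁻¹ * ‖gen (Pa c.Q) η‖ + C0 * y⁻¹) * ‖w‖ + ‖η‖ * (‖w‖ * y⁻¹ + 8 * Λ * y⁻¹) =
      y⁻¹ * ((‖gen (Pa c.Q) η‖ + C0 + ‖η‖) * ‖w‖ + 8 * Λ * ‖η‖) := by ring
  rw [this, mul_comm 8 y⁻¹, mul_assoc y⁻¹, mul_assoc y⁻¹]
  refine mul_le_mul_of_nonneg_left ?_ hi.le
  nlinarith [mul_nonneg n1 n2, mul_nonneg n1 n3, mul_nonneg n1 hC, mul_nonneg hΛ n2,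
    mul_nonneg hΛ n3, mul_nonneg hΛ hC]

end Br

variable {D : Type*} [NormedAddCommGroup D] [InnerProductSpace ℂ D]

/-- row BAS, without hypotheses -/
theorem bas_thm (c : Base D) : BAS c where
  cone v := Kin.cone c.ct v
  ker v hv := by
    refine ⟨measure_eq_zero_iff_ae_notMem.2 ((ae_be_pos c hv).mono fun p hp => hp.ne'),
      measure_eq_zero_iff_ae_notMem.2 ((ae_al_pos c hv).mono fun p hp => hp.ne'),
      measure_eq_zero_iff_ae_notMem.2 ((ae_tx_ne c 0 hv).mono fun p hp h => hp (congrFun h 0)), ?_⟩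
    rw [← c.common_a3.2.1, Measure.map_apply (by fun_prop)
      (measurableSet_le measurable_fst measurable_const)]
    exact measure_eq_zero_iff_ae_notMem.2 ((Kin.ae_p_pos c.kc c.bR c.hS fr c.bV hv).mono
      fun q hq => not_le.2 hq)
  wn ι l r s y η η0 w hrs h hη h0 := by
    have e : ∀ i, Ut c.Q (y i) (Usc c.Q (r i) (s i) (η i)) =
        Ue c.Q (Real.sqrt (r i * s i)) (scL (r i) (s i)) (y i) (η i) := fun i => by
      rw [Ut_apply, Usc_apply _ (hrs i).1 (hrs i).2, Kin.Ue_mul c.bR one_pos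
        (sc_pos (hrs i).1 (hrs i).2) H496.isLor_one (scL_lor (hrs i).1 (hrs i).2)
        (fun x => H26.sim_one0 _), one_mul, HM.sim_tr, zero_add]
    have key : Tendsto (fun i => inner ℂ w
        (Ue c.Q (Real.sqrt (r i * s i)) (scL (r i) (s i)) (y i) (η i))) l (𝓝 (0 : ℂ)) := by
      rcases or_assoc.2 h with h | h
      · exact wn_gen c fr.ha (fun i => sc_pos (hrs i).1 (hrs i).2)
          (fun i => scL_lor (hrs i).1 (hrs i).2) y (fun i => sc_va (hrs i).1 (hrs i).2) h h0 hη w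
      · exact wn_gen c fr.hb (fun i => sc_pos (hrs i).1 (hrs i).2)
          (fun i => scL_lor (hrs i).1 (hrs i).2) y (fun i => sc_vb (hrs i).1 (hrs i).2) h h0 hη w
    have h1 := (continuous_conj.tendsto _).comp key
    rw [map_zero] at h1
    refine h1.congr fun i => ?_
    rw [Function.comp_apply, inner_conj_symm, e]
  thin u ξ hu h0 := by
    have h := (Kin.thin c.bR c.ct c.bV volume tvL (x := e2 0)
      (Or.inr ⟨va, fr.ha, fr.hae 0, by simpa [ex] using (show GF.mdot (ex 0) (ex 0) ≠ 0 by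
        simp [fr.hee])⟩) hu ξ).comp tendsto_inv_nhdsGT_zero
    rw [show inner ℂ (om c.Q) ξ = 0 from h0, zero_smul, smul_zero] at h
    simpa only [Function.comp_def, tvL_apply, Ut_apply] using h
  tail := ⟨8, 1 / 16, by norm_num, bas_tail c⟩

theorem bas_row (c : Ctx D) : T0 c → BAS c.toBase := fun _ => bas_thm _

end Vale.Agent.P352L

end
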