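import Vale.Agent.P352L.BP.C

/-!
# P352L: row BB for a fixed member from the running member, and row BPW (helper89)
-/

set_option linter.all false

open MeasureTheory Filter Topology Set
open scoped SchwartzMap ComplexConjugate ContDiff

namespace Vale.Agent.P352L

open Vale.Agent.P352 Vale.Agent.P352.GF Vale.Agent.P352.BW Vale.Agent.P352.H246
open Vale.Agent.P352.H496 Vale.Agent.P352.H755 Vale.Agent.P352X Vale.Agent.P352X.Ap
open Vale.Agent.P352X.BPa (Fr wq smooth_wq ex_dc dc_Bx)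
open Vale.Agent.P352X.BX (Stp)
open Vale.Agent.P132 (jconj)
open UniformSpace (Completion)
open BP

variable {D : Type*} [NormedAddCommGroup D] [InnerProductSpace ℂ D]

theorem bb_of {c : Ctx D} (t : T3 c) (bb : BBrun c) : BB c := by
  intro u0 d0 y1 r1 y2 r2 X X' χ κ ρ y hd h1 h2 s1 s2 hX hG hX' hG' x1 x2 x3 hκ hρ sρ
  have hb := bb u0 d0 y1 r1 y2 r2 X X' χ κ ρ y hd h1 h2 s1 s2 hX hG hX' hG' x1 x2 x3 hκ hρ sρ
  simp only [om2_eq] at hb ⊢
  generalize (∫ u, (ρ u : ℂ) * inner ℂ (star (jconj c.J X') c.Om)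
    (gen (c.Ky (tv y + u • vb)) (X c.Om))) = k at hb ⊢
  have G := t.grp
  have j := t.jc
  have s := CK.smv_of t.toT1
  set R := 2 * (‖y1‖ + 3 * |r1|) + 2 * (‖y2‖ + 3 * |r2|) + |u0| + 1 with hR
  have p1 : 0 ≤ 2 * (‖y1‖ + 3 * |r1|) := by positivity
  have p2 : 0 ≤ 2 * (‖y2‖ + 3 * |r2|) := by positivity
  have p3 := abs_nonneg u0
  have p4 := le_abs_self u0
  have R0 : 0 < R := by linarith
  have cm : ∀ x, Com (c.sh x) (jconj c.J X' (X c.Om)) (star X (star (jconj c.J X') c.Om)) (Fr R) :=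
    fun x => by
      have := Loc.com (t.sh x).grp (t.sh x).jc R0
        (((Loc.of (c := c.sh x) hX' (dc_Bx (by linarith))).J (t.sh x).jc).mul
          (Loc.of (c := c.sh x) hX (dc_Bx (by linarith))))
      rwa [star_mul] at this
  obtain ⟨Λ, l1, l2⟩ : ∃ Λ, Lp c.Q (jconj c.J X' (X c.Om)) Λ ∧
      Lp c.Q (star X (star (jconj c.J X') c.Om)) Λ := by
    obtain ⟨C1, -, a1⟩ := Lp.op G hG
    obtain ⟨C2, -, a2⟩ := Lp.op G hG'
    obtain ⟨C3, -, a3⟩ := Lp.op G (s.adj _ hG)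
    obtain ⟨C4, -, a4⟩ := Lp.op G (s.adj _ hG')
    have b1 := (a2 _ _ ((a1 _ _ (Lp.om G)).J G j)).J G j
    have b2 := a3 _ _ ((a4 _ _ (Lp.om G)).J G j)
    rw [← BL.star_Y] at b2
    have e : jconj c.J X' (X c.Om) = c.J (X' (c.J (X c.Om))) := rfl
    exact ⟨_, (e ▸ b1).mono (le_max_left _ _), b2.mono (le_max_right _ _)⟩
  generalize jconj c.J X' (X c.Om) = w at *
  generalize star X (star (jconj c.J X') c.Om) = w' at *
  obtain ⟨σ, hσ, h⟩ := tail t
  obtain ⟨A, hA, hs⟩ := step (D := D) R0 ⟨x1, x2, x3⟩ hκ hρ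
    (fun s k => ⟨by linarith [(sρ k).1], by linarith [(sρ k).2]⟩) y
  choose C C0 hC using fun x => hs (c.sh x) σ (h x)
  have q0 : 0 < (2 : ℝ) ^ (-σ) := by positivity
  have q1 : (2 : ℝ) ^ (-σ) < 1 := Real.rpow_lt_one_of_one_lt_of_neg one_lt_two (neg_neg_of_pos hσ)
  have key : ∀ s, A ≤ s → ‖k - Oq (c.sh 0) w w' ρ χ κ y s‖ ≤
      C 0 * Λ / (1 - 2 ^ (-σ)) * s ^ (-σ) := fun s hs => by
    have s0 : 0 < s := by linarith
    have st : ∀ x (n : ℕ), ‖Oq (c.sh x) w w' ρ χ κ y (2 ^ (n + 1) * s) -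
        Oq (c.sh x) w w' ρ χ κ y (2 ^ n * s)‖ ≤ C x * Λ * s ^ (-σ) * (2 ^ (-σ)) ^ n := fun x n => by
      have := hC x w w' Λ l1 l2 (cm x) (2 ^ n * s)
        (hs.trans (le_mul_of_one_le_left s0.le (one_le_pow₀ one_le_two)))
      rw [← mul_assoc, ← pow_succ', Real.mul_rpow (by positivity) s0.le,
        ← Real.rpow_pow_comm zero_le_two] at this
      exact this.trans_eq (by ring)
    have lim := IsPol.run_geo q0 q1 (J := c.n0) (a := Real.log 2 / 2) (b := Real.log s / 2)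
      (F := fun n x => Oq (c.sh x) w w' ρ χ κ y (2 ^ n * s))
      (div_pos (Real.log_pos one_lt_two) two_pos).ne' (.of_forall fun n => ?_)
      (fun x => ⟨_, .of_forall (st x)⟩) (x := k) ?_ 0
    · refine le_of_tendsto ((lim.sub_const (Oq (c.sh 0) w w' ρ χ κ y s)).norm)
        (.of_forall fun n => ?_)
      have := geo_sum (F := fun n => Oq (c.sh 0) w w' ρ χ κ y (2 ^ n * s)) q0 q1 (m := 0)
        (fun j _ => st 0 j) (Nat.zero_le n)
      simp only [pow_zero, one_mul, mul_one] at this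
      exact this.trans_eq (by ring)
    · have x0 : ContDiff ℝ ∞ fun q : P3 => χ q.1 := x1.comp contDiff_fst
      have k0 := cs_mul_l (smooth_wq y) (tst_kL hκ.1 (show 0 < 2 ^ n * s by positivity))
      exact (pol_l (BL.pol_TP G (cs_mul_l x0 k0) hρ va va) w).add
        (pol_r (BL.pol_TP G (cs_mul_l (contDiff_const.sub x0) k0) hρ va va) w')
    · refine (hb.comp ((tendsto_pow_atTop_atTop_of_one_lt one_lt_two).atTop_mul_const s0)).congr
        fun n => ?_
      rw [Function.comp_apply, Real.log_mul (by positivity) s0.ne', Real.log_pow,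
        show (n * Real.log 2 + Real.log s) / 2 = Real.log s / 2 + Real.log 2 / 2 * n by ring]
      rfl
  refine tendsto_iff_norm_sub_tendsto_zero.2 (squeeze_zero' (.of_forall fun _ => norm_nonneg _)
    ((eventually_ge_atTop A).mono fun s hs => (norm_sub_rev _ _).trans_le (key s hs)) ?_)
  simpa only [mul_zero] using (tendsto_rpow_neg_atTop hσ).const_mul (C 0 * Λ / (1 - 2 ^ (-σ)))

theorem bb_of_run {c : Ctx D} (t : T3 c) (bb : All BBrun c) : BB c := bb_of t bb.zero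

theorem bpw_row (c : Ctx D) (t : T3 c) (bb : BB c) : BPW c := by
  intro u0 d0 y1 r1 X f1 κ ρ y hd hr hO hX hG hf hκ hρ sρ
  rcases le_or_gt u0 0 with hu | hu
  · have e : ρ = fun _ => 0 := funext fun s => image_eq_zero_of_notMem_tsupport fun k => by
      linarith [(sρ k).1, (sρ k).2]
    have e1 : ∀ g, pr g ρ = fun z => 0 * (0 : ℂ) := fun g => funext fun z => by simp [pr, e]
    have e2 : ∀ v, c.Tf (hk va va fun z => 0 * (0 : ℂ)) v = 0 := fun v =>
      (CK.Taa_smul (c := c) 0 sw_zero v).trans (zero_smul _ _)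
    simp only [e1, e2, Completion.coe_zero]
    simp [e]
  have s := CK.smv_of t.toT1
  have G := t.grp
  have j := t.jc
  obtain ⟨χ, x1, x2, x3, -⟩ := ex_step (show -d0 / 2 < d0 / 2 by linarith)
  have hχ : Stp d0 χ := ⟨x1, x2, x3⟩
  set K := fun u : ℝ => gen (c.Ky (tv y + u • vb)) (X c.Om) with hK
  have i1 : Integrable fun u => (ρ u : ℂ) • K u := by
    have k : tsupport (fun u => (ρ u : ℂ) • K u) ⊆ tsupport ρ :=
      tsupp_of_zero fun u h => by simp [h]
    exact (((dc_cx hρ).1.continuous.continuousOn.smul ((CK.kp_of t.toTA).shift y1 r1 u0 d0 X y hr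
      hu hd hO hX hG).1).continuous_of_tsupport_subset isOpen_Ioo
      (k.trans sρ)).integrable_of_hasCompactSupport
      (hρ.2.isCompact.of_isClosed_subset (isClosed_tsupport _) k)
  have i2 : ∀ ψ, ∫ u, (ρ u : ℂ) * inner ℂ ψ (K u) = inner ℂ ψ (∫ u, (ρ u : ℂ) • K u) := fun ψ => by
    simp only [← integral_inner i1, inner_smul_right]
  obtain ⟨C1, c1, l1⟩ := Lp.op G hG
  obtain ⟨C2, c2, l2⟩ := Lp.op G (s.adj X hG)
  have W : ∀ {O}, O ⊆ {z | be z < -u0 ∧ d0 < al z} → O ⊆ Wdg va vb 0 := fun h z hz =>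
    ⟨by rw [sub_zero, md_va]; linarith [(h hz).1], by rw [sub_zero, md_vb]; linarith [(h hz).2]⟩
  have key : Tendsto (fun L => Oq c (X (c.Wv f1)) (star X (c.Wv (bar f1))) ρ χ κ y L) atTop
      (𝓝 (inner ℂ (c.Wv (bar f1)) (∫ u, (ρ u : ℂ) • K u))) := by
    refine Ap.in_ind (P := fun φ => Tendsto (fun L =>
      Oq c (X (c.Wv φ)) (star X (c.Wv (bar φ))) ρ χ κ y L) atTop
      (𝓝 (inner ℂ (c.Wv (bar φ)) (∫ u, (ρ u : ℂ) • K u)))) ?_ (fun f f' a b d e => ?_)
      (fun z hz => ?_) hf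
    · rw [show bar (fun _ => 0) = fun _ => 0 from funext fun _ => star_zero _]
      simp [CK.Wv_zero, Of]
    · rw [show bar (fun x => f x + f' x) = fun x => bar f x + bar f' x from
        funext fun _ => star_add _ _, CK.Wv_add a.1 b.1,
        CK.Wv_add (Ap.test_bar a.1) (Ap.test_bar b.1)]
      simpa only [map_add, Oq, Of_vec, inner_add_left] using d.add e
    obtain ⟨r2, hr2, n2, hO2⟩ := ex_dc (y := jr z) ((isOpen_lt cont_be continuous_const).inter
      (isOpen_lt continuous_const cont_al) : IsOpen {z | be z < -u0 ∧ d0 < al z})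
      ⟨by simpa using hz.1, show d0 < al (jr z) by rw [al_jr]; exact lt_neg.1 hz.2⟩
    refine ⟨jr ⁻¹' dc (jr z) r2, conf_jr.cle.continuous.continuousAt.preimage_mem_nhds n2,
      fun f hf => ?_⟩
    have hF : CK.InT (dc (jr z) r2) (jT (hW f)) :=
      (in_jT (CK.inT_hW hf)).mono fun x hx => by simpa using hx.1
    have e1 : c.J (c.Tv (jT (hW f))) = c.Wv f := by rw [J_Tv j hF.tst, jT_jT]; rfl
    have e2 : c.J (c.Tv (CK.barT (jT (hW f)))) = c.Wv (bar f) := by
      rw [J_Tv j hF.tst.bar, bar_jT, jT_jT, CK.barT_hW hf.1]; rfl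
    set R := 2 * (‖y1‖ + 3 * |r1|) + 2 * (‖jr z‖ + 3 * |r2|) + u0 with hR
    have p1 : 0 ≤ 2 * (‖y1‖ + 3 * |r1|) := by positivity
    have p2 : 0 ≤ 2 * (‖jr z‖ + 3 * |r2|) := by positivity
    have R0 : 0 < R := by linarith
    obtain ⟨C, A, c0, h⟩ := ub t R0 hχ hκ hρ
      (fun s k => ⟨by linarith [(sρ k).1], by linarith [(sρ k).2]⟩) y
    refine lim c0 h fun ε hε => ?_
    have p : 0 < C1 + C2 + 1 := by positivity
    obtain ⟨Y, y1', y2, y3, y4⟩ := apx t.toT1 hF (div_pos hε p)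
    have q := div_pos hε p
    have q' : (C1 + C2 + 1) * (ε / (C1 + C2 + 1)) = ε := mul_div_cancel₀ _ p.ne'
    have cm : jconj c.J Y (X c.Om) = X (c.J (Y c.Om)) := by
      rw [← comm_apply (c.N_mono (W hO) X hX) (c.E.J_mem Y (c.N_mono (W hO2) Y y1')),
        P132.jconj_apply, c.J_Om]
    refine ⟨jconj c.J Y (X c.Om), star X (star (jconj c.J Y) c.Om), star (jconj c.J Y) c.Om,
      ?_, ?_, ?_, ?_, ?_⟩
    · have := Loc.com G j R0 (((Loc.of y1' (dc_Bx (by linarith))).J j).mul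
        (Loc.of hX (dc_Bx (by linarith))))
      rwa [star_mul] at this
    · rw [cm, ← e1, ← map_sub, ← map_sub]
      exact (l1 _ _ (y3.J G j)).mono (by nlinarith)
    · rw [BL.star_Y, ← e2, ← map_sub, ← map_sub]
      exact (l2 _ _ (y4.J G j)).mono (by nlinarith)
    · rw [BL.star_Y, ← e2, ← map_sub]
      exact (y4.J G j).1.trans (by nlinarith)
    · have := bb u0 d0 y1 r1 _ r2 X Y χ κ ρ y hd hr hr2 hO hO2 hX hG y1' y2 x1 x2 x3 hκ hρ sρ
      simp only [om2_eq, c.sh_zero] at this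
      exact i2 _ ▸ this
  rw [i2]
  refine key.congr' ?_
  filter_upwards [eventually_gt_atTop (0 : ℝ)] with L hL
  have := ident t.toT1 hu hd hO hX (CK.inT_hW hf) hχ
    (cs_mul_l (smooth_wq y) (tst_kL hκ.1 hL)) hρ sρ
  rw [CK.barT_hW hf.1] at this
  exact this.symm

end Vale.Agent.P352L
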