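import Vale.Agent.P352X.R.F2
import Vale.Agent.P352L.R.F2.B

/-!
# P352L, row F2: the Ward identity for bounded operators
-/

set_option linter.all false

noncomputable section

open Filter Topology Set
open scoped ContDiff

namespace Vale.Agent.P352L

open Vale.Agent.P352X
export Vale.Agent.P352X (star_inner)

open Vale.Agent.P352 Vale.Agent.P352.GF Vale.Agent.P352.BW Vale.Agent.P352.H496
open Vale.Agent.P352.H755 Vale.Agent.P352.H15
open Vale.Agent.P352.H246 (In Al)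
open UniformSpace (Completion)
open Complex (I)
open Vale.Agent.P352X.Ap
open Vale.Agent.P352X.Fp hiding Tf_cmp Tf_grad Tf_lin Tf_loc Tf_sy Tv_dil fT far_comm gn_A
  std_null usc_eq
open Vale.Agent.P352L.Fp

variable {D : Type*} [NormedAddCommGroup D] [InnerProductSpace ℂ D]

/-- the generator on the vectors of the domain -/
lemma Fp.gn_A {c : Ctx D} (g : GRP c) {L : ℝ → Ix → V} {x : ℝ → V} {ξ : V → V} (h0 : L 0 = GF.one)
    (x0 : x 0 = 0) (hL : ∀ e, IsLor (L e))
    (h : ∀ n z, HasDerivAt (fun e => sim 1 (L e) (x e) z n) (ξ z n) 0) (v : D) :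
    Gn (fun e => Ug c.Q 1 (L e) (x e)) v (c.A ξ v : D) := by
  simp only [Gn, fun e => g.coe 1 (L e) (x e) v one_pos (hL e), ← Completion.coe_smul]
  exact ((Completion.toComplL (𝕜 := ℂ)).restrictScalars ℝ).hasFDerivAt.comp_hasDerivAt 0
    (c.hN.der _ L x ξ v rfl h0 x0 (fun e => ⟨one_pos, hL e⟩) h)

theorem Fp.key (c : Ctx D) (t : T1 c) {y : V} {r : ℝ} {a b y1 : V} {χ Ξ : V → ℝ}
    {L : ℝ → Ix → V} {x : ℝ → V} {ξ : V → V} {X : Completion D →L[ℂ] Completion D}
    {k : Completion D} (hr : 0 < r) (ha : IsNull a) (hb : IsNull b) (hab : 0 < mdot a b)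
    (hX : X ∈ c.N (dc y r)) (hC : Chg (closure (dc y r)) χ Ξ) (hW : dc y r ⊆ Wdg a b y1)
    (hχ : tsupport χ ⊆ Wdg a b y1) (h0 : L 0 = GF.one) (x0 : x 0 = 0) (hL : ∀ e, IsLor (L e))
    (hd : ∀ n z, HasDerivAt (fun e => sim 1 (L e) (x e) z n) (ξ z n) 0)
    (hk : Gn (fun e => Ug c.Q 1 (L e) (x e)) (X c.Om) k) {Y Y' : D → D}
    (hY : Al c.Q (Wdg b a y1) Y Y') {K : Set V} (hK : IsCompact K) (kW : K ⊆ Wdg b a y1)
    (hYK : Al c.Q K Y Y') {χ' Ξ' : V → ℝ} (c1 : Chg K χ' Ξ') (c2 : Chg (closure (dc y r)) χ' Ξ') :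
    inner ℂ ((Y' c.Q.vac : D) : Completion D) (k + X (c.Tv (dens χ Ξ ξ))) -
        inner ℂ (star X (c.Tv (dens χ Ξ ξ))) ((Y c.Q.vac : D) : Completion D) =
      inner ℂ (star X ((Y' c.Q.vac : D) : Completion D)) (c.Tv (dens χ' Ξ' ξ)) -
        inner ℂ (c.Tv (dens χ' Ξ' ξ)) (X (Y c.Q.vac : D)) := by
  have g := t.grp
  have hξ := isSim h0 hL hd
  have hA := Fp.gn_A g h0 x0 hL hd
  have u0 : Ug c.Q 1 (L 0) (x 0) = 1 := by rw [h0, x0]; exact g.ut0
  have sy := @gn_sym _ _ _ _ (fun e => Ug c.Q 1 (L e) (x e)) (fun e => g.ug_inner _ _ _) u0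
  have sA : Sy (c.A ξ) := fun v w => by
    simpa only [Completion.inner_coe] using (sy (hA v) (hA w)).symm
  have A0 : c.A ξ c.Q.vac = 0 := by
    have h := hA c.Q.vac
    simp only [Gn, show ∀ e, Ug c.Q 1 (L e) (x e) (c.Q.vac : D) = c.Om from fun e => g.vac _ _ _]
      at h
    have := (smul_eq_zero_iff_right Complex.I_ne_zero).1 (h.unique (hasDerivAt_const _ _))
    rwa [← norm_eq_zero, Completion.norm_coe, norm_eq_zero] at this
  have tG := test_dens hC.1 hC.2.1 hξ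
  have aY := (g.affa _ _ _ hY).2 X (t.jc.loc hb ha (by rwa [md_comm]) Subset.rfl hW X hX)
  obtain ⟨G, i, e, hG⟩ := Tf_cmp (c := c) (norm_cdc y r) hC c2 hξ
  refine (fun p => ?_) (al_comm ((Tf_sy (c := c) (fun m n => (i m n).1) e).sub sA)
    (fun B f v hB hf => ?_) hYK.star c.Q.vac)
  · simp only [A0, sub_zero] at p
    rw [inner_add_right, sy (hA _) hk, show c.A ξ (Y' c.Q.vac) = _ from
      (sub_sub_cancel _ _).symm.trans (congrArg _ p), Completion.coe_sub, inner_sub_left,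
      show c.Om = (c.Q.vac : D) from rfl, far_comm t.jc hr hX i e, aY _ (c.Tf G _), star_inner,
      star_inner, Ctx.Tv, Ctx.Tv, hG, Completion.coe_add, map_add, inner_add_left, inner_add_right]
    ring
  · have q := ext_inner_left ℂ fun w => t.ch K χ' Ξ' ξ B f v w hK c1 hξ hB hf.1 hf.2.2
    rw [hG, hG, Tf_loc tG hB hf.1 fun m n z hz z' hz' => wdg_opp ha hb
      (hχ ((in_dens hC.1 Subset.rfl hC.2.1 (smooth_sim hξ) m n).2.2 hz)) (kW (hf.2.2 hz'))] at q
    have s := fld_sub hB hf.1 (c.Tf (dens χ Ξ ξ) v + c.Tf G v) (c.Tf (dens χ Ξ ξ) v)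
    rw [add_sub_cancel_left] at s
    rw [fld_sub hB hf.1]
    linear_combination (norm := abel) q - s

theorem f2_row (c : Ctx D) (T : All T1 c) : F2 c := by
  intro y r a b y1 χ Ξ L x ξ X k hr ha hb hab hX hC hW hχ h0 x0 hL hd hk
  have t := T.zero
  have g := t.grp
  have hξ := isSim h0 hL hd
  refine t.jc.core a b y1 _ _ ha hb hab fun Y Y' hY => ?_
  obtain ⟨K, hK, kW, hYK⟩ := al_cpt hY
  obtain ⟨ρ, hρ⟩ := hK.isBounded.exists_norm_le
  obtain ⟨χ0, Ξ0, hs⟩ := ex_std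
  have pv := g.polv _ (test_dens hC.1 hC.2.1 hξ)
  have pp : IsPol c.n0 fun τ =>
      inner ℂ ((Y' c.Q.vac : D) : Completion D) (k + X ((c.sh τ).Tv (dens χ Ξ ξ))) -
        inner ℂ (star X ((c.sh τ).Tv (dens χ Ξ ξ))) ((Y c.Q.vac : D) : Completion D) :=
    (((IsPol.const _ k).add (pv.map (X.restrictScalars ℝ).toLinearMap)).map'
      (fun w => inner ℂ ((Y' c.Q.vac : D) : Completion D) w) (inner_add_right _)
      fun t w => by rw [← Complex.coe_smul, inner_smul_right, Complex.real_smul]).sub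
    ((pv.map ((star X).restrictScalars ℝ).toLinearMap).map'
      (fun w => inner ℂ w ((Y c.Q.vac : D) : Completion D)) (fun _ _ => inner_add_left _ _ _)
      fun t w => by
        rw [← Complex.coe_smul, inner_smul_left, Complex.conj_ofReal, Complex.real_smul])
  have l1 := std_null g t.bas hs hξ (star X ((Y' c.Q.vac : D) : Completion D))
  have l := ((Complex.continuous_conj.tendsto 0).comp l1).sub
    (std_null g t.bas hs hξ (X (Y c.Q.vac : D)))
  simp only [map_zero, sub_zero, Function.comp_def, inner_conj_symm] at l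
  have := pp.eq_of_tendsto (l := atTop) (τ := fun n : ℕ => Real.log ((n : ℝ) + 1)) (a := 0)
    (tendsto_abs_atTop_atTop.comp (Real.tendsto_log_atTop.comp
      (tendsto_natCast_atTop_atTop.atTop_add tendsto_const_nhds))) (l.congr' ?_) 0
  · rw [c.sh_zero] at this
    exact sub_eq_zero.1 this
  filter_upwards [tendsto_natCast_atTop_atTop.eventually_ge_atTop (max ρ (‖y‖ + 3 * |r|))] with n hn
  have p : 0 < (n : ℝ) + 1 := by positivity
  exact (Fp.key _ (T _) hr ha hb hab hX hC hW hχ h0 x0 hL hd hk hY hK kW hYK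
    (hs.chg hρ p (by linarith [le_max_left ρ (‖y‖ + 3 * |r|)]))
    (hs.chg (norm_cdc y r) p (by linarith [le_max_right ρ (‖y‖ + 3 * |r|)]))).symm

end Vale.Agent.P352L
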