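import Vale.Agent.P352X.R.KT
import Vale.Agent.P352L.R.BAS

/-!
# P352L: row KT
-/

noncomputable section

open MeasureTheory Filter Topology Complex Set
open scoped ComplexConjugate

namespace Vale.Agent.P352L

open Vale.Agent.P352X

open Vale.Agent.P352 Vale.Agent.P352.GF Vale.Agent.P352.BW
open Vale.Agent.P352.H496 Vale.Agent.P352.H755 Vale.Agent.P352.H15
open SN (BC Calc Bd IsPair URep)
open UniformSpace (Completion)
open Vale.Agent.P352X.Br hiding S0_Ex Sk_Ex Usc_Phi Ut_kt Ut_plane ae_al_pos ae_be_pos ae_k0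
  ae_kt ae_tx_ne bas_tail sc_kc tv_kc wn_gen
open Vale.Agent.P352L.Br

namespace Br

export Vale.Agent.P352X.Br (Ex Ex_add Ex_comm Ex_cont Ex_lip Ex_uni Ex_zero Usc_apply Ut_apply
  dm_iff ex_bd fr kt_sc pt_eq pt_self scL_lor scL_tv scL_va sc_pos sqrt_sc sqrt_sc' tv_kin)

section grp

variable {X H : Type*} [MeasurableSpace X] [NormedAddCommGroup H] [InnerProductSpace ℂ H]
  [CompleteSpace H] (C : Calc X H) {r r' : X → ℝ}

end grp

variable {D : Type*} [NormedAddCommGroup D] [InnerProductSpace ℂ D] (c : Base D)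

lemma S0_Ex (t : ℝ) : c.S0 t = Ex c.kc.toCalc Kin.k0 t := ContinuousLinearMap.ext (c.S0_Phi t)

lemma Sk_Ex (t : ℝ) : c.Sk t = Ex c.kc.toCalc Kin.kt t := ContinuousLinearMap.ext (c.Sk_Phi t)

lemma ae_kt (v : Completion D) : ∀ᵐ q ∂c.kc.nu v, 0 ≤ Kin.kt q :=
  Kin.ae_kt_nonneg c.kc c.bR c.hS fr c.bV c.kpos v

lemma ae_k0 (v : Completion D) : ∀ᵐ q ∂c.kc.nu v, 0 ≤ Kin.k0 q :=
  Kin.ae_k0_nonneg c.kc c.bR c.hS fr c.bV v

/-- covariance of the joint calculus under the transverse translations -/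
lemma tv_kc (y : R2) {f : Kin.KX → ℂ} (hf : Bd f) (v : Completion D) :
    Ut c.Q (tv y) (c.kc.Phi f v) = c.kc.Phi (fun q => f (Kin.ky y q)) (Ut c.Q (tv y) v) := by
  rw [Ut_apply, Ut_apply, ← tv_kin]
  exact Kin.tv_Phi c.kc c.bR c.hS fr y hf v

/-- covariance of the joint calculus under the scalings -/
lemma sc_kc {r s : ℝ} (hr : 0 < r) (hs : 0 < s) {f : Kin.KX → ℂ} (hf : Bd f) (v : Completion D) :
    Usc c.Q r s (c.kc.Phi f v) =
      c.kc.Phi (fun q => f (s⁻¹ * q.1, Real.sqrt (r / s) • q.2.1, r * q.2.2)) (Usc c.Q r s v) := by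
  rw [Usc_apply _ hr hs, Usc_apply _ hr hs, Kin.sc_Phi c.kc c.bR c.hS fr (sc_pos hr hs)
    (Real.sqrt_pos.2 (div_pos hr hs)) (scL_lor hr hs) (scL_va r s)
    (fun w => by rw [tv_kin, scL_tv]) hf]
  simp only [Kin.ks, sqrt_sc hr hs, sqrt_sc' hr hs]

/-- translations in the null plane -/
lemma Ut_plane {y : V} (hy : be y = 0) (z : Completion D) :
    Ut c.Q y z = Pa c.Q (al y) (Ut c.Q (tv (tx y)) z) := by
  rw [Pa, Ut_apply, Ut_apply, Ut_apply, ← (Kin.urep_tr c.bR).add]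
  congr 1
  conv_lhs => rw [← pt_self y, pt_eq, hy, zero_smul, add_zero]

/-- functions of `Kt` commute with the translations in the null plane -/
lemma Ut_kt {y : V} (hy : be y = 0) {f : ℝ → ℂ} (hf : Bd f) (z : Completion D) :
    Ut c.Q y (c.kc.Phi (fun q => f (Kin.kt q)) z) =
      c.kc.Phi (fun q => f (Kin.kt q)) (Ut c.Q y z) := by
  rw [Ut_plane c hy, Ut_plane c hy, Ut_apply, Ut_apply, ← tv_kin,
    Kin.tv_kt c.kc c.bR c.hS fr c.bV _ hf, c.Pa_Phi, c.Pa_Phi]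
  exact c.kc.comm (ex_bd (r := fun q : Kin.KX => q.2.2) (by fun_prop) _) (hf.comp Kin.kt_meas) _

end Br

variable {D : Type*} [NormedAddCommGroup D] [InnerProductSpace ℂ D]

/-- row KT, without hypotheses -/
theorem kt_thm (c : Base D) : KT c where
  add0 s t := by simp only [S0_Ex, Ex_add _ Kin.k0_meas]
  add s t := by simp only [Sk_Ex, Ex_add _ Kin.kt_meas]
  zero := by simp only [S0_Ex, Sk_Ex, Ex_zero, and_self]
  uni t := by
    rw [S0_Ex, Sk_Ex]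
    exact ⟨Ex_uni _ Kin.k0_meas t, Ex_uni _ Kin.kt_meas t⟩
  cont z := by
    simp only [S0_Ex, Sk_Ex]
    exact ⟨Ex_cont _ Kin.k0_meas z, Ex_cont _ Kin.kt_meas z⟩
  comm s t := by
    refine ⟨by rw [S0_Ex, Sk_Ex, Ex_comm _ Kin.k0_meas Kin.kt_meas], ?_⟩
    rw [Base.Sk, mul_assoc, S0_Ex, S0_Ex, ← Ex_add _ Kin.k0_meas, neg_add_cancel, Ex_zero, mul_one]
  vac t := by
    rw [c.S0_Phi, c.Sk_Phi, Kin.kPhi_om c.kc c.bR c.hS fr (ex_bd Kin.k0_meas t),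
      Kin.kPhi_om c.kc c.bR c.hS fr (ex_bd Kin.kt_meas t)]
    simp [Kin.kt, Kin.k0]
  ut t y hy := by
    ext z
    rw [mul_apply_eq_comp, mul_apply_eq_comp, c.Sk_Phi, c.Sk_Phi]
    exact Ut_kt c hy (f := fun x => cexp (I * (t * x : ℝ))) (ex_bd measurable_id t) z
  ga t w := by
    ext z
    rw [mul_apply_eq_comp, mul_apply_eq_comp, c.Sk_Phi, c.Sk_Phi, c.Ga_Phi, c.Ga_Phi]
    exact c.kc.comm (Bd.expI (by unfold d2; fun_prop)) (ex_bd Kin.kt_meas t) z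
  sc r s t hr hs := by
    ext z
    rw [mul_apply_eq_comp, mul_apply_eq_comp, c.Sk_Phi, c.Sk_Phi,
      sc_kc c hr hs (ex_bd Kin.kt_meas t)]
    simp only [kt_sc hr hs]
    simp only [div_eq_mul_inv, mul_assoc]
  pos z w h := by
    obtain ⟨h1, rfl⟩ := c.cgn_Sk.1 h
    exact Calc.form_nonneg h1 (ae_kt c z)
  lip z w t ht h := by
    obtain ⟨h1, rfl⟩ := c.cgn_Sk.1 h
    rw [Sk_Ex]
    exact Ex_lip _ Kin.kt_meas h1 (ae_kt c z) ht
  dom z := by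
    rw [dm_iff _ measurable_fst fun t => c.SK_Phi t z, dm_iff _ Kin.kt_meas fun t => c.Sk_Phi t z,
      dm_iff _ Kin.k0_meas fun t => c.S0_Phi t z]
    exact Kin.dom_K c.kc c.bR c.hS fr c.bV c.kpos
  split z hz := by
    obtain ⟨h1, h2⟩ := c.cgn_SK.1 hz.gn'
    obtain ⟨h3, h4⟩ := (Kin.dom_K c.kc c.bR c.hS fr c.bV c.kpos).1 h1
    rw [(c.cgn_Sk.2 ⟨h3, rfl⟩).gen_eq', (c.cgn_S0.2 ⟨h4, rfl⟩).gen_eq', ← h2]
    refine ⟨Kin.K_eq c.kc h3 h4, ?_⟩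
    simpa only [pow_one] using (Kin.norm_kt_pow c.kc c.bR c.hS fr c.bV c.kpos 1
      (by simpa only [pow_one] using h1)).2
  two z hz hz' := by
    obtain ⟨h1, h2⟩ := c.cgn_SK.1 hz.gn'
    obtain ⟨h3, h4⟩ := c.cgn_SK.1 hz'.gn'
    rw [← h2] at h3
    obtain ⟨h5, h6⟩ := Calc.Psi_mul h1 h3
    obtain ⟨h7, h8⟩ := Kin.norm_kt_pow c.kc c.bR c.hS fr c.bV c.kpos 2
      (by simpa only [_root_.sq] using h5)
    simp only [_root_.sq] at h7 h8
    have h9 := ((Kin.dom_K c.kc c.bR c.hS fr c.bV c.kpos).1 h1).1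
    have hm : Measurable fun q => (Kin.kt q : ℂ) := measurable_ofReal.comp Kin.kt_meas
    have h10 := c.cgn_Sk.2 ⟨(Calc.dom_Psi h9 hm).2 h7, Calc.Psi_Psi h9 hm h7⟩
    rw [(c.cgn_Sk.2 ⟨h9, rfl⟩).gen_eq', h10.gen_eq', ← h4, ← h2, ← h6]
    exact ⟨h10.dm', h8⟩
  k0 ψ ψ' h h0 hP := by
    have a : ∀ i, c.kc.Dom (fun q => (q.2.1 i : ℂ) * q.2.1 i) ψ ∧
        c.kc.Psi (fun q => (q.2.1 i : ℂ) * q.2.1 i) ψ = gen (Mi c.Q i) (gen (Mi c.Q i) ψ) := by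
      intro i
      obtain ⟨h1, h2⟩ := (c.cgn_Mi i).1 (h i).1.gn'
      obtain ⟨h3, h4⟩ := (c.cgn_Mi i).1 (h i).2.gn'
      rw [← h4, ← h2]
      rw [← h2] at h3
      exact Calc.Psi_mul h1 h3
    obtain ⟨h1, h2⟩ := c.cgn_Pa'.1 hP
    have e : (fun q : Kin.KX => ((SN.dot q.2.1 q.2.1 : ℝ) : ℂ)) =
        fun q => (q.2.1 0 : ℂ) * q.2.1 0 + (q.2.1 1 : ℂ) * q.2.1 1 := by
      funext q
      rw [Kin.dot2]
      push_cast
      rfl
    refine c.cgn_S0.2 (Kin.k0_crit c.kc c.bR c.hS fr c.bV h0 ?_ h1 ?_)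
    · rw [e]
      exact (a 0).1.add (a 1).1
    · rw [e, Calc.Psi_add (a 0).1 (a 1).1, (a 0).2, (a 1).2, h2, Fin.sum_univ_two]

theorem kt_row (c : Ctx D) : T1 c → KT c.toBase := fun _ => kt_thm _

end Vale.Agent.P352L

end
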