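import Vale.Agent.P352X.R.WK.Gen
import Vale.Agent.P352L.R.GRP.C
import Vale.Agent.P352L.Spec

/-!
# P352L, row WK: the kernel theorem for the product of two components of members of the family
-/

set_option linter.all false

noncomputable section

open MeasureTheory Filter Topology Set
open scoped SchwartzMap

namespace Vale.Agent.P352L.Wk

open Vale.Agent.P352X
export Vale.Agent.P352X.Wk (bil fL fL_apply kernel sim2 sim2_apply sim2_tens ug_coe)

open Vale.Agent.P352 Vale.Agent.P352.GF Vale.Agent.P352.BW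
open Vale.Agent.P352.H246 Vale.Agent.P352.H496 Vale.Agent.P352.H755 Vale.Agent.P352.H15
open H148 (snS Od)
open UniformSpace (Completion)
open Vale.Agent.P352X.Br

variable {D : Type*} [NormedAddCommGroup D] [InnerProductSpace ℂ D] {Q : Theory D}
  {T T' : Ix → Ix → Fld D} {TT : ℝ → Ix → Ix → Fld D} {n0 : ℕ}

theorem od' (hT : Stress0 Q T) (m n : Ix) : Od (T m n) (T m n) :=
  have h := Q.bose_fld _ (hT.bose m n)
  ⟨fun f g a v hf hg => Q.lin _ f g a v h hf hg, fun v => Q.cont _ v h, hT.herm m n⟩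

/-- the joint bound for the product of two components -/
theorem bd2' (hT : Stress0 Q T) (hT' : Stress0 Q T') (v : D) : ∃ (m : ℕ) (C : ℝ),
    ∀ i j k l (f g : Sch), ‖T i j (ev f) (T' k l (ev g) v)‖ ≤ C * sn m f * sn m g := by
  choose K n K0 h using fun i : I2 × I2 => (od' hT i.1.1 i.1.2).joint (od' hT' i.2.1 i.2.2) v
  obtain ⟨m, C, C0, hC⟩ := Lie.clm ((snS (Finset.univ.sup n)).comp ofSch.toLinearMap)
    ((H148.cont_snS _).comp ofSch.continuous)
  refine ⟨m, (∑ i, K i) * C * C, fun i j k l f g => (h ((i, j), k, l) (ofSch f) (ofSch g)).trans ?_⟩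
  have e := fun f => (H148.snS_mono (Finset.le_sup (f := n) (Finset.mem_univ ((i, j), k, l)))
    (ofSch f)).trans (hC f)
  have := Finset.single_le_sum (fun i _ => K0 i) (Finset.mem_univ ((i, j), k, l))
  have := Finset.sum_nonneg fun i (_ : i ∈ Finset.univ) => K0 i
  have := Lie.sn_nonneg m f
  calc _ ≤ (∑ i, K i) * (C * sn m f) * (C * sn m g) := by
        gcongr
        exacts [e f, e g]
    _ = _ := by ring

lemma cov' (hF : Fam Q TT n0) (τ : ℝ) {s : ℝ} {L : Ix → V} (hs : 0 < s) (hL : GF.IsLor L) (a : V)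
    (K : I2) (f : Sch) (v : D) : TT (τ + Real.log s) K.1 K.2 (ev f) (Q.U s L a v) =
      ∑ K', L2 L K' K • ueI Q hs hL a (TT τ K'.1 K'.2 (ev (Grp.simS hs hL a f)) v) := by
  rw [hF.cov τ _ _ s L a _ v hs hL ⟨f, rfl⟩, Fintype.sum_prod_type,
    show ev (Grp.simS hs hL a f) = _ from funext (Grp.simS_apply hs hL a f)]
  simp only [L2, Complex.ofReal_mul]
  rfl

/-- families of distributions of two points are polynomial if they are so on products -/
lemma pol2 {H : Type*} [NormedAddCommGroup H] [InnerProductSpace ℂ H] [CompleteSpace H]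
    {W : ℝ → S2 →L[ℂ] H}
    (h : ∀ f g : Sch, IsPol n0 fun τ => W τ (ST.tens f g)) : IsPol n0 W :=
  IsPol.of_lag (a := fun i => W i) fun τ => ST.ext2 fun f g _ _ => by
    rw [(h f g).lag_eq τ]
    simp only [ContinuousLinearMap.sum_apply, ContinuousLinearMap.smul_apply]

/-- **Row WK for a family in any theory.** -/
theorem wk_gen (hF : Fam Q TT n0) : ∃ W : ℝ → ℝ → I2 → I2 → S2 →L[ℂ] Completion D,
    (∀ α β K M (f g : Sch) (F : S2), (∀ x y, F (x, y) = f x * g y) → W α β K M F =
      ((TT α K.1 K.2 (ev f) (TT β M.1 M.2 (ev g) Q.vac) : D) : Completion D)) ∧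
    (∀ α β s L a K M (F G : S2), 0 < s → GF.IsLor L →
      (∀ x y, G (x, y) = F (sim s L a x, sim s L a y)) →
      W (α + Real.log s) (β + Real.log s) K M F =
        ∑ K', ∑ M', (L2 L K' K * L2 L M' M) • Ug Q s L a (W α β K' M' G)) ∧
    (∀ β K M, IsPol n0 fun α => W α β K M) ∧ ∀ α K M, IsPol n0 fun β => W α β K M := by
  choose m C h using fun α β => bd2' (hF.st α) (hF.st β) Q.vac
  choose W hW using fun (α β : ℝ) (K M : I2) => kernel
    (bil (Grp.T_fld (hF.st α) K.1 K.2) (Grp.T_fld (hF.st β) M.1 M.2) Q.vac) (C := C α β)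
      (m := m α β) fun f g => (Completion.norm_coe _).trans_le (h α β _ _ _ _ f g)
  have hW' : ∀ α β K M f g, W α β K M (ST.tens f g) =
      ((TT α K.1 K.2 (ev f) (TT β M.1 M.2 (ev g) Q.vac) : D) : Completion D) := hW
  refine ⟨W, fun α β K M f g F e => ?_, fun α β s L a K M F G hs hL e => ?_,
    fun β K M => pol2 fun f g => ?_, fun α K M => pol2 fun f g => ?_⟩
  · rw [show F = ST.tens f g from SchwartzMap.ext fun z => e z.1 z.2, hW']
  · rw [show G = sim2 hs hL a F from SchwartzMap.ext fun z =>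
      (e z.1 z.2).trans (sim2_apply hs hL a F z.1 z.2).symm]
    have key : W (α + Real.log s) (β + Real.log s) K M = ∑ K', ∑ M', (L2 L K' K * L2 L M' M) •
        (Ug Q s L a ∘L W α β K' M' ∘L sim2 hs hL a) := ST.ext2 fun f g _ _ => by
      simp only [ContinuousLinearMap.sum_apply, ContinuousLinearMap.smul_apply,
        ContinuousLinearMap.comp_apply, sim2_tens, hW', ug_coe hs hL]
      conv_lhs => rw [← Q.U_vac s L a hs hL, cov' hF β hs hL,
        ← fL_apply (Grp.T_fld (hF.st _) K.1 K.2)]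
      simp only [map_sum, map_smul, fL_apply, ueI_apply, cov' hF α hs hL, Finset.smul_sum,
        smul_smul]
      rw [Finset.sum_comm, ← Completion.coe_toComplL (𝕜 := ℂ), map_sum]
      simp only [map_sum, map_smul, Completion.coe_toComplL, mul_comm]
    rw [key]
    simp only [ContinuousLinearMap.sum_apply, ContinuousLinearMap.smul_apply,
      ContinuousLinearMap.comp_apply]
  · simp only [hW']
    exact Grp.pol_coe (hF.pol _ _ _ _ ⟨f, rfl⟩)
  · simp only [hW']
    exact Grp.pol_coe ((hF.pol _ _ _ Q.vac ⟨g, rfl⟩).map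
      ((fL (Grp.T_fld (hF.st α) K.1 K.2) f).restrictScalars ℝ))

theorem _root_.Vale.Agent.P352L.wk_row (c : Ctx D) : WK c := wk_gen c.hF

end Vale.Agent.P352L.Wk
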